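import Vale.Agent.P219.Relax.Four.SeqDefs

/-!
# P219, dimension four: the facts inside the ball from the bounds of the series

With `x = e t ^ 2`, `y = 1 - x`, `P = v y ^ 2 / t ^ 3` and `Q = w y ^ 3 / t ^ 3` the four coefficients
are `(8 + Q) / 8`, `6 t P / 8`, `(3 (1 + x) P - Q) / 8` and `y P / 8`.
-/

noncomputable section

open Set Filter Topology

namespace Vale.Agent.P219.CH.Relax.Four

namespace Alg

/-- The scalar bounds at one contact. -/
structure AtContact (t x y P Q : ℝ) : Prop where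
  t_pos : 0 < t
  t_le : t ≤ 1
  x_pos : 0 ≤ x
  y_pos : 0 < y
  sum : y = 1 - x
  P_nonneg : 0 ≤ P
  lo : (3 - x / 2) * P ≤ Q
  hi : Q ≤ (3 + x) * P
  slope : 3 * t ^ 2 * P ≤ 8 + Q
  weight : (3 * t ^ 2 - 5 * x) * P ≤ 8
  rim : (2 * y - 3 * (1 - t ^ 2)) * P ≤ 8

theorem AtContact.spread {t x y P Q : ℝ} (h : AtContact t x y P Q) :
    0 ≤ 3 * (1 + x) * P - Q := by
  have := mul_nonneg h.x_pos h.P_nonneg
  linarith [h.hi]

theorem AtContact.third {t x y P Q : ℝ} (h : AtContact t x y P Q) :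
    2 * t * P ≤ 8 + Q := by
  have := mul_le_mul_of_nonneg_right (show 2 * t ≤ 3 - x / 2 by linarith [h.t_le, h.sum, h.y_pos])
    h.P_nonneg
  linarith [h.lo]

theorem AtContact.mono {t x y P Q : ℝ} (h : AtContact t x y P Q) {c : ℝ} (hc : 0 ≤ c)
    (hc1 : c ≤ 1) : 0 ≤ 8 + Q - 6 * t * P * c + 2 * (3 * (1 + x) * P - Q) * c ^ 2 := by
  have h1 := mul_nonneg (mul_nonneg (by norm_num : (0 : ℝ) ≤ 3) h.P_nonneg) (sq_nonneg (t - c))
  have hc2 : 0 ≤ 1 - c ^ 2 := sub_nonneg.2 (pow_le_one₀ hc hc1)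
  have h2 := mul_nonneg hc2 (sub_nonneg.2 h.slope)
  have h3 := mul_nonneg (sq_nonneg c) (show 0 ≤ 8 + 5 * x * P - 3 * t ^ 2 * P + ((3 + x) * P - Q) by
    linarith [h.hi, h.weight])
  linarith

theorem AtContact.gain {t x y P Q : ℝ} (h : AtContact t x y P Q) {c d : ℝ} (hc : 0 ≤ c)
    (hc1 : c ≤ 1) (hd : 0 ≤ d) (hd1 : d ≤ 1) :
    0 ≤ 16 + 2 * Q - 6 * t * P * (c + d) + (3 * (1 + x) * P - Q) * (c ^ 2 + d ^ 2)
      + 2 * (y * P) * (c * d) := by
  obtain rfl := h.sum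
  rcases le_total ((1 - x) * P) (3 * (1 + x) * P - Q) with hq | hq
  · obtain ⟨m, hm⟩ : ∃ m, m = (c + d) / 2 := ⟨_, rfl⟩
    have hm2 : 0 ≤ 1 - m ^ 2 := sub_nonneg.2 (pow_le_one₀ (by rw [hm]; positivity) (by linarith))
    have h1 := mul_nonneg (mul_nonneg (by norm_num : (0 : ℝ) ≤ 6) h.P_nonneg) (sq_nonneg (t - m))
    have h2 := mul_nonneg hm2 (sub_nonneg.2 h.slope)
    have h3 := mul_nonneg (sq_nonneg m) (show 0 ≤ 8 + 3 * x * P + (1 - x) * P - 3 * t ^ 2 * P by
      linarith [h.rim])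
    have h4 := mul_nonneg (sub_nonneg.2 hq) (sq_nonneg (c - d))
    rw [hm] at h1 h2 h3
    linarith
  obtain ⟨S, hS⟩ : ∃ S, S = c + d := ⟨_, rfl⟩
  have hcd : 0 ≤ c * d := mul_nonneg hc hd
  rcases le_total S 1 with hS1 | hS1
  · have h1 := h.mono (show 0 ≤ S by linarith) hS1
    have h2 := mul_le_mul_of_nonneg_left hS1 (show 0 ≤ 6 * t * P by
      have := h.t_pos; have := h.P_nonneg; positivity)
    have h3 := h.third
    have h4 := mul_le_mul_of_nonneg_right hq hcd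
    rw [hS] at h1 h2
    linarith
  · have h1 := mul_le_mul_of_nonneg_left
      (show S - 1 ≤ c * d by linarith [mul_nonneg (sub_nonneg.2 hc1) (sub_nonneg.2 hd1)])
      (sub_nonneg.2 hq)
    have hS2 : 0 ≤ S * (2 - S) := mul_nonneg (by linarith) (by linarith)
    have h2 := mul_nonneg hS2 (show 0 ≤ Q - (2 + 4 * x) * P by linarith)
    have hf : 0 ≤ 16 + P * (4 + 8 * x - 6 * t * S + (1 - x) * S ^ 2) := by
      rcases le_total (2 * (1 - x) / 3) t with ht | ht
      · have h5 := mul_nonneg (mul_nonneg h.P_nonneg (show 0 ≤ 2 - S by linarith))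
          (show 0 ≤ 6 * t - (1 - x) * (2 + S) by
            linarith [mul_le_mul_of_nonneg_left (show 2 + S ≤ 4 by linarith) h.y_pos.le])
        have h6 := mul_nonneg h.P_nonneg (sq_nonneg (1 - t))
        linarith [h.rim]
      · have h5 := mul_le_mul ht ht h.t_pos.le (by linarith [h.y_pos])
        have h6 : 0 ≤ 4 + 8 * x - 6 * t * S + (1 - x) * S ^ 2 := by
          refine nonneg_of_mul_nonneg_right (a := 1 - x) ?_ h.y_pos
          linarith [sq_nonneg ((1 - x) * S - 3 * t), mul_nonneg h.x_pos h.y_pos.le]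
        have := mul_nonneg h.P_nonneg h6
        linarith
    rw [hS] at h1 h2 hf
    linarith

theorem AtContact.mixed {t x y P Q : ℝ} (h : AtContact t x y P Q) {c d : ℝ} (hc : 0 ≤ c)
    (hc1 : c ≤ 1) (hd : 0 ≤ d) (hd1 : d ≤ 1) :
    2 * (y * P) * (c * d) ≤ 16 + 2 * Q - 6 * t * P * c + 6 * t * P * d
      + (3 * (1 + x) * P - Q) * (c ^ 2 + d ^ 2) := by
  have hd' := mul_nonneg h.spread (sq_nonneg d)
  rcases le_total (2 * y) (6 * t) with ht | ht
  · have h1 := h.mono hc hc1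
    have h2 := mul_le_mul_of_nonneg_left hc1 (show 0 ≤ 6 * t * P by
      have := h.t_pos; have := h.P_nonneg; positivity)
    have h3 := h.third
    have h4 := mul_le_mul_of_nonneg_right ht (mul_nonneg h.P_nonneg hd)
    have h5 := mul_le_mul_of_nonneg_left hc1
      (show 0 ≤ 2 * y * (P * d) by have := h.y_pos; have := h.P_nonneg; positivity)
    linarith
  · have hc' := mul_nonneg h.spread (sq_nonneg c)
    have h2 := mul_le_mul_of_nonneg_left hc1 (show 0 ≤ 6 * t * P by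
      have := h.t_pos; have := h.P_nonneg; positivity)
    have h3 := mul_le_mul_of_nonneg_right ht h.P_nonneg
    have h4 := mul_nonneg (show 0 ≤ 6 * t * P by
      have := h.t_pos; have := h.P_nonneg; positivity) hd
    have h5 := mul_le_mul_of_nonneg_left (mul_le_one₀ hc1 hd hd1)
      (show 0 ≤ 2 * (y * P) by have := h.y_pos; have := h.P_nonneg; positivity)
    have h6 := mul_le_mul_of_nonneg_right (show 4 * y ≤ 6 - x by linarith [h.sum, h.x_pos])
      h.P_nonneg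
    linarith [h.lo]

/-- The value at the diameter is small next to the curvature. -/
theorem edge_bound {e β : ℝ} {v w : ℝ → ℝ} (he : e ∈ Ioo (0 : ℝ) 1) (hs : Sol e β v w)
    (hb : InBounds e β v w) : v 1 * (1 - e) ^ 3 ≤ 32 / 9 := by
  have hd : 0 < 1 - e := sub_pos.2 he.2
  have hlo := hb.ratio_lo 1 (right_mem_Ioc.2 one_pos)
  obtain ⟨k, hk, hkv⟩ := hb.origin_pos
  have hv : 0 ≤ v 1 := by linarith [hkv 1 (right_mem_Ioc.2 one_pos)]
  have hE := hs.edge
  simp only [yf, src, one_pow, mul_one] at hlo hE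
  have hE' : 6 * v 1 * (1 - e) ^ 3 + 2 * β * (1 - e) ^ 3 - 24 * (1 + e)
      + 3 * w 1 * (1 - e) ^ 4 = 0 := by
    field_simp at hE
    linarith
  have h1 := mul_le_mul_of_nonneg_left hlo (show 0 ≤ 3 * (1 - e) ^ 3 by positivity)
  have h2 : 0 ≤ β * (1 - e) ^ 3 := mul_nonneg (by linarith [hb.beta_lo]) (pow_nonneg hd.le 3)
  have h3 : (15 - 3 / 2 * e) * (v 1 * (1 - e) ^ 3) ≤ 24 * (1 + e) := by linarith
  refine le_of_mul_le_mul_left ?_ (show 0 < 15 - 3 / 2 * e by linarith [he.2])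
  linarith [he.2]

/-- The coefficient bound below three fifths. -/
theorem weight_poly {e : ℝ} (h0 : 0 ≤ e) (h1 : e ≤ 3 / 5) :
    (3 - 5 * e) * (cInf e * (1 + (10 - 4 * e) / (8 * (1 - e)))) ≤ 8 := by
  have hd : 0 < 1 - e := by linarith
  have e1 : (3 - 5 * e) * (cInf e * (1 + (10 - 4 * e) / (8 * (1 - e)))) =
      (3 - 5 * e) * e * (18 - 12 * e) / (4 * (1 - e) ^ 2) := by
    unfold cInf
    field_simp
    ring
  rw [e1, div_le_iff₀ (by positivity)]
  nlinarith [mul_nonneg (mul_nonneg h0 h0) (sub_nonneg.2 h1), sq_nonneg (e - 1 / 2),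
    mul_nonneg h0 (sub_nonneg.2 h1)]

theorem at_contact {e β : ℝ} {v w : ℝ → ℝ} (he : e ∈ Ioo (0 : ℝ) 1) (hs : Sol e β v w)
    (hb : InBounds e β v w) {t : ℝ} (ht : t ∈ Ioc (0 : ℝ) 1) :
    AtContact t (e * t ^ 2) (yf e t) (v t * yf e t ^ 2 / t ^ 3) (w t * yf e t ^ 3 / t ^ 3) := by
  have hy : 0 < yf e t := yf_pos he ht.1.le ht.2
  have ht3 : 0 < t ^ 3 := pow_pos ht.1 3
  obtain ⟨k, hk, hkv⟩ := hb.origin_pos
  have hv : 0 ≤ v t := (mul_nonneg hk.le ht3.le).trans (hkv t ht)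
  obtain ⟨P, hP⟩ : ∃ P, P = v t * yf e t ^ 2 / t ^ 3 := ⟨_, rfl⟩
  have hP0 : 0 ≤ P := hP ▸ by positivity
  have hK := hb.weight_le t ht
  have hR := hb.rim_le t ht
  have hB := edge_bound he hs hb
  have hS := mul_nonneg (hb.slope_nonneg t ht) (show 0 ≤ 4 * yf e t ^ 3 by positivity)
  have hS' : slopeF e t (v t) (w t) * (4 * yf e t ^ 3) =
      8 + w t * yf e t ^ 3 / t ^ 3 - 3 * t ^ 2 * P := by
    rw [hP, slopeF]
    have := ht.1
    field_simp
    ring
  rw [← hP]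
  refine ⟨ht.1, ht.2, mul_nonneg he.1.le (sq_nonneg t), hy, rfl, hP0, ?_, ?_, by linarith, ?_, ?_⟩
  · have h := div_le_div_of_nonneg_right
      (mul_le_mul_of_nonneg_right (hb.ratio_lo t ht) (sq_nonneg (yf e t))) ht3.le
    refine le_of_eq_of_le ?_ (h.trans_eq ?_) <;> (try rw [hP]) <;> ring
  · have h := div_le_div_of_nonneg_right
      (mul_le_mul_of_nonneg_right (hb.ratio_hi t ht) (sq_nonneg (yf e t))) ht3.le
    refine le_of_eq_of_le ?_ (h.trans_eq ?_) <;> (try rw [hP]) <;> ring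
  · rcases le_total e (3 / 5) with h | h
    · have h1 : P ≤ cInf e * (1 + (10 - 4 * e) / (8 * (1 - e))) := by
        rw [hP, div_le_iff₀ ht3]
        linarith
      have h2 := weight_poly he.1.le h
      have h3 := mul_le_mul_of_nonneg_left h1 (show 0 ≤ 3 - 5 * e by linarith)
      have h4 := mul_le_mul_of_nonneg_right (pow_le_one₀ (n := 2) ht.1.le ht.2)
        (mul_nonneg (show 0 ≤ 3 - 5 * e by linarith) hP0)
      linarith
    · have := mul_nonpos_of_nonpos_of_nonneg (show 3 - 5 * e ≤ 0 by linarith)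
        (mul_nonneg (sq_nonneg t) hP0)
      linarith
  · rcases le_total (2 * yf e t - 3 * (1 - t ^ 2)) 0 with h | h
    · linarith [mul_nonpos_of_nonpos_of_nonneg h hP0]
    · have h1 : P ≤ v 1 * (1 - e) * yf e t := by
        rw [hP, show v t * yf e t ^ 2 / t ^ 3 = v t * yf e t / t ^ 3 * yf e t by ring]
        exact mul_le_mul_of_nonneg_right hR hy.le
      have hd : 0 < 1 - e := sub_pos.2 he.2
      have hv1 : 0 ≤ v 1 := by linarith [hkv 1 (right_mem_Ioc.2 one_pos)]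
      have h2 := mul_le_mul_of_nonneg_left h1 h
      have h3 : 2 * yf e t - 3 * (1 - t ^ 2) ≤ 3 * (1 - e) - yf e t := by
        have := mul_nonneg hd.le (sub_nonneg.2 (pow_le_one₀ (n := 2) ht.1.le ht.2))
        rw [yf]
        linarith
      have h4 := mul_le_mul_of_nonneg_right h3
        (show 0 ≤ v 1 * (1 - e) * yf e t by positivity)
      have h5 := mul_nonneg (mul_nonneg hv1 hd.le) (sq_nonneg (yf e t - 3 / 2 * (1 - e)))
      linarith

/-- The derivative of the slope along a solution. -/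
theorem hasDerivAt_slope {e β : ℝ} {v w : ℝ → ℝ} (he : e ∈ Ioo (0 : ℝ) 1) (hs : Sol e β v w)
    {t : ℝ} (ht : t ∈ Ioo (0 : ℝ) 1) :
    HasDerivAt (fun t => slopeF e t (v t) (w t)) (slopeDeriv e β t (v t) (w t)) t := by
  have hy : 0 < yf e t := yf_pos he ht.1.le ht.2.le
  have ht0 : t ≠ 0 := ht.1.ne'
  have dy : HasDerivAt (yf e) (-(2 * e * t)) t := by
    refine (((hasDerivAt_id t).fun_pow 2).const_mul e |>.const_sub 1).congr_deriv ?_
    simp only [id_eq]
    ring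
  have dv := hs.deriv_v t ht
  have dw := hs.deriv_w t ht
  have h1 := (hasDerivAt_const t (2 : ℝ)).div (dy.fun_pow 3) (pow_ne_zero 3 hy.ne')
  have h2 := dw.div (((hasDerivAt_id t).fun_pow 3).const_mul 4) (by simpa using ht0)
  have h3 := (dv.const_mul 3).div (((hasDerivAt_id t).const_mul 4).mul dy)
    (by simpa using ⟨ht0, hy.ne'⟩)
  refine ((h1.add h2).sub h3).congr_deriv ?_
  simp only [id_eq, Pi.mul_apply, slopeDeriv]
  push_cast
  field_simp
  ring

theorem algPin : AlgPin := by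
  intro e he β v w hs hb
  have hat := fun t (ht : t ∈ Ioc (0 : ℝ) 1) => at_contact he hs hb ht
  have ep : ∀ t, p0F e t (w t) = (8 + w t * yf e t ^ 3 / t ^ 3) / 8 := fun t => by
    unfold p0F; ring
  have eh : ∀ t, 0 < t → hF e t (v t) = 6 * t * (v t * yf e t ^ 2 / t ^ 3) / 8 := fun t ht => by
    unfold hF; field_simp; ring
  have eq : ∀ t, qF e t (v t) (w t) = (3 * (1 + e * t ^ 2) * (v t * yf e t ^ 2 / t ^ 3) -
      w t * yf e t ^ 3 / t ^ 3) / 8 := fun t => by unfold qF; ring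
  have eg : ∀ t, gamF e t (v t) = yf e t * (v t * yf e t ^ 2 / t ^ 3) / 8 := fun t => by
    unfold gamF; ring
  refine ⟨hb.origin_pos, fun t ht => ?_, fun t ht c hc => ?_, fun t ht => ?_, hb.slope_nonneg,
    fun t ht => ?_, fun t ht c hc d hd => ?_, fun t ht c hc d hd => ?_⟩
  · have hy : 0 < yf e t := yf_pos he ht.1.le ht.2
    obtain ⟨k, hk, hkv⟩ := hb.origin_pos
    have hv : 0 ≤ v t := (mul_nonneg hk.le (pow_nonneg ht.1.le 3)).trans (hkv t ht)
    have hx : e * t ^ 2 ≤ 1 := mul_le_one₀ he.2.le (sq_nonneg t) (pow_le_one₀ ht.1.le ht.2)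
    exact nonneg_of_mul_nonneg_right ((mul_nonneg (by linarith) hv).trans (hb.ratio_lo t ht)) hy
  · rw [ep, eh t ht.1, eq]
    linarith [(hat t ht).mono hc.1 hc.2]
  · rw [ep, eh t ht.1]
    have := (hat t ht).third
    linarith
  · have hd := (hasDerivAt_slope he hs ht).hasDerivWithinAt (s := Ioo 0 1)
    rw [← hd.derivWithin (isOpen_Ioo.uniqueDiffWithinAt ht)]
    exact (hb.slope_mono.mono Ioo_subset_Ioc_self).derivWithin_nonneg
  · rw [ep, eh t ht.1, eq, eg]
    linarith [(hat t ht).gain hc.1 hc.2 hd.1 hd.2]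
  · rw [ep, eh t ht.1, eq, eg]
    linarith [(hat t ht).mixed hc.1 hc.2 hd.1 hd.2]

end Alg

end Vale.Agent.P219.CH.Relax.Four
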