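import Vale.Agent.P219.Relax.Four.Weight
import Vale.Agent.P219.Relax.Four.AlgFacts

/-!
# P219, dimension four: the certificate against every ball

The pair bound is the tangent of the convex diagonal at the contact against the tangent of the
concave marginal coefficient; beyond the diameter both tangents are taken at cosine one.
-/

noncomputable section

open Set Filter Topology MeasureTheory

namespace Vale.Agent.P219.CH.Relax.Four

open GenK.Four (tanh_pos)
open Ser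

/-- The marginal coefficient over the cosine. -/
def margA (R β : ℝ) (v w : ℝ → ℝ) (c : ℝ) : ℝ :=
  (2 * Real.tanh R) ^ 3 * c / yf (Real.tanh R ^ 2) c ^ 3 *
      (p0F (Real.tanh R ^ 2) c (w c) - hF (Real.tanh R ^ 2) c (v c) * c +
        qF (Real.tanh R ^ 2) c (v c) (w c) * c ^ 2) -
    Real.tanh R ^ 2 * β * Real.log ((1 + Real.tanh R * c) / (1 - Real.tanh R * c))

lemma aFour_eq (R β : ℝ) (v w : ℝ → ℝ) (c : ℝ) : aFour R β v w c = c * margA R β v w c := rfl

variable {R β : ℝ} {v w : ℝ → ℝ} {b : ℕ → ℝ}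

lemma margA_zero : margA R β v w 0 = 0 := by simp [margA]

lemma Tc_lt_one (hR : 0 < R) {c : ℝ} (hc : c ∈ Icc (0 : ℝ) 1) : Real.tanh R * c < 1 :=
  (mul_le_of_le_one_right (tanh_pos hR).le hc.2).trans_lt (Real.tanh_lt_one R)

lemma hasDerivAt_margA (hR : 0 < R) (hs : Sol (Real.tanh R ^ 2) β v w) {t : ℝ}
    (ht : t ∈ Ioo (0 : ℝ) 1) :
    HasDerivAt (margA R β v w)
      (-((2 * Real.tanh R) ^ 3 * slopeF (Real.tanh R ^ 2) t (v t) (w t))) t := by
  have hT := tanh_pos hR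
  have hy := yf_pos (tanh_sq_mem hR) ht.1.le ht.2.le
  have h1 : 0 < 1 - Real.tanh R * t := sub_pos.2 (Tc_lt_one hR (Ioo_subset_Icc_self ht))
  have h2 : 0 < 1 + Real.tanh R * t := by nlinarith [mul_pos hT ht.1]
  have ht0 := ht.1.ne'
  have dv := hs.deriv_v t ht
  have dw := hs.deriv_w t ht
  have dy : HasDerivAt (yf (Real.tanh R ^ 2)) (-(2 * Real.tanh R ^ 2 * t)) t :=
    (((hasDerivAt_id t).pow 2).const_mul (Real.tanh R ^ 2)).const_sub 1 |>.congr_deriv
      (by simp; ring)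
  have d3 : HasDerivAt (fun x : ℝ => 8 * x ^ 3) (8 * (3 * t ^ 2)) t := by
    simpa using (((hasDerivAt_id t).pow 3).const_mul (8 : ℝ))
  have dp := ((dw.mul (dy.pow 3)).div d3 (by positivity)).const_add 1
  have dh := ((dv.const_mul 3).mul (dy.pow 2)).div
    (((hasDerivAt_id t).pow 2).const_mul 4) (by simp [ht0])
  have dq := ((dy.pow 2).mul (((((((hasDerivAt_id t).pow 2).const_mul
    (Real.tanh R ^ 2)).const_add 1).const_mul 3).mul dv).sub (dy.mul dw))).div d3 (by positivity)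
  have dl := ((((hasDerivAt_id t).const_mul (Real.tanh R)).const_add 1).div
    (((hasDerivAt_id t).const_mul (Real.tanh R)).const_sub 1) h1.ne').log (div_pos h2 h1).ne'
  have dA := ((((hasDerivAt_id t).const_mul ((2 * Real.tanh R) ^ 3)).div (dy.pow 3)
    (pow_ne_zero 3 hy.ne')).mul ((dp.sub (dh.mul (hasDerivAt_id t))).add
      (dq.mul ((hasDerivAt_id t).pow 2)))).sub (dl.const_mul (Real.tanh R ^ 2 * β))
  have hA : HasDerivAt (margA R β v w) _ t := dA
  refine hA.congr_deriv ?_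
  simp only [Pi.mul_apply, Pi.div_apply, Pi.pow_apply, Pi.add_apply, Pi.sub_apply, id_eq,
    slopeF, wDeriv, src]
  push_cast
  have hd := (one_sub_sq_pos ht.1.le ht.2).ne'
  have : yf (Real.tanh R ^ 2) t = (1 - Real.tanh R * t) * (1 + Real.tanh R * t) := by rw [yf]; ring
  rw [this]
  field_simp
  ring

lemma continuousOn_margA (hR : 0 < R) (hb : CoeffFacts (Real.tanh R ^ 2) b) :
    ContinuousOn (margA R β (vSer (Real.tanh R ^ 2) b) (wSer (Real.tanh R ^ 2) b)) (Icc 0 1) := by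
  have he := tanh_sq_mem hR
  have hbb := hb.polyBdd he
  set e := Real.tanh R ^ 2 with hee
  have hm : ∀ c ∈ Icc (0 : ℝ) 1, e * c ^ 2 ∈ Ioo (-1 : ℝ) 1 := fun c hc =>
    abs_lt.1 (abs_arg_lt he hc)
  have hser : ∀ g : ℕ → ℝ, PolyBdd g → ContinuousOn (fun c => ser g (e * c ^ 2)) (Icc 0 1) :=
    fun g hg => (continuousOn_ser hg).comp (by fun_prop) hm
  have hFs := hser b hbb
  have hW := hser (wCoef b) (wCoef_bdd hbb)
  have hy : ∀ c ∈ Icc (0 : ℝ) 1, (1 - e * c ^ 2) ^ 3 ≠ 0 := fun c hc =>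
    pow_ne_zero 3 (sub_pos.2 (hm c hc).2).ne'
  have hl : ContinuousOn (fun c => Real.log ((1 + Real.tanh R * c) / (1 - Real.tanh R * c)))
      (Icc 0 1) :=
    (ContinuousOn.div (by fun_prop) (by fun_prop) fun c hc =>
      (sub_pos.2 (Tc_lt_one hR hc)).ne').log fun c hc =>
        (div_pos (by nlinarith [mul_nonneg (tanh_pos hR).le hc.1])
          (sub_pos.2 (Tc_lt_one hR hc))).ne'
  refine ContinuousOn.congr (f := fun c => (2 * Real.tanh R) ^ 3 * c / (1 - e * c ^ 2) ^ 3 *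
      (1 + ser (wCoef b) (e * c ^ 2) * (1 - e * c ^ 2) ^ 3 / 8 -
        3 * c * ser b (e * c ^ 2) * (1 - e * c ^ 2) ^ 2 / 4 * c +
        (1 - e * c ^ 2) ^ 2 * (3 * (1 + e * c ^ 2) * ser b (e * c ^ 2) -
          (1 - e * c ^ 2) * ser (wCoef b) (e * c ^ 2)) / 8 * c ^ 2) -
      e * β * Real.log ((1 + Real.tanh R * c) / (1 - Real.tanh R * c))) ?_ fun c _ => ?_
  · exact ((ContinuousOn.div (by fun_prop) (by fun_prop) hy).mul (by fun_prop)).sub
      (continuousOn_const.mul hl)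
  · rcases eq_or_ne c 0 with rfl | hc
    · simp [margA]
    · simp only [margA, p0F, hF, qF, yf, vSer, wSer, ← hee]
      field_simp

lemma margA_le_tangent (hR : 0 < R) (hs : Sol (Real.tanh R ^ 2) β v w)
    (hc0 : ContinuousOn (margA R β v w) (Icc 0 1))
    (hi : InBounds (Real.tanh R ^ 2) β v w) {c t : ℝ}
    (hc : c ∈ Ioc (0 : ℝ) 1) (ht : t ∈ Ioc (0 : ℝ) 1) :
    margA R β v w c ≤ margA R β v w t -
      (2 * Real.tanh R) ^ 3 * slopeF (Real.tanh R ^ 2) t (v t) (w t) * (c - t) := by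
  have hK : 0 ≤ (2 * Real.tanh R) ^ 3 := pow_nonneg (by linarith [tanh_pos hR]) 3
  rcases lt_trichotomy c t with h | h | h
  · obtain ⟨x, hx, he⟩ := exists_hasDerivAt_eq_slope (margA R β v w) _ h
      (hc0.mono (Icc_subset_Icc hc.1.le ht.2))
      fun x hx => hasDerivAt_margA hR hs ⟨hc.1.trans hx.1, hx.2.trans_le ht.2⟩
    rw [eq_div_iff (sub_pos.2 h).ne'] at he
    have := mul_le_mul_of_nonneg_left
      (hi.slope_mono ⟨hc.1.trans hx.1, hx.2.le.trans ht.2⟩ ht hx.2.le) hK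
    linarith [mul_le_mul_of_nonneg_right this (sub_nonneg.2 h.le)]
  · subst h; simp
  · obtain ⟨x, hx, he⟩ := exists_hasDerivAt_eq_slope (margA R β v w) _ h
      (hc0.mono (Icc_subset_Icc ht.1.le hc.2))
      fun x hx => hasDerivAt_margA hR hs ⟨ht.1.trans hx.1, hx.2.trans_le hc.2⟩
    rw [eq_div_iff (sub_pos.2 h).ne'] at he
    have := mul_le_mul_of_nonneg_left
      (hi.slope_mono ht ⟨ht.1.trans hx.1, hx.2.le.trans hc.2⟩ hx.1.le) hK
    linarith [mul_le_mul_of_nonneg_right this (sub_nonneg.2 h.le)]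

lemma margA_nonpos (hR : 0 < R) (hs : Sol (Real.tanh R ^ 2) β v w)
    (hc0 : ContinuousOn (margA R β v w) (Icc 0 1))
    (hi : InBounds (Real.tanh R ^ 2) β v w) {c : ℝ} (hc : c ∈ Icc (0 : ℝ) 1) :
    margA R β v w c ≤ 0 := by
  have h : AntitoneOn (margA R β v w) (Icc 0 1) := by
    refine antitoneOn_of_deriv_nonpos (convex_Icc 0 1) hc0 (fun x hx => ?_) fun x hx => ?_
    · rw [interior_Icc] at hx
      exact (hasDerivAt_margA hR hs hx).differentiableAt.differentiableWithinAt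
    · rw [interior_Icc] at hx
      rw [(hasDerivAt_margA hR hs hx).deriv]
      exact neg_nonpos.2 (mul_nonneg (pow_nonneg (by linarith [tanh_pos hR]) 3)
        (hi.slope_nonneg x (Ioo_subset_Ioc_self hx)))
  simpa [margA_zero] using h ⟨le_rfl, zero_le_one⟩ hc hc.1

/-- The pair bound at one distance from the tangent at `t`. -/
lemma pair_core {p h q S A A' B c d t : ℝ} (hS : 0 ≤ S) (hc : c ∈ Ioc (0 : ℝ) 1)
    (hd : d ∈ Ioc (0 : ℝ) 1) (ht : t ∈ Ioc (0 : ℝ) 1)
    (hmono : ∀ x ∈ Icc (0 : ℝ) 1, 0 ≤ p - h * x + 2 * q * x ^ 2)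
    (hconv : ∀ x ∈ Ioc (0 : ℝ) 1, 0 ≤ p * (2 * x + t) - h * (x * t))
    (hval : A + B ≤ S * (p - h * t + q * t ^ 2) / t ^ 2)
    (hslope : 0 ≤ ((c + d) / 2 - t) * (S * (h * t - 2 * p) / t ^ 3 - A')) :
    (c * d) * (2 * (A + A' * ((c + d) / 2 - t)) + 2 * B) ≤
      S * (2 * p - h * (c + d) + q * (c ^ 2 + d ^ 2)) := by
  set m := (c + d) / 2 with hm
  have hmI : m ∈ Ioc (0 : ℝ) 1 := ⟨by linarith [hc.1, hd.1], by linarith [hc.2, hd.2]⟩
  have h1 : (c * d) * (2 * S * (p - h * m + q * m ^ 2) / m ^ 2) ≤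
      S * (2 * p - h * (c + d) + q * (c ^ 2 + d ^ 2)) := by
    rw [mul_div_assoc', div_le_iff₀ (pow_pos hmI.1 2), hm]
    have := mul_nonneg (mul_nonneg hS (sq_nonneg ((c - d) / 2)))
      (hmono m (Ioc_subset_Icc_self hmI))
    rw [hm] at this
    linarith
  have h2 : 0 ≤ (p - h * m + q * m ^ 2) / m ^ 2 - (p - h * t + q * t ^ 2) / t ^ 2 -
      (h * t - 2 * p) / t ^ 3 * (m - t) := by
    have e : (p - h * m + q * m ^ 2) / m ^ 2 - (p - h * t + q * t ^ 2) / t ^ 2 -
        (h * t - 2 * p) / t ^ 3 * (m - t) =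
        (m - t) ^ 2 * (p * (2 * m + t) - h * (m * t)) / (m ^ 2 * t ^ 3) := by
      have := hmI.1.ne'
      have := ht.1.ne'
      field_simp
      ring
    rw [e]
    exact div_nonneg (mul_nonneg (sq_nonneg _) (hconv m hmI))
      (mul_nonneg (sq_nonneg _) (pow_nonneg ht.1.le 3))
  have h3 := mul_nonneg hS h2
  have h4 : 2 * (A + A' * (m - t)) + 2 * B ≤ 2 * S * (p - h * m + q * m ^ 2) / m ^ 2 := by
    have e1 : S * (p - h * t + q * t ^ 2) / t ^ 2 = S * ((p - h * t + q * t ^ 2) / t ^ 2) :=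
      mul_div_assoc _ _ _
    have e2 : S * (h * t - 2 * p) / t ^ 3 = S * ((h * t - 2 * p) / t ^ 3) := mul_div_assoc _ _ _
    have e3 : 2 * S * (p - h * m + q * m ^ 2) / m ^ 2 =
        2 * (S * ((p - h * m + q * m ^ 2) / m ^ 2)) := by ring
    rw [e2] at hslope
    rw [e1] at hval
    rw [e3]
    linarith
  exact (mul_le_mul_of_nonneg_left h4 (mul_pos hc.1 hd.1).le).trans h1

lemma log_contact (hR : 0 < R) (r : ℝ) :
    Real.log ((1 + Real.tanh R * (Real.tanh (r / 2) / Real.tanh R)) /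
      (1 - Real.tanh R * (Real.tanh (r / 2) / Real.tanh R))) = r := by
  have h := Real.artanh_eq_half_log (x := Real.tanh (r / 2))
    ⟨(abs_lt.1 (Real.abs_tanh_lt_one _)).1.le, (abs_lt.1 (Real.abs_tanh_lt_one _)).2.le⟩
  rw [Real.artanh_tanh] at h
  rw [mul_div_cancel₀ _ (tanh_pos hR).ne']
  linarith

/-- The kernel is above the two values and the volume term. -/
lemma pair_facts (hR : 0 < R) (hs : Sol (Real.tanh R ^ 2) β v w)
    (hc0 : ContinuousOn (margA R β v w) (Icc 0 1)) (hi : InBounds (Real.tanh R ^ 2) β v w)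
    (hin : InFacts (Real.tanh R ^ 2) β v w) (ho : OutFacts R β (v 1))
    {u : ℝ → ℝ} (hu : Differentiable ℝ u) (hvu : ∀ r, 0 < r → radU u r = uFour R β v r)
    {r c d : ℝ} (hr : 0 < r) (hc : c ∈ Ioc (0 : ℝ) 1) (hd : d ∈ Ioc (0 : ℝ) 1) :
    c * d * (margA R β v w c + margA R β v w d + 2 * (Real.tanh R ^ 2 * β) * r) ≤
      Real.sinh r ^ 3 * sym 4 R (radW u) r c d := by
  have hT := tanh_pos hR
  have hS : 0 ≤ Real.sinh r ^ 3 := pow_nonneg (Real.sinh_pos_iff.2 hr).le 3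
  have hcd : 0 ≤ c * d := (mul_pos hc.1 hd.1).le
  rw [sym_coeff hu hr]
  rcases lt_or_ge r (2 * R) with h | h
  · have ht' := contact_mem hR ⟨hr, h⟩
    obtain ⟨t, htd⟩ : ∃ t, t = Real.tanh (r / 2) / Real.tanh R := ⟨_, rfl⟩
    obtain ⟨e1, e2, e3, -⟩ := coeff_in hR hs.deriv_v hvu ⟨hr, h⟩ rfl htd
    rw [← htd] at ht'
    have ht : t ∈ Ioc (0 : ℝ) 1 := Ioo_subset_Ioc_self ht'
    have h1 := margA_le_tangent hR hs hc0 hi hc ht
    have h2 := margA_le_tangent hR hs hc0 hi hd ht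
    have hy := yf_pos (tanh_sq_mem hR) ht.1.le ht.2
    have hsr : Real.sinh r = 2 * Real.tanh R * t / yf (Real.tanh R ^ 2) t := by
      rw [GenK.Four.sinh_eq, yf, htd]
      field_simp
    rw [e1, e2, e3]
    have hp : 0 ≤ p0F (Real.tanh R ^ 2) t (w t) := by
      rw [p0F]
      have := mul_nonneg (hin.w_nonneg t ht) (pow_nonneg hy.le 3)
      have := ht.1
      positivity
    have key := pair_core (A := margA R β v w t) (B := Real.tanh R ^ 2 * β * r)
      (A' := -((2 * Real.tanh R) ^ 3 * slopeF (Real.tanh R ^ 2) t (v t) (w t))) hS hc hd ht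
      (hin.mono t ht) (fun x hx => ?_) (le_of_eq ?_) (le_of_eq ?_)
    · refine le_trans ?_ key
      have := mul_le_mul_of_nonneg_left (add_le_add h1 h2) hcd
      linarith
    · have h3 := mul_le_mul_of_nonneg_right (hin.conv t ht) (mul_pos hx.1 ht.1).le
      have h4 : 3 * (x * t) ≤ 2 * x + t := by
        nlinarith [mul_nonneg hx.1.le (sub_nonneg.2 ht.2), mul_nonneg ht.1.le (sub_nonneg.2 hx.2)]
      linarith [mul_le_mul_of_nonneg_left h4 hp]
    · have hl := log_contact hR r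
      rw [← htd] at hl
      rw [margA, hl, hsr]
      have := ht.1.ne'
      field_simp
      ring
    · symm
      refine mul_eq_zero_of_right _ ?_
      rw [hsr, slopeF, p0F, hF]
      have := ht.1.ne'
      field_simp
      ring
  · obtain ⟨e1, e2, e3, -⟩ := coeff_out hR hu hvu h
    rw [e1, e2, e3]
    have hd0 : 0 < 1 - Real.tanh R ^ 2 := sub_pos.2 (tanh_sq_mem hR).2
    have hE : Out.Edge (Real.tanh R ^ 2) β (v 1) (w 1) := Out.edge_of (tanh_sq_mem hR) hs hi
    have hk0 : Real.sinh (2 * R) ^ 3 * (hOut R β (v 1) (2 * R) - 2 * p0Out R β (v 1) (2 * R)) =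
        -((2 * Real.tanh R) ^ 3 * slopeF (Real.tanh R ^ 2) 1 (v 1) (w 1)) := by
      rw [Out.slopeOut_eq hR le_rfl, Out.slopeOut, Out.nLin, Out.gLin, Out.gEdge_eq hR, sub_self,
        mul_zero, add_zero, Out.kDen, show Real.cosh (2 * R) = coth (2 * R) * Real.sinh (2 * R) by
          rw [coth, div_mul_cancel₀ _ (Real.sinh_pos_iff.2 (by linarith)).ne'],
        Out.coth_diameter hR, Out.sinh_diameter, slopeF, yf]
      have hk : 3 / Real.tanh R - 3 * ((1 + Real.tanh R ^ 2) / (2 * Real.tanh R)) =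
          3 * (1 - Real.tanh R ^ 2) / (2 * Real.tanh R) := by field_simp; ring
      rw [hk]
      have eβ : β = (24 * (1 + Real.tanh R ^ 2) - 6 * v 1 * (1 - Real.tanh R ^ 2) ^ 3 -
          3 * w 1 * (1 - Real.tanh R ^ 2) ^ 4) / (2 * (1 - Real.tanh R ^ 2) ^ 3) := by
        rw [eq_div_iff (by positivity)]
        linarith [hE.eq]
      rw [eβ]
      field_simp
      ring
    have hsl := hi.slope_nonneg 1 ⟨zero_lt_one, le_rfl⟩
    have hh2 : hOut R β (v 1) r ≤ 2 * p0Out R β (v 1) r := by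
      have h5 := ho.slope r h
      rw [hk0] at h5
      have : 0 < Real.sinh r ^ 3 := pow_pos (Real.sinh_pos_iff.2 hr) 3
      nlinarith [mul_nonneg (pow_nonneg (show 0 ≤ 2 * Real.tanh R by linarith) 3) hsl]
    have hp : 0 ≤ p0Out R β (v 1) r := by
      rw [p0Out]
      linarith [ho.usq_mono r h]
    have h1 := margA_le_tangent hR hs hc0 hi hc ⟨zero_lt_one, le_rfl⟩
    have h2 := margA_le_tangent hR hs hc0 hi hd ⟨zero_lt_one, le_rfl⟩
    have key := pair_core (t := 1) (A := margA R β v w 1) (B := Real.tanh R ^ 2 * β * r)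
      (A' := -((2 * Real.tanh R) ^ 3 * slopeF (Real.tanh R ^ 2) 1 (v 1) (w 1))) hS hc hd
      ⟨zero_lt_one, le_rfl⟩ (ho.mono r h) (fun x hx => ?_) (le_of_eq ?_) ?_
    · refine le_trans ?_ key
      have := mul_le_mul_of_nonneg_left (add_le_add h1 h2) hcd
      linarith
    · nlinarith [mul_le_mul_of_nonneg_right hh2 hx.1.le, hx.1, hp]
    · have hl := log_contact hR (2 * R)
      rw [show 2 * R / 2 = R by ring, div_self hT.ne', mul_one] at hl
      rw [one_pow, mul_one, mul_one, div_one, Out.sigma_eq hR h, mul_div_cancel₀ _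
        (pow_ne_zero 3 (Real.sinh_pos_iff.2 hr).ne'), Out.gLin, Out.gEdge_eq hR, margA]
      simp only [mul_one, one_pow, p0F, hF, qF, yf]
      rw [hl, Out.sinh_diameter]
      field_simp
      ring
    · refine mul_nonneg_of_nonpos_of_nonpos (by linarith [hc.2, hd.2]) ?_
      rw [one_pow, mul_one, div_one, sub_nonpos, ← hk0]
      exact ho.slope r h

/-- The cosine clamped to the unit interval. -/
def clamp01 (c : ℝ) : ℝ := max 0 (min 1 c)

lemma clamp01_of_mem {c : ℝ} (hc : c ∈ Icc (0 : ℝ) 1) : clamp01 c = c := by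
  rw [clamp01, min_eq_right hc.2, max_eq_right hc.1]

lemma clamp01_mem (c : ℝ) : clamp01 c ∈ Icc (0 : ℝ) 1 :=
  ⟨le_max_left _ _, max_le zero_le_one (min_le_left _ _)⟩

lemma cmean_congr_Icc {n : ℕ} [NeZero n] {f g : ℝ → ℝ} (h : EqOn f g (Icc 0 1)) :
    Gen.cmean n f = Gen.cmean n g := by
  simp only [Gen.cmean]
  congr 1
  refine integral_congr_ae (Eventually.of_forall fun v => ?_)
  by_cases hv : 0 < v 0
  · simp only [Set.indicator_of_mem (show v ∈ {v : Fin n → ℝ | 0 < v 0} from hv)]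
    rw [h ⟨div_nonneg hv.le (Real.sqrt_nonneg _), ?_⟩]
    have h0 : v 0 ^ 2 ≤ v ⬝ᵥ v := by
      rw [sq]
      exact Finset.single_le_sum (f := fun i => v i * v i) (fun i _ => mul_self_nonneg _)
        (Finset.mem_univ 0)
    rw [div_le_one (Real.sqrt_pos.2 (lt_of_lt_of_le (pow_pos hv 2) h0))]
    exact (Real.le_sqrt hv.le (le_trans (sq_nonneg _) h0)).2 h0
  · simp only [Set.indicator_of_notMem (show v ∉ {v : Fin n → ℝ | 0 < v 0} from hv)]

/-- The value clause for the series solution. -/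
def ValuePin : Prop :=
  ∀ R : ℝ, 0 < R → ∀ (β : ℝ) (v w : ℝ → ℝ), Sol (Real.tanh R ^ 2) β v w →
    InBounds (Real.tanh R ^ 2) β v w →
    Real.sinh R ^ (2 * (4 - 1)) +
        Gen.cmean 4 (fun c => -aFour R β v w c) * Real.sinh R ^ (4 - 1) ≤
      Real.tanh R ^ 2 * β * ∫ t in (0 : ℝ)..R, Real.sinh t ^ (4 - 1)

/-- Certificates against every ball, given the value clause. -/
theorem cert_of_value (hV : ValuePin) : Cert 4 := by
  intro R hR
  have he := tanh_sq_mem hR
  obtain ⟨b, hb⟩ := coeffPin _ he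
  obtain ⟨θ, hθ⟩ : ∃ θ, GoodTheta θ := exists_theta
  set e := Real.tanh R ^ 2 with hee
  set β := betaSer b
  have hs := sol_series hb he
  have hi := seriesPin _ he b hb _ _ _ hs
  have hin := Alg.algPin _ he _ _ _ hs hi
  have ho := outPin R hR _ _ _ hs hi
  have hβ : 0 ≤ β := le_trans (by norm_num) hi.beta_lo
  have hc0 := continuousOn_margA (β := β) hR hb
  set a := fun c => aFour R β (vSer e b) (wSer e b) (clamp01 c) with ha
  have haeq : ∀ c ∈ Icc (0 : ℝ) 1, a c = c * margA R β (vSer e b) (wSer e b) c := fun c hc => by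
    rw [ha]
    simp only
    rw [clamp01_of_mem hc, aFour_eq]
  have hcont : Continuous a := by
    have h : ContinuousOn (aFour R β (vSer e b) (wSer e b)) (Icc 0 1) :=
      (continuousOn_id.mul hc0).congr fun c _ => aFour_eq _ _ _ _ c
    exact h.comp_continuous (continuous_const.max (continuous_const.min continuous_id)) clamp01_mem
  have hnp : ∀ c ∈ Icc (0 : ℝ) 1, a c ≤ 0 := fun c hc => by
    rw [haeq c hc]
    exact mul_nonpos_of_nonneg_of_nonpos hc.1 (margA_nonpos hR hs hc0 hi hc)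
  refine ⟨a, e * β, mul_nonneg he.1.le hβ, hcont.measurable, hnp, ?_, ?_, ?_⟩
  · obtain ⟨B, hB⟩ := isCompact_Icc.exists_bound_of_continuousOn hcont.continuousOn
    exact ⟨B, fun c hc => (abs_le.1 (hB c hc)).1⟩
  · rw [cmean_congr_Icc (g := fun c => -aFour R β (vSer e b) (wSer e b) c) fun c hc => by
      simp only [ha, clamp01_of_mem hc]]
    exact hV R hR β _ _ hs hi
  intro ε T hε _
  have hv := contDiff_radV hR hθ hb
  have hd : Differentiable ℝ (radV R θ b) := hv.differentiable one_ne_zero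
  have hvu := fun r (hr : (0 : ℝ) < r) => radU_radV (b := b) hR hθ hr
  refine ⟨radW (radV R θ b), hv.comp contDiff_fst,
    fun p q hp _ => radV_pos hR hθ hb ho hp, gainOK_four hR hε.le hd hs.deriv_v hvu hin ho,
    lineOK_four hR (mul_nonneg he.1.le hβ) hε.le hd hs.deriv_v hvu hin ho
      (fun c hc => hnp c (Ioc_subset_Icc_self hc)) fun r c d hr hc hd' => ?_⟩
  refine phi_lower_of_pair hr.1.le hε.le hc.1 hd'.1 ?_
  rw [haeq c (Ioc_subset_Icc_self hc), haeq d (Ioc_subset_Icc_self hd')]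
  have := pair_facts hR hs hc0 hi hin ho hd hvu hr.1 hc hd'
  have := mul_nonneg hε.le (mul_pos hc.1 hd'.1).le
  simp only [show (4 : ℕ) - 1 = 3 from rfl]
  linarith

end Vale.Agent.P219.CH.Relax.Four
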