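import Vale.Agent.P219.Relax.Four.SeqDefs

/-!
# P219, dimension four: the coefficients of the regular solution

The coefficients are affine in the first one, which is the least value keeping them above their
linear asymptote. Each one-step inequality, once failed, fails from there on, and this contradicts
either that choice or the asymptote.
-/

noncomputable section

open Set Filter Topology

namespace Vale.Agent.P219.CH.Relax.Four

/-- Coefficient of `b n`. -/
def cA (e : ℝ) (n : ℕ) : ℝ := e * (2 * (n : ℝ) + 3) ^ 2 + 4 * (n : ℝ) ^ 2 + 18 * n + 24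

/-- Coefficient of `b (n - 1)`. -/
def cB (n : ℕ) : ℝ := (2 * (n : ℝ) + 4) * (2 * n + 1)

/-- Coefficient of `b (n + 1)`. -/
def cD (e : ℝ) (n : ℕ) : ℝ := e * (2 * (n : ℝ) + 5) ^ 2

/-- The inhomogeneous term. -/
def cG (e : ℝ) (n : ℕ) : ℝ := 24 * e * ((n : ℝ) + 2) ^ 2

/-- The sequence from a first value, with the source scaled by `s`. -/
def bseq (e s z : ℝ) : ℕ → ℝ
  | 0 => z
  | 1 => ((24 + 9 * e) * z - s * (96 * e)) / (25 * e)
  | n + 2 => (cA e (n + 1) * bseq e s z (n + 1) - cB (n + 1) * bseq e s z n - s * cG e (n + 1)) /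
      cD e (n + 1)

variable {e : ℝ}

lemma cD_pos (he : e ∈ Ioo (0 : ℝ) 1) (n : ℕ) : 0 < cD e n := by
  have := he.1
  unfold cD
  positivity

lemma cB_pos (n : ℕ) : 0 < cB n := by unfold cB; positivity

lemma cA_sub (e : ℝ) (n : ℕ) :
    cA e n - cB n - cD e n = 8 * (1 - e) * n + 20 - 16 * e := by
  unfold cA cB cD; ring

lemma bseq_start (he : e ∈ Ioo (0 : ℝ) 1) (s z : ℝ) :
    25 * e * bseq e s z 1 = (24 + 9 * e) * bseq e s z 0 - s * (96 * e) := by
  have := he.1
  simp only [bseq]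
  field_simp

lemma bseq_step (he : e ∈ Ioo (0 : ℝ) 1) (s z : ℝ) (n : ℕ) :
    cD e (n + 1) * bseq e s z (n + 2) =
      cA e (n + 1) * bseq e s z (n + 1) - cB (n + 1) * bseq e s z n - s * cG e (n + 1) := by
  have := (cD_pos he (n + 1)).ne'
  conv_lhs => rw [bseq]
  field_simp

lemma bseq_affine (he : e ∈ Ioo (0 : ℝ) 1) (z : ℝ) (n : ℕ) :
    bseq e 1 z n = bseq e 1 0 n + z * bseq e 0 1 n := by
  induction n using Nat.twoStepInduction with
  | zero => simp [bseq]
  | one =>
    have := he.1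
    simp only [bseq]
    field_simp
    ring
  | more n h1 h2 =>
    have := cD_pos he (n + 1)
    rw [bseq, bseq, bseq, h1, h2]
    ring

lemma continuous_bseq (he : e ∈ Ioo (0 : ℝ) 1) (n : ℕ) :
    Continuous fun z => bseq e 1 z n := by
  rw [funext fun z => bseq_affine he z n]
  fun_prop

/-- A harmonic rate of decrease is impossible for a nonnegative sequence. -/
lemma no_harmonic_drop {r : ℕ → ℝ} {a : ℝ} (ha : 0 < a) (n : ℕ) (h0 : ∀ k, 0 ≤ r k)
    (hd : ∀ k, n ≤ k → r (k + 1) ≤ r k - a / ((k : ℝ) + 2)) : False := by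
  have hsum : ∀ m : ℕ, ∑ i ∈ Finset.range m, (((i + (n + 2) : ℕ) : ℝ))⁻¹ ≤ (r n - r (n + m)) / a := by
    intro m
    induction m with
    | zero => simp
    | succ m ih =>
      rw [Finset.sum_range_succ]
      have h := hd (n + m) (by omega)
      have e1 : (((m + (n + 2) : ℕ) : ℝ))⁻¹ * a = a / (((n + m : ℕ) : ℝ) + 2) := by
        push_cast; rw [div_eq_mul_inv]; ring_nf
      rw [le_div_iff₀ ha] at ih ⊢
      rw [show n + (m + 1) = n + m + 1 by omega]
      linarith
  have : Summable fun i : ℕ => (((i + (n + 2) : ℕ) : ℝ))⁻¹ :=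
    summable_of_sum_range_le (fun i => by positivity)
      (c := r n / a) fun m => (hsum m).trans (by gcongr; linarith [h0 (n + m)])
  exact Real.not_summable_natCast_inv ((summable_nat_add_iff (n + 2)).1 this)

/-! ## Escape of the homogeneous recursion -/

section Escape

variable {δ : ℕ → ℝ} (he : e ∈ Ioo (0 : ℝ) 1)
  (hstep : ∀ n, cA e (n + 1) * δ (n + 1) - cB (n + 1) * δ n ≤ cD e (n + 1) * δ (n + 2))

include he hstep

lemma diff_step {n : ℕ} (h : 0 ≤ δ (n + 1)) :
    cB (n + 1) * (δ (n + 1) - δ n) ≤ cD e (n + 1) * (δ (n + 2) - δ (n + 1)) := by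
  have := cA_sub e (n + 1)
  have h2 := hstep n
  have h3 : (0 : ℝ) ≤ 8 * (1 - e) * ((n + 1 : ℕ) : ℝ) + 20 - 16 * e := by
    have : (0 : ℝ) ≤ 8 * (1 - e) * ((n + 1 : ℕ) : ℝ) := by
      have := he.2
      have : 0 ≤ 1 - e := by linarith
      positivity
    linarith [he.2]
  nlinarith [mul_nonneg h3 h]

lemma diff_pos {n : ℕ} (h : 0 < δ (n + 1)) (h' : δ n < δ (n + 1)) (m : ℕ) :
    0 < δ (n + m + 1) ∧ δ (n + m) < δ (n + m + 1) := by
  induction m with
  | zero => exact ⟨h, h'⟩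
  | succ m ih =>
    have h1 := diff_step he hstep ih.1.le
    have h2 : 0 < cB (n + m + 1) * (δ (n + m + 1) - δ (n + m)) :=
      mul_pos (cB_pos _) (by linarith [ih.2])
    have h3 : 0 < δ (n + m + 2) - δ (n + m + 1) := pos_of_mul_pos_right
      (h2.trans_le h1) (cD_pos he _).le
    exact ⟨show 0 < δ (n + m + 2) by linarith [ih.1], show δ (n + m + 1) < δ (n + m + 2) by linarith⟩

/-- A positive increasing step grows past every linear bound. -/
theorem escape {n : ℕ} (h : 0 < δ (n + 1)) (h' : δ n < δ (n + 1)) {M : ℝ}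
    (hM : ∀ k, δ k ≤ M * ((k : ℝ) + 1)) : False := by
  have hε : 0 < 1 - e := by linarith [he.2]
  set η := (1 - e) / 2 with hη
  obtain ⟨N₁, hN₁⟩ := exists_nat_ge (16 / (1 - e))
  set N := n + N₁ with hN
  have hΔ : 0 < δ (N + 1) - δ N := by linarith [(diff_pos he hstep h h' N₁).2]
  have hrate : ∀ m : ℕ, (1 + η) ^ m * (δ (N + 1) - δ N) ≤ δ (N + m + 1) - δ (N + m) := by
    intro m
    induction m with
    | zero => simp
    | succ m ih =>
      obtain ⟨p1, p2⟩ := diff_pos he hstep h h' (N₁ + m)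
      rw [show n + (N₁ + m) = N + m by omega] at p1 p2
      have h1 := diff_step he hstep p1.le
      set x : ℝ := ((N + m + 1 : ℕ) : ℝ) with hx
      have hx16 : 16 / (1 - e) ≤ x := le_trans hN₁ (by rw [hx]; exact_mod_cast (by omega))
      have hx' : 16 ≤ x * (1 - e) := by rwa [div_le_iff₀ hε] at hx16
      have hx1 : 1 ≤ x := by rw [hx]; push_cast; linarith [(N + m).cast_nonneg (α := ℝ)]
      have hB : (1 + η) * cD e (N + m + 1) ≤ cB (N + m + 1) := by
        unfold cD cB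
        rw [← hx, hη]
        have h5 : (1 + (1 - e) / 2) * e ≤ 1 - (1 - e) / 2 := by nlinarith [he.1]
        have h6 := mul_le_mul_of_nonneg_right h5 (sq_nonneg (2 * x + 5))
        have h7 : (1 - (1 - e) / 2) * (2 * x + 5) ^ 2 ≤ (2 * x + 4) * (2 * x + 1) := by
          nlinarith [mul_le_mul_of_nonneg_left hx' (by linarith : (0:ℝ) ≤ x),
            mul_nonneg hε.le (by linarith : (0:ℝ) ≤ x)]
        linarith
      have h8 : (1 + η) * (δ (N + m + 1) - δ (N + m)) ≤ δ (N + m + 2) - δ (N + m + 1) := by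
        refine le_of_mul_le_mul_left ?_ (cD_pos he (N + m + 1))
        nlinarith [mul_le_mul_of_nonneg_right hB (by linarith : (0:ℝ) ≤ δ (N + m + 1) - δ (N + m))]
      calc (1 + η) ^ (m + 1) * (δ (N + 1) - δ N)
          = (1 + η) * ((1 + η) ^ m * (δ (N + 1) - δ N)) := by ring
        _ ≤ (1 + η) * (δ (N + m + 1) - δ (N + m)) :=
            mul_le_mul_of_nonneg_left ih (by rw [hη]; linarith)
        _ ≤ δ (N + (m + 1) + 1) - δ (N + (m + 1)) := h8
  have hη0 : 0 < η := by rw [hη]; linarith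
  set D := δ (N + 1) - δ N with hD
  obtain ⟨k, hk⟩ := exists_nat_gt (|M| * ((N : ℝ) + 4) / (η ^ 2 * D) + 1)
  have hk1 : (1 : ℝ) < k := by
    have : 0 ≤ |M| * ((N : ℝ) + 4) / (η ^ 2 * D) := by positivity
    linarith
  have hk2 : |M| * ((N : ℝ) + 4) < (k : ℝ) * (η ^ 2 * D) := by
    rw [← div_lt_iff₀ (by positivity)]; linarith
  have h1 : (k : ℝ) ^ 2 * η ^ 2 * D ≤ (1 + η) ^ (2 * k) * D := by
    refine mul_le_mul_of_nonneg_right ?_ hΔ.le
    rw [pow_mul']
    have := one_add_mul_le_pow (by linarith : (-2 : ℝ) ≤ η) k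
    calc (k : ℝ) ^ 2 * η ^ 2 = ((k : ℝ) * η) ^ 2 := by ring
      _ ≤ ((1 + η) ^ k) ^ 2 := by
          refine pow_le_pow_left₀ (by positivity) ?_ 2
          linarith
  have h2 := hrate (2 * k)
  have h3 := hM (N + 2 * k + 1)
  obtain ⟨q1, q2⟩ := diff_pos he hstep h h' (N₁ + 2 * k)
  rw [show n + (N₁ + 2 * k) = N + 2 * k by omega] at q1 q2
  have h4 : 0 ≤ δ (N + 2 * k) := by
    obtain ⟨k', rfl⟩ : ∃ k', k = k' + 1 :=
      ⟨k - 1, by have : 1 ≤ k := by exact_mod_cast hk1.le
                 omega⟩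
    obtain ⟨r1, -⟩ := diff_pos he hstep h h' (N₁ + 2 * k' + 1)
    rw [show n + (N₁ + 2 * k' + 1) + 1 = N + 2 * (k' + 1) by omega] at r1
    exact r1.le
  have h5 : M * (((N + 2 * k + 1 : ℕ) : ℝ) + 1) ≤ |M| * ((k : ℝ) * ((N : ℝ) + 4)) := by
    push_cast
    refine (mul_le_mul_of_nonneg_right (le_abs_self M) (by positivity)).trans ?_
    refine mul_le_mul_of_nonneg_left ?_ (abs_nonneg M)
    nlinarith [mul_nonneg (by linarith : (0:ℝ) ≤ (k:ℝ) - 1) (by positivity : (0:ℝ) ≤ (N:ℝ) + 2)]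
  have h6 : |M| * ((k : ℝ) * ((N : ℝ) + 4)) < (k : ℝ) ^ 2 * η ^ 2 * D := by
    have := mul_lt_mul_of_pos_left hk2 (by linarith : (0 : ℝ) < k)
    nlinarith
  linarith

/-- A linearly bounded solution of the homogeneous inequality is nonpositive. -/
theorem nonpos_of_bounded (hstart : (24 + 9 * e) * δ 0 ≤ 25 * e * δ 1) {M : ℝ}
    (hM : ∀ k, δ k ≤ M * ((k : ℝ) + 1)) (n : ℕ) : δ n ≤ 0 := by
  induction n with
  | zero =>
    by_contra h0
    push Not at h0
    have h1 : δ 0 < δ 1 := by nlinarith [he.1, he.2]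
    exact escape he hstep (h0.trans h1) h1 hM
  | succ n ih =>
    by_contra h0
    push Not at h0
    exact escape he hstep h0 (lt_of_le_of_lt ih h0) hM

end Escape

/-! ## The tuned coefficients -/

/-- The ratio threshold. -/
def cX (e : ℝ) (n : ℕ) : ℝ :=
  ((n : ℝ) + 1) * cA e n - (n : ℝ) * cB n - ((n : ℝ) + 2) * cD e n

lemma cX_eq (e : ℝ) (n : ℕ) :
    cX e n = 12 * (1 - e) * ((n : ℝ) + 2) ^ 2 - ((10 - 4 * e) * n + 24 - 7 * e) := by
  unfold cX cA cB cD; ring

lemma cX_mono (he : e ∈ Ioo (0 : ℝ) 1) (n : ℕ) :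
    cX e n * ((n : ℝ) + 3) ^ 2 ≤ cX e (n + 1) * ((n : ℝ) + 2) ^ 2 := by
  rw [cX_eq, cX_eq]
  push_cast
  have hn : (0 : ℝ) ≤ n := n.cast_nonneg
  nlinarith [he.1, he.2, mul_nonneg hn hn,
    mul_nonneg (mul_nonneg hn hn) (by linarith [he.2] : (0 : ℝ) ≤ 10 - 4 * e),
    mul_nonneg hn (by linarith [he.1] : (0 : ℝ) ≤ e)]

lemma gap_eq (he : e ∈ Ioo (0 : ℝ) 1) (n : ℕ) :
    cG e n - cInf e * cX e n = cInf e * ((10 - 4 * e) * n + 24 - 7 * e) := by
  have : (1 : ℝ) - e ≠ 0 := by linarith [he.2]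
  rw [cX_eq]
  unfold cG cInf
  field_simp
  ring

lemma cInf_pos (he : e ∈ Ioo (0 : ℝ) 1) : 0 < cInf e := by
  unfold cInf
  exact div_pos (by linarith [he.1]) (by linarith [he.2])

lemma gap_pos (he : e ∈ Ioo (0 : ℝ) 1) (n : ℕ) :
    cInf e * cX e n < cG e n := by
  have h := gap_eq he n
  have : (0 : ℝ) ≤ (10 - 4 * e) * n :=
    mul_nonneg (by linarith [he.2]) n.cast_nonneg
  have : 0 < cInf e * ((10 - 4 * e) * n + 24 - 7 * e) :=
    mul_pos (cInf_pos he) (by linarith [he.2])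
  linarith

/-- The ratio test has failed at `n` for good. -/
def Over (e : ℝ) (b : ℕ → ℝ) (n : ℕ) : Prop :=
  0 < cX e n ∧ ((n : ℝ) + 2) * b n < ((n : ℝ) + 1) * b (n + 1) ∧
    ((n : ℝ) + 1) * cG e n < cX e n * b n

variable {z : ℝ}

lemma over_pos (he : e ∈ Ioo (0 : ℝ) 1) {b : ℕ → ℝ} {n : ℕ} (h : Over e b n) : 0 < b n := by
  have : 0 ≤ ((n : ℝ) + 1) * cG e n := by have := he.1; unfold cG; positivity
  exact pos_of_mul_pos_right (this.trans_lt h.2.2) h.1.le

lemma over_succ (he : e ∈ Ioo (0 : ℝ) 1) {n : ℕ} (h : Over e (bseq e 1 z) n) :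
    Over e (bseq e 1 z) (n + 1) := by
  have hb := over_pos he h
  obtain ⟨hX, hU, hT⟩ := h
  have hn : (0 : ℝ) ≤ n := n.cast_nonneg
  have hm := cX_mono he n
  have hX' : 0 < cX e (n + 1) :=
    pos_of_mul_pos_left ((mul_pos hX (by positivity)).trans_le hm) (by positivity)
  set B0 := bseq e 1 z n with hB0
  set B1 := bseq e 1 z (n + 1) with hB1
  have hb1 : 0 < B1 := pos_of_mul_pos_right ((mul_pos (by positivity) hb).trans hU) (by positivity)
  have hT' : ((n : ℝ) + 2) * cG e (n + 1) < cX e (n + 1) * B1 := by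
    have e1 : cG e (n + 1) * ((n : ℝ) + 2) ^ 2 = cG e n * ((n : ℝ) + 3) ^ 2 := by
      unfold cG; push_cast; ring
    have h1 := mul_le_mul_of_nonneg_right hm hb.le
    have h2 := mul_lt_mul_of_pos_right hT (by positivity : (0 : ℝ) < ((n : ℝ) + 3) ^ 2)
    have h4 : ((n : ℝ) + 1) * cG e (n + 1) < cX e (n + 1) * B0 := by
      refine lt_of_mul_lt_mul_right ?_ (by positivity : (0 : ℝ) ≤ ((n : ℝ) + 2) ^ 2)
      calc ((n : ℝ) + 1) * cG e (n + 1) * ((n : ℝ) + 2) ^ 2
          = ((n : ℝ) + 1) * cG e n * ((n : ℝ) + 3) ^ 2 := by rw [mul_assoc, e1, mul_assoc]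
        _ < cX e n * B0 * ((n : ℝ) + 3) ^ 2 := h2
        _ = cX e n * ((n : ℝ) + 3) ^ 2 * B0 := by ring
        _ ≤ cX e (n + 1) * ((n : ℝ) + 2) ^ 2 * B0 := h1
        _ = cX e (n + 1) * B0 * ((n : ℝ) + 2) ^ 2 := by ring
    have h5 := mul_lt_mul_of_pos_left hU hX'
    refine lt_of_mul_lt_mul_left ?_ (by positivity : (0 : ℝ) ≤ (n : ℝ) + 1)
    nlinarith
  refine ⟨hX', ?_, by push_cast; linarith⟩
  have hs := bseq_step he 1 z n
  rw [← hB0, ← hB1, one_mul] at hs
  have hX2 : cX e (n + 1) = ((n : ℝ) + 2) * cA e (n + 1) - ((n : ℝ) + 1) * cB (n + 1) -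
      ((n : ℝ) + 3) * cD e (n + 1) := by unfold cX; push_cast; ring
  refine lt_of_mul_lt_mul_left ?_ (cD_pos he (n + 1)).le
  rw [hX2] at hT'
  have h6 := mul_lt_mul_of_pos_left hU (cB_pos (n + 1))
  push_cast
  calc cD e (n + 1) * (((n : ℝ) + 1 + 2) * B1)
      < ((n : ℝ) + 2) * (cA e (n + 1) * B1 - cB (n + 1) * B0 - cG e (n + 1)) := by linarith
    _ = cD e (n + 1) * (((n : ℝ) + 1 + 1) * bseq e 1 z (n + 1 + 1)) := by rw [← hs]; ring

lemma over_lower (he : e ∈ Ioo (0 : ℝ) 1) {n : ℕ} (h : Over e (bseq e 1 z) n) :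
    cInf e * ((n : ℝ) + 1) ≤ bseq e 1 z n := by
  by_contra hc
  push Not at hc
  have h1 := gap_pos he n
  have h2 := mul_lt_mul_of_pos_left hc h.1
  have hn : (0 : ℝ) < (n : ℝ) + 1 := by positivity
  nlinarith [h.2.2, mul_lt_mul_of_pos_right h1 hn]

lemma over_add (he : e ∈ Ioo (0 : ℝ) 1) {n : ℕ} (h : Over e (bseq e 1 z) n) (m : ℕ) :
    Over e (bseq e 1 z) (n + m) := by
  induction m with
  | zero => exact h
  | succ m ih => exact over_succ he ih

/-- The admissible first values. -/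
def admiss (e : ℝ) : Set ℝ := {z | ∀ n : ℕ, cInf e * ((n : ℝ) + 1) ≤ bseq e 1 z n}

/-- The homogeneous sequence. -/
lemma hom_pos (he : e ∈ Ioo (0 : ℝ) 1) (n : ℕ) :
    0 < bseq e 0 1 n ∧ bseq e 0 1 n < bseq e 0 1 (n + 1) := by
  have hstep : ∀ n, cA e (n + 1) * bseq e 0 1 (n + 1) - cB (n + 1) * bseq e 0 1 n ≤
      cD e (n + 1) * bseq e 0 1 (n + 2) := fun n => by simp [bseq_step he 0 1 n]
  have h1 : bseq e 0 1 0 < bseq e 0 1 1 := by
    have := he.1
    simp only [bseq]
    rw [lt_div_iff₀ (by positivity)]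
    linarith [he.2]
  have h0 : bseq e 0 1 0 = 1 := rfl
  have := diff_pos he hstep (n := 0) (by linarith) h1
  refine ⟨?_, by simpa using (this n).2⟩
  cases n with
  | zero => simp [bseq]
  | succ k => simpa using (this k).1

lemma hom_mono (he : e ∈ Ioo (0 : ℝ) 1) : Monotone (bseq e 0 1) :=
  monotone_nat_of_le_succ fun n => (hom_pos he n).2.le

lemma admiss_nonempty (he : e ∈ Ioo (0 : ℝ) 1) : (admiss e).Nonempty := by
  set h := bseq e 0 1 with hh
  obtain ⟨N₁, hN₁⟩ := exists_nat_ge (4 / (1 - e))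
  obtain ⟨N, hX, hN⟩ : ∃ N, 0 < cX e N ∧ ((N : ℝ) + 2) * h N < ((N : ℝ) + 1) * h (N + 1) := by
    by_contra hc
    push Not at hc
    have hX : ∀ k, 0 < cX e (N₁ + k) := by
      intro k
      have hε : 0 < 1 - e := by linarith [he.2]
      rw [cX_eq]
      set x : ℝ := ((N₁ + k : ℕ) : ℝ) with hx
      have h1 : 4 / (1 - e) ≤ x := hN₁.trans (by rw [hx]; exact_mod_cast (by omega))
      rw [div_le_iff₀ hε] at h1
      nlinarith [he.1, he.2]
    have hstep : ∀ n, cA e (n + 1) * h (n + 1) - cB (n + 1) * h n ≤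
        cD e (n + 1) * h (n + 2) := fun n => by simp [hh, bseq_step he 0 1 n]
    have hb : ∀ k, h (N₁ + k) ≤ h N₁ * (((N₁ + k : ℕ) : ℝ) + 1) := by
      intro k
      induction k with
      | zero => exact le_mul_of_one_le_right (hom_pos he _).1.le (by simp)
      | succ k ih =>
        have h2 := hc _ (hX k)
        rw [show N₁ + (k + 1) = N₁ + k + 1 by omega]
        refine le_of_mul_le_mul_left ?_ (by positivity : (0 : ℝ) < ((N₁ + k : ℕ) : ℝ) + 1)
        refine h2.trans ?_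
        push_cast
        push_cast at ih
        nlinarith [mul_le_mul_of_nonneg_left ih (by positivity : (0 : ℝ) ≤ (N₁ : ℝ) + k + 2)]
    have hM : ∀ k, h k ≤ h N₁ * ((k : ℝ) + 1) := by
      intro k
      rcases le_total k N₁ with hk | hk
      · exact (hom_mono he hk).trans (le_mul_of_one_le_right (hom_pos he _).1.le (by simp))
      · obtain ⟨j, rfl⟩ := Nat.exists_eq_add_of_le hk
        exact hb j
    exact escape he hstep (n := 0) (hom_pos he 1).1 (hom_pos he 0).2 hM
  have hat : ∀ n a : ℕ, ∀ᶠ z in atTop, (a : ℝ) < bseq e 1 z n := by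
    intro n a
    have : Tendsto (fun z => bseq e 1 0 n + z * h n) atTop atTop :=
      tendsto_atTop_add_const_left _ _ (tendsto_id.atTop_mul_const (hom_pos he n).1)
    filter_upwards [this.eventually_gt_atTop (a : ℝ)] with z hz
    rw [bseq_affine he z n]; exact hz
  have h1 : Tendsto (fun z => z * (((N : ℝ) + 1) * h (N + 1) - ((N : ℝ) + 2) * h N)) atTop atTop :=
    tendsto_id.atTop_mul_const (by linarith)
  have h2 : Tendsto (fun z => z * (cX e N * h N)) atTop atTop :=
    tendsto_id.atTop_mul_const (mul_pos hX (hom_pos he N).1)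
  have h3 : ∀ᶠ z in atTop, ∀ k ∈ Set.Iio N, cInf e * ((k : ℝ) + 1) ≤ bseq e 1 z k := by
    refine (Set.finite_Iio N).eventually_all.2 fun k _ => ?_
    obtain ⟨a, ha⟩ := exists_nat_ge (cInf e * ((k : ℝ) + 1))
    filter_upwards [hat k a] with z hz
    linarith
  obtain ⟨z, hz1, hz2, hz3⟩ := ((h1.eventually_gt_atTop
      (((N : ℝ) + 2) * bseq e 1 0 N - ((N : ℝ) + 1) * bseq e 1 0 (N + 1))).and
    ((h2.eventually_gt_atTop (((N : ℝ) + 1) * cG e N - cX e N * bseq e 1 0 N)).and h3)).exists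
  refine ⟨z, fun n => ?_⟩
  have hov : Over e (bseq e 1 z) N := by
    refine ⟨hX, ?_, ?_⟩
    · rw [bseq_affine he z N, bseq_affine he z (N + 1), ← hh]; linarith
    · rw [bseq_affine he z N, ← hh]; linarith
  rcases lt_or_ge n N with hn | hn
  · exact hz3 n hn
  · obtain ⟨j, rfl⟩ := Nat.exists_eq_add_of_le hn
    exact over_lower he (over_add he hov j)

/-- The first coefficient of the regular solution. -/
def zStar (e : ℝ) : ℝ := sInf (admiss e)

/-- The coefficients of the regular solution. -/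
def coeff (e : ℝ) : ℕ → ℝ := bseq e 1 (zStar e)

lemma coeff_lower (he : e ∈ Ioo (0 : ℝ) 1) (n : ℕ) :
    cInf e * ((n : ℝ) + 1) ≤ coeff e n := by
  have hc : IsClosed (admiss e) := by
    rw [admiss, Set.setOf_forall]
    exact isClosed_iInter fun k => isClosed_le continuous_const (continuous_bseq he k)
  have hb : BddBelow (admiss e) :=
    ⟨cInf e, fun z hz => by simpa [bseq] using hz 0⟩
  exact hc.csInf_mem (admiss_nonempty he) hb n

lemma coeff_strict (he : e ∈ Ioo (0 : ℝ) 1) (n : ℕ) :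
    cInf e * ((n : ℝ) + 1) < coeff e n := by
  refine lt_of_le_of_ne (coeff_lower he n) fun heq => ?_
  have hn := coeff_lower he (n + 1)
  cases n with
  | zero =>
    have h := bseq_start he 1 (zStar e)
    simp only [coeff] at hn heq
    norm_num at hn heq
    have := he.1
    have hε : 0 < 1 - e := by linarith [he.2]
    have h3 : 0 < cInf e * (41 * e - 24) + 96 * e := by
      unfold cInf
      rw [div_mul_eq_mul_div, div_add' _ _ _ hε.ne']
      exact div_pos (by nlinarith [he.2]) hε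
    nlinarith
  | succ k =>
    have h := bseq_step he 1 (zStar e) k
    have h0 := coeff_lower he k
    have h2 := coeff_lower he (k + 2)
    have hg := gap_pos he (k + 1)
    have hX2 : cX e (k + 1) = ((k : ℝ) + 2) * cA e (k + 1) - ((k : ℝ) + 1) * cB (k + 1) -
        ((k : ℝ) + 3) * cD e (k + 1) := by unfold cX; push_cast; ring
    simp only [coeff] at h0 h2 heq hn
    push_cast at h2 heq
    rw [hX2] at hg
    have e1 := congrArg (fun x => cA e (k + 1) * x) heq
    nlinarith [mul_le_mul_of_nonneg_left h0 (cB_pos (k + 1)).le,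
      mul_le_mul_of_nonneg_left h2 (cD_pos he (k + 1)).le]

lemma not_over (he : e ∈ Ioo (0 : ℝ) 1) (N : ℕ) : ¬Over e (coeff e) N := by
  intro h
  obtain ⟨hX, hU, hT⟩ := h
  have hc := fun k => (continuous_bseq he k).tendsto (zStar e)
  have e1 : ∀ᶠ z in 𝓝 (zStar e), ((N : ℝ) + 2) * bseq e 1 z N <
      ((N : ℝ) + 1) * bseq e 1 z (N + 1) :=
    (((hc N).const_mul _)).eventually_lt ((hc (N + 1)).const_mul _) hU
  have e2 : ∀ᶠ z in 𝓝 (zStar e), ((N : ℝ) + 1) * cG e N < cX e N * bseq e 1 z N :=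
    ((hc N).const_mul _).eventually_const_lt hT
  have e3 : ∀ᶠ z in 𝓝 (zStar e), ∀ k ∈ Set.Iio N, cInf e * ((k : ℝ) + 1) < bseq e 1 z k :=
    (Set.finite_Iio N).eventually_all.2 fun k _ => (hc k).eventually_const_lt (coeff_strict he k)
  obtain ⟨z, hz, h1, h2, h3⟩ : ∃ z, z < zStar e ∧ _ ∧ _ ∧ _ :=
    ((eventually_mem_nhdsWithin (a := zStar e) (s := Iio (zStar e))).and
      ((e1.and (e2.and e3)).filter_mono nhdsWithin_le_nhds)).exists
  have hmem : z ∈ admiss e := by
    intro n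
    rcases lt_or_ge n N with hn | hn
    · exact (h3 n hn).le
    · obtain ⟨j, rfl⟩ := Nat.exists_eq_add_of_le hn
      exact over_lower he (over_add he ⟨hX, h1, h2⟩ j)
  have hb : BddBelow (admiss e) :=
    ⟨cInf e, fun z hz => by simpa [bseq] using hz 0⟩
  exact absurd (csInf_le hb hmem) (not_le.2 hz)

lemma coeff_pos (he : e ∈ Ioo (0 : ℝ) 1) (n : ℕ) : 0 < coeff e n :=
  (mul_pos (cInf_pos he) (by positivity)).trans_le (coeff_lower he n)

/-- The ratio bound from above. -/
lemma coeff_ratio_hi (he : e ∈ Ioo (0 : ℝ) 1) (n : ℕ) :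
    ((n : ℝ) + 1) * coeff e (n + 1) ≤ ((n : ℝ) + 2) * coeff e n := by
  induction n with
  | zero =>
    by_contra hc
    push Not at hc
    have hs := bseq_start he 1 (zStar e)
    simp only [coeff] at hc
    norm_num at hc
    have h1 : cG e 0 < cX e 0 * coeff e 0 := by
      simp only [coeff, cG, cX, cA, cB, cD]; norm_num; nlinarith [he.1]
    have hG : 0 ≤ cG e 0 := by have := he.1; unfold cG; positivity
    refine not_over he 0 ⟨pos_of_mul_pos_left (hG.trans_lt h1) (coeff_pos he 0).le, ?_, ?_⟩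
    · simp only [coeff]; norm_num; linarith
    · simpa using h1
  | succ n ih =>
    by_contra hc
    push Not at hc
    have hs := bseq_step he 1 (zStar e) n
    simp only [coeff] at hc ih ⊢
    push_cast at hc
    have hX2 : cX e (n + 1) = ((n : ℝ) + 2) * cA e (n + 1) - ((n : ℝ) + 1) * cB (n + 1) -
        ((n : ℝ) + 3) * cD e (n + 1) := by unfold cX; push_cast; ring
    have h1 : ((n : ℝ) + 2) * cG e (n + 1) < cX e (n + 1) * bseq e 1 (zStar e) (n + 1) := by
      rw [hX2]
      nlinarith [mul_le_mul_of_nonneg_left ih (cB_pos (n + 1)).le,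
        mul_lt_mul_of_pos_left hc (cD_pos he (n + 1))]
    have hG : 0 ≤ ((n : ℝ) + 2) * cG e (n + 1) := by have := he.1; unfold cG; positivity
    refine not_over he (n + 1)
      ⟨pos_of_mul_pos_left (hG.trans_lt h1) (coeff_pos he (n + 1)).le, ?_, ?_⟩
    · simp only [coeff]; push_cast; linarith
    · simp only [coeff]; push_cast; linarith

lemma coeff_linear (he : e ∈ Ioo (0 : ℝ) 1) (n : ℕ) :
    coeff e n ≤ coeff e 0 * ((n : ℝ) + 1) := by
  induction n with
  | zero => simp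
  | succ n ih =>
    refine le_of_mul_le_mul_left ((coeff_ratio_hi he n).trans ?_)
      (by positivity : (0 : ℝ) < (n : ℝ) + 1)
    push_cast
    nlinarith [mul_le_mul_of_nonneg_left ih (by positivity : (0 : ℝ) ≤ (n : ℝ) + 2)]

/-- The linear supersolution. -/
lemma coeff_upper (he : e ∈ Ioo (0 : ℝ) 1) :
    coeff e 0 ≤ cInf e * (1 + (10 - 4 * e) / (8 * (1 - e))) := by
  have hε : 0 < 1 - e := by linarith [he.2]
  set E := (10 - 4 * e) / (8 * (1 - e)) with hE
  have hEd : E * (8 * (1 - e)) = 10 - 4 * e := by rw [hE]; field_simp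
  have hE0 : 0 ≤ E := by
    rw [hE]; exact div_nonneg (by linarith [he.2]) (by linarith)
  have hsup : ∀ n : ℕ, cG e n ≤
      cInf e * (cX e n + E * (8 * (1 - e) * n + 20 - 16 * e)) := by
    intro n
    have h := gap_eq he n
    have h2 : (10 - 4 * e) * n + 24 - 7 * e ≤ E * (8 * (1 - e) * n + 20 - 16 * e) := by
      have : 24 - 7 * e ≤ E * (20 - 16 * e) := by
        refine le_of_mul_le_mul_right ?_ (by linarith : (0 : ℝ) < 8 * (1 - e))
        rw [mul_right_comm, hEd]
        nlinarith [he.1]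
      nlinarith
    nlinarith [mul_le_mul_of_nonneg_left h2 (cInf_pos he).le]
  set δ : ℕ → ℝ := fun n => coeff e n - cInf e * ((n : ℝ) + 1 + E) with hδ
  have key := nonpos_of_bounded (δ := δ) he (fun n => ?_) ?_ (M := coeff e 0) (fun k => ?_) 0
  · simp only [hδ] at key
    push_cast at key
    linarith
  · have hs := bseq_step he 1 (zStar e) n
    have := hsup (n + 1)
    have e2 := cA_sub e (n + 1)
    have hX2 : cX e (n + 1) = ((n : ℝ) + 2) * cA e (n + 1) - ((n : ℝ) + 1) * cB (n + 1) -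
        ((n : ℝ) + 3) * cD e (n + 1) := by unfold cX; push_cast; ring
    rw [← e2, hX2] at this
    simp only [hδ, coeff]
    push_cast at this ⊢
    nlinarith
  · have hs := bseq_start he 1 (zStar e)
    have := hsup 0
    simp only [cG, cX, cA, cB, cD] at this
    norm_num at this
    simp only [hδ, coeff]
    norm_num
    nlinarith [mul_nonneg (cInf_pos he).le hE0]
  · simp only [hδ]
    have := coeff_linear he k
    have := mul_nonneg (cInf_pos he).le (by positivity : (0 : ℝ) ≤ (k : ℝ) + 1 + E)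
    linarith

/-- The threshold of the lower ratio bound. -/
def cY (e : ℝ) (n : ℕ) : ℝ :=
  cA e n * ((n : ℝ) + 1) * (4 * n + 1) - cB n * (4 * n) * ((n : ℝ) + 1)
    - cD e n * (4 * n + 5) * (4 * n + 1) / 4

/-- The lower ratio bound has failed at `n` for good. -/
def Under (e : ℝ) (b : ℕ → ℝ) (n : ℕ) : Prop :=
  4 * ((n : ℝ) + 1) * b (n + 1) < (4 * (n : ℝ) + 5) * b n ∧
    cY e n * b n < cG e n * ((n : ℝ) + 1) * (4 * n + 1)

lemma under_succ (he : e ∈ Ioo (0 : ℝ) 1) {n : ℕ} (h : Under e (coeff e) n) :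
    Under e (coeff e) (n + 1) := by
  obtain ⟨hU, hY⟩ := h
  have hn : (0 : ℝ) ≤ n := n.cast_nonneg
  have hb := coeff_pos he n
  have hb1 := coeff_pos he (n + 1)
  set x : ℝ := (n : ℝ) with hx
  have hgrow : (x + 2) * (4 * x + 1) * cY e (n + 1) ≤ 4 * (x + 3) ^ 2 * cY e n := by
    have hd : 0 ≤ 1 - e := by linarith [he.2]
    have he0 := he.1.le
    set d := 1 - e with hd'
    have e1 : 4 * (x + 3) ^ 2 * cY e n - (x + 2) * (4 * x + 1) * cY e (n + 1) =
        232 * d + (67 / 2) * e + 1128 * d * x + (37 / 4) * e * x + 1618 * d * x ^ 2 +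
          152 * e * x ^ 2 + 758 * d * x ^ 3 + 63 * e * x ^ 3 + 108 * d * x ^ 4 := by
      simp only [cY, cA, cB, cD, hd', hx]; push_cast; ring
    have : 0 ≤ 232 * d + (67 / 2) * e + 1128 * d * x + (37 / 4) * e * x + 1618 * d * x ^ 2 +
        152 * e * x ^ 2 + 758 * d * x ^ 3 + 63 * e * x ^ 3 + 108 * d * x ^ 4 := by positivity
    linarith
  have hY1 : 0 < cY e (n + 1) := by
    have hd : 0 < 1 - e := by linarith [he.2]
    have he0 := he.1.le
    set d := 1 - e with hd'
    set m : ℝ := x + 1 with hm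
    have e1 : cY e (n + 1) = 24 * d + (7 / 4) * e + 122 * d * m + 4 * e * m + 134 * d * m ^ 2 +
        9 * e * m ^ 2 + 36 * d * m ^ 3 := by
      simp only [cY, cA, cB, cD, hd', hm, hx]; push_cast; ring
    rw [e1]; positivity
  have hK : cY e (n + 1) * coeff e (n + 1) < cG e (n + 1) * (x + 2) * (4 * x + 5) := by
    have h1 := mul_le_mul_of_nonneg_right hgrow hb.le
    have h2 := mul_lt_mul_of_pos_left hY (by positivity : (0 : ℝ) < 4 * (x + 3) ^ 2)
    have h3 : cY e (n + 1) * coeff e n < 4 * cG e (n + 1) * (x + 2) * (x + 1) := by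
      refine lt_of_mul_lt_mul_left ?_ (by positivity : (0 : ℝ) ≤ (x + 2) * (4 * x + 1))
      have e2 : cG e (n + 1) * (x + 2) ^ 2 = cG e n * (x + 3) ^ 2 := by
        simp only [cG, hx]; push_cast; ring
      calc (x + 2) * (4 * x + 1) * (cY e (n + 1) * coeff e n)
          ≤ 4 * (x + 3) ^ 2 * cY e n * coeff e n := by linarith
        _ < 4 * (x + 3) ^ 2 * (cG e n * (x + 1) * (4 * x + 1)) := by linarith
        _ = 4 * (cG e n * (x + 3) ^ 2) * (x + 1) * (4 * x + 1) := by ring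
        _ = (x + 2) * (4 * x + 1) * (4 * cG e (n + 1) * (x + 2) * (x + 1)) := by rw [← e2]; ring
    refine lt_of_mul_lt_mul_left ?_ (by positivity : (0 : ℝ) ≤ 4 * (x + 1))
    have h4 := mul_lt_mul_of_pos_left hU hY1
    have h5 := mul_lt_mul_of_pos_left h3 (by positivity : (0 : ℝ) < 4 * x + 5)
    linarith
  refine ⟨?_, by push_cast; linarith⟩
  have hs := bseq_step he 1 (zStar e) n
  have hA := mul_lt_mul_of_pos_left hU (cB_pos (n + 1))
  simp only [coeff] at hA hK ⊢
  push_cast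
  refine lt_of_mul_lt_mul_left ?_ (cD_pos he (n + 1)).le
  refine lt_of_mul_lt_mul_left ?_ (by positivity : (0 : ℝ) ≤ 4 * x + 5)
  have hY2 : cY e (n + 1) = cA e (n + 1) * (x + 2) * (4 * x + 5) -
      cB (n + 1) * (4 * (x + 1)) * (x + 2) - cD e (n + 1) * (4 * x + 9) * (4 * x + 5) / 4 := by
    simp only [cY, hx]; push_cast; ring
  rw [hY2] at hK
  have hB := mul_lt_mul_of_pos_left hA (by positivity : (0 : ℝ) < x + 2)
  linear_combination 4 * hK + 4 * hB + 4 * (x + 2) * (4 * x + 5) * hs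

/-- The ratio bound from below. -/
lemma coeff_ratio_lo (he : e ∈ Ioo (0 : ℝ) 1) (n : ℕ) :
    ((n : ℝ) + 5 / 4) * coeff e n ≤ ((n : ℝ) + 1) * coeff e (n + 1) := by
  suffices h : ∀ k, ¬Under e (coeff e) k by
    induction n with
    | zero =>
      by_contra hc
      push Not at hc
      have hs := bseq_start he 1 (zStar e)
      refine h 0 ⟨?_, ?_⟩
      · norm_num at hc ⊢; linarith
      · simp only [coeff, cY, cG, cA, cB, cD] at hc ⊢
        norm_num at hc ⊢
        nlinarith [he.1]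
    | succ m ih =>
      by_contra hc
      push Not at hc
      have hs := bseq_step he 1 (zStar e) m
      push_cast at hc
      refine h (m + 1) ⟨by push_cast; linarith, ?_⟩
      simp only [coeff] at hc ih ⊢
      have hx : (0 : ℝ) ≤ m := m.cast_nonneg
      set x : ℝ := (m : ℝ) with hx'
      have hY2 : cY e (m + 1) = cA e (m + 1) * (x + 2) * (4 * x + 5) -
          cB (m + 1) * (4 * (x + 1)) * (x + 2) - cD e (m + 1) * (4 * x + 9) * (4 * x + 5) / 4 := by
        simp only [cY, hx']; push_cast; ring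
      rw [hY2]
      push_cast
      have hB := mul_le_mul_of_nonneg_left ih
        (mul_nonneg (cB_pos (m + 1)).le (by positivity : (0 : ℝ) ≤ x + 2))
      have hD := mul_lt_mul_of_pos_left hc
        (mul_pos (cD_pos he (m + 1)) (by positivity : (0 : ℝ) < 4 * x + 5))
      linear_combination 4 * hB + hD - (x + 2) * (4 * x + 5) * hs
  intro k hk
  have hall : ∀ j, Under e (coeff e) (k + j) := fun j => by
    induction j with
    | zero => exact hk
    | succ j ih => exact under_succ he ih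
  refine no_harmonic_drop (r := fun j => coeff e j / ((j : ℝ) + 1))
    (a := 3 / 4 * cInf e) (by have := cInf_pos he; positivity) k
    (fun j => div_nonneg (coeff_pos he j).le (by positivity)) fun j hj => ?_
  obtain ⟨i, rfl⟩ := Nat.exists_eq_add_of_le hj
  have h1 := (hall i).1
  have h2 := coeff_lower he (k + i)
  set m : ℝ := ((k + i : ℕ) : ℝ) with hm
  have hm0 : 0 ≤ m := Nat.cast_nonneg _
  push_cast
  rw [show (k : ℝ) + i = m by rw [hm]; push_cast; ring,
    div_sub_div _ _ (by positivity) (by positivity),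
    div_le_div_iff₀ (by positivity) (by positivity)]
  nlinarith

/-- The slope step fails at `n` for good. -/
def Drop (e : ℝ) (n : ℕ) : Prop :=
  e * (2 * (n : ℝ) + 5) * coeff e (n + 1) + 8 * e * ((n : ℝ) + 2) <
      ((2 * (n : ℝ) + 3) * e + 3) * coeff e n ∧
    (1 - e) * (2 * ((n : ℝ) + 1) * (3 + 2 * e) + 9 + 2 * e) * coeff e n <
      e * (8 * ((n : ℝ) + 2) * ((2 + e) * ((n : ℝ) + 1) + 3))

lemma drop_identity (he : e ∈ Ioo (0 : ℝ) 1) (n : ℕ) :
    e * (2 * (n : ℝ) + 7) * (e * (2 * (n : ℝ) + 7) * coeff e (n + 2) + 8 * e * ((n : ℝ) + 3)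
        - ((2 * (n : ℝ) + 5) * e + 3) * coeff e (n + 1)) =
      (2 * (n : ℝ) + 5 - 2 * e) * (e * (2 * (n : ℝ) + 5) * coeff e (n + 1) + 8 * e * ((n : ℝ) + 2)
        - ((2 * (n : ℝ) + 3) * e + 3) * coeff e n) +
      ((1 - e) * (2 * ((n : ℝ) + 1) * (3 + 2 * e) + 9 + 2 * e) * coeff e n -
        e * (8 * ((n : ℝ) + 2) * ((2 + e) * ((n : ℝ) + 1) + 3))) := by
  have hs := bseq_step he 1 (zStar e) n
  simp only [cA, cB, cD, cG] at hs
  push_cast at hs
  simp only [coeff]
  linear_combination e * hs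

lemma drop_succ (he : e ∈ Ioo (0 : ℝ) 1) {n : ℕ}
    (hD : 0 ≤ e * (2 * (n : ℝ) + 5) * coeff e (n + 1) + 8 * e * ((n : ℝ) + 2)
        - ((2 * (n : ℝ) + 3) * e + 3) * coeff e n ∧
      e * (2 * (n : ℝ) + 7) * coeff e (n + 2) + 8 * e * ((n : ℝ) + 3) <
        ((2 * (n : ℝ) + 5) * e + 3) * coeff e (n + 1) ∨ Drop e n) :
    Drop e (n + 1) := by
  have hid := drop_identity he n
  set x : ℝ := (n : ℝ) with hx
  have hx0 : 0 ≤ x := Nat.cast_nonneg n
  set D0 := e * (2 * x + 5) * coeff e (n + 1) + 8 * e * (x + 2)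
    - ((2 * x + 3) * e + 3) * coeff e n with hD0
  set K1 := (1 - e) * (2 * (x + 1) * (3 + 2 * e) + 9 + 2 * e) with hK1
  set I1 := 8 * (x + 2) * ((2 + e) * (x + 1) + 3) with hI1
  set K2 := (1 - e) * (2 * (x + 2) * (3 + 2 * e) + 9 + 2 * e) with hK2
  set I2 := 8 * (x + 3) * ((2 + e) * (x + 2) + 3) with hI2
  set L := (2 * x + 3) * e + 3 with hL
  have he0 := he.1
  have hd : 0 < 1 - e := by linarith [he.2]
  have hK1p : 0 < K1 := by rw [hK1]; positivity
  have hK2p : 0 < K2 := by rw [hK2]; positivity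
  have hc : 0 < 2 * x + 5 - 2 * e := by linarith [he.2]
  have hneg : e * (2 * x + 7) * coeff e (n + 2) + 8 * e * (x + 3) <
      ((2 * x + 5) * e + 3) * coeff e (n + 1) := by
    rcases hD with h | h
    · exact h.2
    · obtain ⟨h1, h2⟩ := h
      have : (2 * x + 5 - 2 * e) * D0 < 0 :=
        mul_neg_of_pos_of_neg hc (by rw [hD0]; linarith)
      by_contra hcon
      push Not at hcon
      have := mul_nonneg (by positivity : (0 : ℝ) ≤ e * (2 * x + 7)) (sub_nonneg.2 hcon)
      linarith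
  have hbound : L * K1 * coeff e n + K1 * D0 < L * (e * I1) := by
    rcases hD with ⟨h1, h2⟩ | ⟨h1, h2⟩
    · have h3 : (2 * x + 5 - 2 * e) * D0 + K1 * coeff e n - e * I1 < 0 := by
        have := mul_neg_of_pos_of_neg (by positivity : (0 : ℝ) < e * (2 * x + 7)) (sub_neg.2 hneg)
        linarith
      have hv : K1 ≤ L * (2 * x + 5 - 2 * e) := by
        have e1 : L * (2 * x + 5 - 2 * e) - K1 =
            4 * e + 10 * e * (x + 1) + 4 * e * (x + 1) ^ 2 := by rw [hL, hK1]; ring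
        have : 0 ≤ 4 * e + 10 * e * (x + 1) + 4 * e * (x + 1) ^ 2 := by positivity
        linarith
      have hLp : 0 < L := by rw [hL]; positivity
      linarith [mul_le_mul_of_nonneg_right hv h1, mul_neg_of_pos_of_neg hLp h3]
    · have hLp : 0 < L := by rw [hL]; positivity
      have := mul_neg_of_pos_of_neg hK1p (show D0 < 0 by rw [hD0]; linarith)
      linarith [mul_lt_mul_of_pos_left h2 hLp]
  refine ⟨by push_cast; linarith, ?_⟩
  push_cast
  rw [show (1 - e) * (2 * (x + 1 + 1) * (3 + 2 * e) + 9 + 2 * e) = K2 by rw [hK2]; ring,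
    show 8 * (x + 1 + 2) * ((2 + e) * (x + 1 + 1) + 3) = I2 by rw [hI2]; ring]
  have hstep : L * I1 * K2 ≤ ((2 * x + 5) * e * I2 + 8 * (x + 2) * K2) * K1 := by
    set d := 1 - e with hd'
    have e1 : ((2 * x + 5) * e * I2 + 8 * (x + 2) * K2) * K1 - L * I1 * K2 =
        3528 * e * d ^ 2 + 4824 * e ^ 2 * d + 3696 * e * d ^ 2 * x + 5424 * e ^ 2 * d * x +
          1272 * e * d ^ 2 * x ^ 2 + 1992 * e ^ 2 * d * x ^ 2 + 144 * e * d ^ 2 * x ^ 3 +
          240 * e ^ 2 * d * x ^ 3 := by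
      rw [hL, hI1, hI2, hK1, hK2, hd']; ring
    have : 0 ≤ 3528 * e * d ^ 2 + 4824 * e ^ 2 * d + 3696 * e * d ^ 2 * x +
        5424 * e ^ 2 * d * x + 1272 * e * d ^ 2 * x ^ 2 + 1992 * e ^ 2 * d * x ^ 2 +
        144 * e * d ^ 2 * x ^ 3 + 240 * e ^ 2 * d * x ^ 3 := by positivity
    linarith
  refine lt_of_mul_lt_mul_left ?_ (by positivity : (0 : ℝ) ≤ e * (2 * x + 5) * K1)
  have h5 := mul_lt_mul_of_pos_left hbound hK2p
  have h6 := mul_le_mul_of_nonneg_left hstep he0.le
  have e2 : e * (2 * x + 5) * coeff e (n + 1) = D0 - 8 * e * (x + 2) + L * coeff e n := by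
    rw [hD0, hL]; ring
  calc e * (2 * x + 5) * K1 * (K2 * coeff e (n + 1))
      = K1 * K2 * (e * (2 * x + 5) * coeff e (n + 1)) := by ring
    _ = K1 * K2 * (D0 - 8 * e * (x + 2) + L * coeff e n) := by rw [e2]
    _ < e * (2 * x + 5) * K1 * (e * I2) := by linarith

/-- The slope step. -/
lemma coeff_slope (he : e ∈ Ioo (0 : ℝ) 1) (n : ℕ) :
    (2 * (n : ℝ) + 3 + 3 / e) * coeff e n ≤
      (2 * (n : ℝ) + 5) * coeff e (n + 1) + 8 * ((n : ℝ) + 2) := by
  suffices h : 0 ≤ e * (2 * (n : ℝ) + 5) * coeff e (n + 1) + 8 * e * ((n : ℝ) + 2)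
      - ((2 * (n : ℝ) + 3) * e + 3) * coeff e n by
    refine le_of_mul_le_mul_left ?_ he.1
    have h2 : e * ((2 * (n : ℝ) + 3 + 3 / e) * coeff e n) =
        ((2 * (n : ℝ) + 3) * e + 3) * coeff e n := by
      have := he.1.ne'
      field_simp
    rw [h2]; linarith
  induction n with
  | zero =>
    have hs := bseq_start he 1 (zStar e)
    have h0 := coeff_lower he 0
    simp only [coeff] at h0 ⊢
    norm_num at h0 ⊢
    have hε : 0 < 1 - e := by linarith [he.2]
    have hci : 2 * e ≤ bseq e 1 (zStar e) 0 * (1 - e) := by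
      unfold cInf at h0; rwa [div_le_iff₀ hε] at h0
    nlinarith [he.1]
  | succ m ih =>
    by_contra hc
    push Not at hc
    push_cast at hc
    have hd : Drop e (m + 1) := drop_succ he (Or.inl ⟨ih, by linarith⟩)
    have hall : ∀ j, Drop e (m + 1 + j) := fun j => by
      induction j with
      | zero => exact hd
      | succ j ih' => exact drop_succ he (Or.inr ih')
    refine no_harmonic_drop (r := fun j => coeff e j / ((j : ℝ) + 1))
      (a := e / 5) (by have := he.1; positivity) (m + 1)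
      (fun j => div_nonneg (coeff_pos he j).le (by positivity)) fun j hj => ?_
    obtain ⟨i, rfl⟩ := Nat.exists_eq_add_of_le hj
    obtain ⟨h1, h2⟩ := hall i
    have hb := coeff_pos he (m + 1 + i)
    set b := coeff e (m + 1 + i) with hbdef
    set b' := coeff e (m + 1 + i + 1) with hb'
    set y : ℝ := ((m + 1 + i : ℕ) : ℝ) with hy
    have hy0 : 0 ≤ y := Nat.cast_nonneg _
    have he0 := he.1
    have hd0 : 0 < 1 - e := by linarith [he.2]
    set K := (1 - e) * (2 * (y + 1) * (3 + 2 * e) + 9 + 2 * e) with hK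
    have hKp : 0 < K := by rw [hK]; positivity
    have hbr : ((3 - 4 * e) * (y + 1) - 3 * e) * b ≤
        e * (y + 1) * (8 * (y + 2) - e * (y + 1)) := by
      rcases le_total ((3 - 4 * e) * (y + 1) - 3 * e) 0 with hle | hge
      · have : 0 ≤ e * (y + 1) * (8 * (y + 2) - e * (y + 1)) :=
          mul_nonneg (by positivity) (by nlinarith [he.2])
        linarith [mul_nonpos_of_nonpos_of_nonneg hle hb.le]
      · refine le_of_mul_le_mul_left ?_ hKp
        have h6 := mul_le_mul_of_nonneg_left h2.le hge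
        have h7 : ((3 - 4 * e) * (y + 1) - 3 * e) * (8 * (y + 2) * ((2 + e) * (y + 1) + 3)) ≤
            (8 * (y + 2) - e * (y + 1)) * (y + 1) * K := by
          set d := 1 - e with hd'
          have e1 : (8 * (y + 2) - e * (y + 1)) * (y + 1) * K -
              ((3 - 4 * e) * (y + 1) - 3 * e) * (8 * (y + 2) * ((2 + e) * (y + 1) + 3)) =
              353 * e * d ^ 2 + 731 * e ^ 2 * d + 384 * e ^ 3 + 420 * e * d ^ 2 * y +
                884 * e ^ 2 * d * y + 480 * e ^ 3 * y + 157 * e * d ^ 2 * y ^ 2 +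
                335 * e ^ 2 * d * y ^ 2 + 192 * e ^ 3 * y ^ 2 + 18 * e * d ^ 2 * y ^ 3 +
                38 * e ^ 2 * d * y ^ 3 + 24 * e ^ 3 * y ^ 3 := by
            rw [hK, hd']; ring
          have : 0 ≤ 353 * e * d ^ 2 + 731 * e ^ 2 * d + 384 * e ^ 3 + 420 * e * d ^ 2 * y +
              884 * e ^ 2 * d * y + 480 * e ^ 3 * y + 157 * e * d ^ 2 * y ^ 2 +
              335 * e ^ 2 * d * y ^ 2 + 192 * e ^ 3 * y ^ 2 + 18 * e * d ^ 2 * y ^ 3 +
              38 * e ^ 2 * d * y ^ 3 + 24 * e ^ 3 * y ^ 3 := by positivity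
          linarith
        linarith [mul_le_mul_of_nonneg_left h7 he0.le]
    have hyk : ((m + 1 + i + 1 : ℕ) : ℝ) = y + 1 := by rw [hy]; push_cast; ring
    rw [hyk]
    rw [div_sub_div _ _ (by positivity) (by positivity),
      div_le_div_iff₀ (by positivity) (by positivity)]
    have h9 : (y + 1) * b' ≤ (y + 2) * b - e / 5 * (y + 1) := by
      refine le_of_mul_le_mul_left ?_ (by positivity : (0 : ℝ) < e * (2 * y + 5))
      have h10 : 0 ≤ e ^ 2 * (y + 1) * (3 * y) := by positivity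
      linarith [mul_le_mul_of_nonneg_left h1.le (by positivity : (0 : ℝ) ≤ y + 1)]
    linarith [mul_le_mul_of_nonneg_left h9 (by positivity : (0 : ℝ) ≤ y + 2)]

theorem coeffPin : CoeffPin := by
  intro e he
  refine ⟨coeff e, ?_, fun n => ?_, coeff_lower he, coeff_upper he, coeff_ratio_hi he,
    coeff_ratio_lo he, coeff_slope he⟩
  · simpa [coeff] using bseq_start he 1 (zStar e)
  · have h := bseq_step he 1 (zStar e) n
    simp only [cA, cB, cD, cG] at h
    push_cast at h
    simp only [coeff]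
    linear_combination h

end Vale.Agent.P219.CH.Relax.Four
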