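import Vale.Agent.P219.Relax.Defs

/-!
# P219, dimension four, every curvature bound: the pins of the radial certificate

In the contact cosine `t = tanh (r / 2) / tanh R` and `e = tanh R ^ 2` the radial weight `u` is
`tanh R * v * y ^ 2 / (4 t ^ 2)` with `y = 1 - e t ^ 2`, and `u' + 2 coth r u = w * y ^ 3 / (8 t ^ 3)`.
Every pointwise fact is a polynomial in `e, t, v, w` and the reduced volume coefficient `β`.
-/

noncomputable section

open Set Filter Topology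

namespace Vale.Agent.P219.CH.Relax.Four

/-- The common factor. -/
def yf (e t : ℝ) : ℝ := 1 - e * t ^ 2

/-- The inhomogeneous term. -/
def src (e β t : ℝ) : ℝ := 2 * β * t ^ 2 - 24 * t ^ 2 * (1 + e * t ^ 2) / yf e t ^ 3

/-- The derivative of `w`. -/
def wDeriv (e β v w t : ℝ) : ℝ :=
  ((6 * t * v + src e β t) / yf e t + 3 * t * w) / (1 - t ^ 2)

/-- The solution regular at both ends; regularity determines `β`. -/
structure Sol (e β : ℝ) (v w : ℝ → ℝ) : Prop where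
  cont_v : ContinuousOn v (Icc 0 1)
  cont_w : ContinuousOn w (Icc 0 1)
  deriv_v : ∀ t ∈ Ioo (0 : ℝ) 1, HasDerivAt v (w t / t) t
  deriv_w : ∀ t ∈ Ioo (0 : ℝ) 1, HasDerivAt w (wDeriv e β (v t) (w t) t) t
  edge : (6 * v 1 + src e β 1) / yf e 1 + 3 * w 1 = 0
  zero_v : v 0 = 0
  zero_w : w 0 = 0
  origin : ∃ k : ℝ, Tendsto (fun t => v t / t ^ 3) (𝓝[>] 0) (𝓝 k) ∧
    Tendsto (fun t => w t / t ^ 3) (𝓝[>] 0) (𝓝 (3 * k))

/-! ## The coefficients of the symmetrised integrand inside the ball, in `t` -/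

/-- `1 + u' + 2 coth r u`. -/
def p0F (e t w : ℝ) : ℝ := 1 + w * yf e t ^ 3 / (8 * t ^ 3)

/-- The mean curvature times the weight. -/
def hF (e t v : ℝ) : ℝ := 3 * v * yf e t ^ 2 / (4 * t ^ 2)

/-- The coefficient of the squared cosine. -/
def qF (e t v w : ℝ) : ℝ :=
  yf e t ^ 2 * (3 * (1 + e * t ^ 2) * v - yf e t * w) / (8 * t ^ 3)

/-- The weight over `sinh r`. -/
def gamF (e t v : ℝ) : ℝ := v * yf e t ^ 3 / (8 * t ^ 3)

/-- Minus the slope of `a (c) / c`, over `(2 tanh R) ^ 3`. -/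
def slopeF (e t v w : ℝ) : ℝ :=
  2 / yf e t ^ 3 + w / (4 * t ^ 3) - 3 * v / (4 * t * yf e t)

/-- The derivative of `slopeF` along a solution. -/
def slopeDeriv (e β t v w : ℝ) : ℝ :=
  12 * e * t / yf e t ^ 4 + wDeriv e β v w t / (4 * t ^ 3) - 3 * w / (4 * t ^ 4)
    - 3 * w / (4 * t ^ 2 * yf e t)
    + 3 * v * (yf e t - 2 * e * t ^ 2) / (4 * t ^ 2 * yf e t ^ 2)

/-- `psi (r, m) + q m ^ 2`, whose sign makes the kernel grow with the spread of the two cosines. -/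
def MonoCond (p h q : ℝ) : Prop :=
  ∀ c ∈ Icc (0 : ℝ) 1, 0 ≤ p - h * c + 2 * q * c ^ 2

/-- The kernel is negative by at most the gain. -/
def GainCond (p h q g : ℝ) : Prop :=
  ∀ c ∈ Icc (0 : ℝ) 1, ∀ d ∈ Icc (0 : ℝ) 1,
    0 ≤ 2 * p - h * (c + d) + q * (c ^ 2 + d ^ 2) + 2 * g * (c * d)

/-- A pair with one outward cosine pays for any shorter one. -/
def MixedCond (p h q g : ℝ) : Prop :=
  ∀ c ∈ Icc (0 : ℝ) 1, ∀ d ∈ Icc (0 : ℝ) 1,
    2 * g * (c * d) ≤ 2 * p - h * c + h * d + q * (c ^ 2 + d ^ 2)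

/-- The facts inside the ball. -/
structure InFacts (e β : ℝ) (v w : ℝ → ℝ) : Prop where
  origin_pos : ∃ k : ℝ, 0 < k ∧ ∀ t ∈ Ioc (0 : ℝ) 1, k * t ^ 3 ≤ v t
  w_nonneg : ∀ t ∈ Ioc (0 : ℝ) 1, 0 ≤ w t
  mono : ∀ t ∈ Ioc (0 : ℝ) 1, MonoCond (p0F e t (w t)) (hF e t (v t)) (qF e t (v t) (w t))
  conv : ∀ t ∈ Ioc (0 : ℝ) 1, hF e t (v t) ≤ 3 * p0F e t (w t)
  slope : ∀ t ∈ Ioc (0 : ℝ) 1, 0 ≤ slopeF e t (v t) (w t)
  conc : ∀ t ∈ Ioo (0 : ℝ) 1, 0 ≤ slopeDeriv e β t (v t) (w t)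
  gain : ∀ t ∈ Ioc (0 : ℝ) 1, GainCond (p0F e t (w t)) (hF e t (v t)) (qF e t (v t) (w t))
    (gamF e t (v t))
  mixed : ∀ t ∈ Ioc (0 : ℝ) 1, MixedCond (p0F e t (w t)) (hF e t (v t)) (qF e t (v t) (w t))
    (gamF e t (v t))

/-! ## Beyond the diameter -/

/-- The hyperbolic cotangent. -/
def coth (r : ℝ) : ℝ := Real.cosh r / Real.sinh r

/-- The weight at the diameter, from `v 1`. -/
def uEdge (R v₁ : ℝ) : ℝ := Real.tanh R * v₁ * (1 - Real.tanh R ^ 2) ^ 2 / 4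

/-- The value at the diameter of `sinh r ^ 3` times the integrand at cosine one. -/
def gEdge (R v₁ : ℝ) : ℝ :=
  Real.sinh (2 * R) ^ 3 * (1 + (3 * coth (2 * R) - 3 / Real.tanh R) * uEdge R v₁)

/-- The continuation: `sinh r ^ 3 (1 + (3 coth r - 3 / tanh R) u)` is affine with slope `e β`. -/
def uOut (R β v₁ r : ℝ) : ℝ :=
  (1 - (gEdge R v₁ + Real.tanh R ^ 2 * β * (r - 2 * R)) / Real.sinh r ^ 3) /
    (3 / Real.tanh R - 3 * coth r)

/-- `1 + u' + 2 coth r u` beyond the diameter. -/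
def p0Out (R β v₁ r : ℝ) : ℝ := 1 + deriv (uOut R β v₁) r + 2 * coth r * uOut R β v₁ r

/-- The mean curvature times the weight beyond the diameter. -/
def hOut (R β v₁ r : ℝ) : ℝ := 3 / Real.tanh R * uOut R β v₁ r

/-- The coefficient of the squared cosine beyond the diameter. -/
def qOut (R β v₁ r : ℝ) : ℝ := uOut R β v₁ r * coth r - deriv (uOut R β v₁) r

/-- The facts beyond the diameter. -/
structure OutFacts (R β v₁ : ℝ) : Prop where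
  pos : ∀ r, 2 * R ≤ r → 0 < uOut R β v₁ r
  usq_mono : ∀ r, 2 * R ≤ r → 0 ≤ deriv (uOut R β v₁) r + 2 * coth r * uOut R β v₁ r
  mono : ∀ r, 2 * R ≤ r → MonoCond (p0Out R β v₁ r) (hOut R β v₁ r) (qOut R β v₁ r)
  slope : ∀ r, 2 * R ≤ r →
    Real.sinh r ^ 3 * (hOut R β v₁ r - 2 * p0Out R β v₁ r) ≤
      Real.sinh (2 * R) ^ 3 * (hOut R β v₁ (2 * R) - 2 * p0Out R β v₁ (2 * R))
  gain : ∀ r, 2 * R ≤ r → GainCond (p0Out R β v₁ r) (hOut R β v₁ r) (qOut R β v₁ r)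
    (uOut R β v₁ r / Real.sinh r)
  mixed : ∀ r, 2 * R ≤ r → MixedCond (p0Out R β v₁ r) (hOut R β v₁ r) (qOut R β v₁ r)
    (uOut R β v₁ r / Real.sinh r)

/-! ## The certificate -/

/-- The radial weight. -/
def uFour (R β : ℝ) (v : ℝ → ℝ) (r : ℝ) : ℝ :=
  if r ≤ 0 then 0
  else if r ≤ 2 * R then
    Real.tanh R * v (Real.tanh (r / 2) / Real.tanh R) * (1 - Real.tanh (r / 2) ^ 2) ^ 2 /
      (4 * (Real.tanh (r / 2) / Real.tanh R) ^ 2)
  else uOut R β (v 1) r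

/-- The marginal coefficient, read off at the contact of the chord with cosine `c`. -/
def aFour (R β : ℝ) (v w : ℝ → ℝ) (c : ℝ) : ℝ :=
  c * ((2 * Real.tanh R) ^ 3 * c / yf (Real.tanh R ^ 2) c ^ 3 *
      (p0F (Real.tanh R ^ 2) c (w c) - hF (Real.tanh R ^ 2) c (v c) * c +
        qF (Real.tanh R ^ 2) c (v c) (w c) * c ^ 2) -
    Real.tanh R ^ 2 * β *
      Real.log ((1 + Real.tanh R * c) / (1 - Real.tanh R * c)))

/-! ## Pins -/

/-- Existence. -/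
def ExistsPin : Prop :=
  ∀ e ∈ Ioo (0 : ℝ) 1, ∃ (β : ℝ) (v w : ℝ → ℝ), Sol e β v w

/-- Comparison with a trial pair `(V, W)`, `W = t V'`, with residual at most `η t ^ 2`. -/
def ComparePin : Prop :=
  ∀ e ∈ Ioo (0 : ℝ) 1, ∀ (β : ℝ) (v w : ℝ → ℝ), Sol e β v w →
    ∀ (B η k : ℝ) (V W W' : ℝ → ℝ), 0 ≤ η →
      ContinuousOn V (Icc 0 1) → ContinuousOn W (Icc 0 1) → V 0 = 0 →
      Tendsto (fun t => V t / t ^ 3) (𝓝[>] 0) (𝓝 k) →
      Tendsto (fun t => W t / t ^ 3) (𝓝[>] 0) (𝓝 (3 * k)) →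
      (∀ t ∈ Ioo (0 : ℝ) 1, HasDerivAt V (W t / t) t ∧ HasDerivAt W (W' t) t ∧
        |yf e t * ((1 - t ^ 2) * W' t - 3 * t * W t) - (6 * t * V t + src e B t)| ≤ η * t ^ 2) →
      |yf e 1 * (-3 * W 1) - (6 * V 1 + src e B 1)| ≤ η →
      |β - B| ≤ η / 2 ∧ ∀ t ∈ Icc (0 : ℝ) 1, |v t - V t| ≤ η / 3

/-- The facts hold for every radius. -/
def FactsPin : Prop :=
  ∀ R : ℝ, 0 < R → ∀ (β : ℝ) (v w : ℝ → ℝ), Sol (Real.tanh R ^ 2) β v w →
    0 ≤ β ∧ InFacts (Real.tanh R ^ 2) β v w ∧ OutFacts R β (v 1)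

/-- The facts give a certificate. -/
def CertPin : Prop :=
  ∀ R : ℝ, 0 < R → ∀ (β : ℝ) (v w : ℝ → ℝ), Sol (Real.tanh R ^ 2) β v w → 0 ≤ β →
    InFacts (Real.tanh R ^ 2) β v w → OutFacts R β (v 1) →
      CertAt 4 R (aFour R β v w) (Real.tanh R ^ 2 * β)

/-- The three pins give certificates against every ball. -/
theorem cert_of_pins (he : ExistsPin) (hf : FactsPin) (hc : CertPin) : Cert 4 := by
  intro R hR
  have h0 : 0 < Real.tanh R := by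
    rw [Real.tanh_eq_sinh_div_cosh]
    exact div_pos (Real.sinh_pos_iff.2 hR) (Real.cosh_pos R)
  have h1 : Real.tanh R < 1 := Real.tanh_lt_one R
  obtain ⟨β, v, w, hs⟩ := he _ ⟨pow_pos h0 2, pow_lt_one₀ h0.le h1 two_ne_zero⟩
  obtain ⟨hb, hi, ho⟩ := hf R hR β v w hs
  exact ⟨_, _, hc R hR β v w hs hb hi ho⟩

end Vale.Agent.P219.CH.Relax.Four
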