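import Vale.Agent.P219.GenK.Four.Kern
import Vale.Agent.P219.Relax.LineRadial
import Vale.Agent.P219.Relax.Four.Defs

/-!
# P219, dimension four: gain and whole-line condition of the radial certificate

For any differentiable weight agreeing with `uFour` off the diagonal, both conditions follow from the
facts inside and beyond the diameter.
-/

noncomputable section

open Set Filter Topology

namespace Vale.Agent.P219.CH.Relax.Four

variable {R β : ℝ} {vs ws v : ℝ → ℝ}

/-- The gain from two scalar inequalities. -/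
theorem gainCond_of_scalar {p h q g : ℝ} (hh : 0 ≤ h) (h1 : 0 ≤ p - h + (q + min q g))
    (h2 : 2 * (q + min q g) ≤ h ∨ h ^ 2 ≤ 4 * p * (q + min q g)) : GainCond p h q g :=
  fun _ hc _ hd => gain_core hh h1 h2 hc hd

/-- The condition on mixed pairs from three scalar inequalities. -/
theorem mixedCond_of_scalar {p h q g : ℝ} (hh : 0 ≤ h) (hp : 0 ≤ p) (h1 : 0 ≤ 2 * p - h + q)
    (h2 : q ≤ 2 * p) (h3 : g ≤ p + min q 0) : MixedCond p h q g :=
  fun _ hc _ hd => mixed_core hh hp h1 h2 h3 hc hd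

/-- The contact cosine of a chord of length below the diameter is in the unit interval. -/
lemma contact_mem (hR : 0 < R) {r : ℝ} (hr : r ∈ Ioo 0 (2 * R)) :
    Real.tanh (r / 2) / Real.tanh R ∈ Ioo (0 : ℝ) 1 := by
  have hT := GenK.Four.tanh_pos hR
  refine ⟨div_pos (GenK.Four.tanh_pos (by linarith [hr.1])) hT, (div_lt_one hT).2 ?_⟩
  have h := strictMono_of_deriv_pos (f := fun z : ℝ => Real.tanh (z / 2)) fun x => by
    rw [(GenK.Four.hasDerivAt_tanh_half x).deriv]
    exact div_pos (sub_pos.2 ((sq_lt_one_iff_abs_lt_one _).2 (Real.abs_tanh_lt_one _))) two_pos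
  simpa using h hr.2

lemma uFour_in {r : ℝ} (hr : r ∈ Ioc 0 (2 * R)) : uFour R β vs r =
    Real.tanh R * vs (Real.tanh (r / 2) / Real.tanh R) * (1 - Real.tanh (r / 2) ^ 2) ^ 2 /
      (4 * (Real.tanh (r / 2) / Real.tanh R) ^ 2) := by
  rw [uFour, if_neg (not_le.2 hr.1), if_pos hr.2]

lemma uFour_out (hR : 0 < R) {r : ℝ} (hr : 2 * R < r) :
    uFour R β vs r = uOut R β (vs 1) r := by
  rw [uFour, if_neg (not_le.2 (by linarith)), if_neg (not_le.2 hr)]

/-- The hyperbolic cotangent in the half angle. -/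
lemma coth_half {r : ℝ} (hr : 0 < r) :
    Real.cosh r / Real.sinh r = (1 + Real.tanh (r / 2) ^ 2) / (2 * Real.tanh (r / 2)) := by
  have hc := Real.cosh_pos (r / 2)
  have hs := Real.sinh_pos_iff.2 (show 0 < r / 2 by linarith)
  conv_lhs => rw [show r = 2 * (r / 2) by ring, Real.cosh_two_mul, Real.sinh_two_mul]
  rw [Real.tanh_eq_sinh_div_cosh]
  field_simp

/-- The four coefficients inside the diameter. -/
theorem coeff_in (hR : 0 < R)
    (hder : ∀ t ∈ Ioo (0 : ℝ) 1, HasDerivAt vs (ws t / t) t)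
    (hvu : ∀ r, 0 < r → radU v r = uFour R β vs r)
    {r : ℝ} (hr : r ∈ Ioo 0 (2 * R)) {e t : ℝ} (he : e = Real.tanh R ^ 2)
    (ht : t = Real.tanh (r / 2) / Real.tanh R) :
    radP v r = p0F e t (ws t) ∧ radH R v r = hF e t (vs t) ∧
      radQ v r = qF e t (vs t) (ws t) ∧ radK v r = gamF e t (vs t) := by
  have hT := GenK.Four.tanh_pos hR
  have ht' := contact_mem hR hr
  have hu : radU v r = Real.tanh R * vs (Real.tanh (r / 2) / Real.tanh R) *
      (1 - Real.tanh (r / 2) ^ 2) ^ 2 / (4 * (Real.tanh (r / 2) / Real.tanh R) ^ 2) := by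
    rw [hvu r hr.1, uFour_in (Ioo_subset_Ioc_self hr)]
  have hev : radU v =ᶠ[𝓝 r] fun x => Real.tanh R * vs (Real.tanh (x / 2) / Real.tanh R) *
      (1 - Real.tanh (x / 2) ^ 2) ^ 2 / (4 * (Real.tanh (x / 2) / Real.tanh R) ^ 2) :=
    Filter.eventually_of_mem (isOpen_Ioo.mem_nhds hr) fun x hx => by
      rw [hvu x hx.1, uFour_in (Ioo_subset_Ioc_self hx)]
  have hτ := GenK.Four.hasDerivAt_tanh_half r
  have hd := (((((hder _ ht').comp r (hτ.div_const (Real.tanh R))).const_mul (Real.tanh R)).mul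
    ((hτ.pow 2).const_sub 1 |>.pow 2)).div
      (((hτ.div_const (Real.tanh R)).pow 2).const_mul 4)
      (mul_ne_zero (by norm_num) (pow_ne_zero 2 ht'.1.ne'))).congr_of_eventuallyEq hev
  have hd' := hd.deriv
  simp only [Function.comp_apply, Nat.cast_ofNat, Nat.reduceSub, pow_one, Pi.mul_apply,
    Pi.pow_apply] at hd'
  have hte : Real.tanh (r / 2) = t * Real.tanh R := by rw [ht]; field_simp
  have hs : Real.sinh r = 2 * (t * Real.tanh R) / (1 - (t * Real.tanh R) ^ 2) := by
    rw [GenK.Four.sinh_eq, hte]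
  have hco : Real.cosh r / Real.sinh r =
      (1 + (t * Real.tanh R) ^ 2) / (2 * (t * Real.tanh R)) := by
    rw [coth_half hr.1, hte]
  have ht0 : 0 < t := ht ▸ ht'.1
  have hy : 0 < 1 - (t * Real.tanh R) ^ 2 := by
    rw [← hte]
    exact sub_pos.2 ((sq_lt_one_iff_abs_lt_one _).2 (Real.abs_tanh_lt_one _))
  rw [radP, radH, radQ, radK, hd', hu, hco, hs, GenK.Four.modelH_four hR, ← ht, hte, he]
  simp only [p0F, hF, qF, gamF, yf]
  refine ⟨?_, ?_, ?_, ?_⟩ <;> field_simp <;> ring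

/-- The four coefficients from the diameter on. -/
theorem coeff_out (hR : 0 < R) (hv : Differentiable ℝ v)
    (hvu : ∀ r, 0 < r → radU v r = uFour R β vs r) {r : ℝ} (hr : 2 * R ≤ r) :
    radP v r = p0Out R β (vs 1) r ∧ radH R v r = hOut R β (vs 1) r ∧
      radQ v r = qOut R β (vs 1) r ∧ radK v r = uOut R β (vs 1) r / Real.sinh r := by
  have hr0 : 0 < r := by linarith
  have hs := (Real.sinh_pos_iff.2 hr0).ne'
  have hden : 3 / Real.tanh R - 3 * coth r ≠ 0 := by
    have h1 := Real.sinh_pos_iff.2 hR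
    have h2 := Real.sinh_pos_iff.2 (show 0 < r - R by linarith)
    rw [Real.sinh_sub] at h2
    have h3 : 3 / Real.tanh R - 3 * coth r =
        3 * (Real.sinh r * Real.cosh R - Real.cosh r * Real.sinh R) /
          (Real.sinh R * Real.sinh r) := by
      rw [coth, Real.tanh_eq_sinh_div_cosh]
      field_simp
    rw [h3]
    exact (div_pos (mul_pos three_pos h2) (mul_pos h1 (Real.sinh_pos_iff.2 hr0))).ne'
  have hdiff : DifferentiableAt ℝ (uOut R β (vs 1)) r := by
    unfold uOut coth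
    fun_prop (disch := first | exact hs | exact pow_ne_zero _ hs | exact hden)
  have heq : EqOn (radU v) (uOut R β (vs 1)) (Ioi (2 * R)) := fun x hx => by
    rw [hvu x (by linarith [Set.mem_Ioi.1 hx]), uFour_out hR hx]
  have hval : radU v r = uOut R β (vs 1) r := by
    rcases hr.lt_or_eq with h | h
    · exact heq h
    · subst h
      exact tendsto_nhds_unique
        ((hasDerivAt_radU hv _).continuousAt.tendsto.mono_left nhdsWithin_le_nhds)
        ((hdiff.continuousAt.tendsto.mono_left nhdsWithin_le_nhds).congr'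
          (eventuallyEq_nhdsWithin_of_eqOn (s := Ioi (2 * R)) fun x hx => (heq hx).symm))
  have hder : deriv (radU v) r = deriv (uOut R β (vs 1)) r :=
    (uniqueDiffWithinAt_Ioi r).eq_deriv (Ioi r)
      (hasDerivAt_radU hv r).differentiableAt.hasDerivAt.hasDerivWithinAt
      (hdiff.hasDerivAt.hasDerivWithinAt.congr
        (fun x hx => heq (hr.trans_lt hx)) hval)
  simp only [radP, radH, radQ, radK, p0Out, hOut, qOut, coth, hder, hval,
    GenK.Four.modelH_four hR, true_and, and_true]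
  ring

/-- The weight is nonnegative and the facts hold at every distance. -/
theorem facts_at (hR : 0 < R) (hv : Differentiable ℝ v)
    (hder : ∀ t ∈ Ioo (0 : ℝ) 1, HasDerivAt vs (ws t / t) t)
    (hvu : ∀ r, 0 < r → radU v r = uFour R β vs r)
    (hi : InFacts (Real.tanh R ^ 2) β vs ws) (ho : OutFacts R β (vs 1)) {r : ℝ} (hr : 0 < r) :
    0 ≤ radU v r ∧ 1 ≤ radP v r ∧ MixAt R v r ∧ GainAt R v r := by
  rcases lt_or_ge r (2 * R) with h | h
  · have ht := contact_mem hR ⟨hr, h⟩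
    set t := Real.tanh (r / 2) / Real.tanh R with ht'
    obtain ⟨e1, e2, e3, e4⟩ := coeff_in hR hder hvu ⟨hr, h⟩ rfl ht'
    have htc : t ∈ Ioc (0 : ℝ) 1 := Ioo_subset_Ioc_self ht
    obtain ⟨k, hk, hk'⟩ := hi.origin_pos
    have hy : 0 ≤ yf (Real.tanh R ^ 2) t := by
      have : Real.tanh R ^ 2 * t ^ 2 ≤ 1 := mul_le_one₀
        ((sq_le_one_iff_abs_le_one _).2 (Real.abs_tanh_lt_one R).le) (sq_nonneg t)
        (pow_le_one₀ ht.1.le ht.2.le)
      rw [yf]
      linarith
    refine ⟨?_, ?_, ?_, ?_⟩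
    · rw [hvu r hr, uFour_in ⟨hr, h.le⟩]
      have : 0 ≤ vs t := le_trans (mul_nonneg hk.le (pow_nonneg ht.1.le 3)) (hk' t htc)
      have := (GenK.Four.tanh_pos hR).le
      positivity
    · rw [e1, p0F, le_add_iff_nonneg_right]
      exact div_nonneg (mul_nonneg (hi.w_nonneg t htc) (pow_nonneg hy 3))
        (mul_nonneg (by norm_num) (pow_nonneg ht.1.le 3))
    · intro c hc d hd
      rw [e1, e2, e3, e4]
      exact hi.mixed t htc c hc d hd
    · intro c hc d hd
      rw [e1, e2, e3, e4]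
      exact hi.gain t htc c hc d hd
  · obtain ⟨e1, e2, e3, e4⟩ := coeff_out hR hv hvu h
    refine ⟨?_, ?_, ?_, ?_⟩
    · rcases h.lt_or_eq with h' | h'
      · rw [hvu r hr, uFour_out hR h']
        exact (ho.pos r h).le
      · have hk := Real.sinh_pos_iff.2 hr
        rw [radK, div_left_inj' hk.ne'] at e4
        rw [e4]
        exact (ho.pos r h).le
    · rw [e1, p0Out]
      linarith [ho.usq_mono r h]
    · intro c hc d hd
      rw [e1, e2, e3, e4]
      exact ho.mixed r h c hc d hd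
    · intro c hc d hd
      rw [e1, e2, e3, e4]
      exact ho.gain r h c hc d hd

lemma nonneg_weight (hR : 0 < R) (hv : Differentiable ℝ v)
    (hder : ∀ t ∈ Ioo (0 : ℝ) 1, HasDerivAt vs (ws t / t) t)
    (hvu : ∀ r, 0 < r → radU v r = uFour R β vs r)
    (hi : InFacts (Real.tanh R ^ 2) β vs ws) (ho : OutFacts R β (vs 1)) {r : ℝ} (hr : 0 ≤ r) :
    0 ≤ v (r ^ 2 / 2) := by
  have hpos : ∀ x : ℝ, 0 < x → 0 ≤ v (x ^ 2 / 2) := fun x hx => by
    have h := (facts_at hR hv hder hvu hi ho hx).1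
    exact nonneg_of_mul_nonneg_right (by rwa [radU] at h) hx
  rcases hr.lt_or_eq with h | h
  · exact hpos r h
  · subst h
    exact ge_of_tendsto (b := (0 : ℝ))
      (((hv.continuous.comp (continuous_id.pow 2 |>.div_const 2)).tendsto (0 : ℝ)).mono_left
        nhdsWithin_le_nhds : Tendsto (fun x : ℝ => v (x ^ 2 / 2)) (𝓝[>] 0) _)
      (eventually_mem_nhdsWithin.mono fun x hx => hpos x hx)

/-- The gain condition of the radial certificate. -/
theorem gainOK_four {ε T : ℝ} (hR : 0 < R) (hε : 0 ≤ ε) (hv : Differentiable ℝ v)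
    (hder : ∀ t ∈ Ioo (0 : ℝ) 1, HasDerivAt vs (ws t / t) t)
    (hvu : ∀ r, 0 < r → radU v r = uFour R β vs r)
    (hi : InFacts (Real.tanh R ^ 2) β vs ws) (ho : OutFacts R β (vs 1)) :
    GainOK 4 R ε T (radW v) :=
  gainOK_radial hv hR.le hε (fun _ hr => nonneg_weight hR hv hder hvu hi ho hr.1)
    fun _ hr => (facts_at hR hv hder hvu hi ho hr.1).2.2.2

/-- The whole-line condition of the radial certificate, given the pair bound. -/
theorem lineOK_four {b ε T : ℝ} {a : ℝ → ℝ} (hR : 0 < R) (hb : 0 ≤ b) (hε : 0 ≤ ε)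
    (hv : Differentiable ℝ v) (hder : ∀ t ∈ Ioo (0 : ℝ) 1, HasDerivAt vs (ws t / t) t)
    (hvu : ∀ r, 0 < r → radU v r = uFour R β vs r)
    (hi : InFacts (Real.tanh R ^ 2) β vs ws) (ho : OutFacts R β (vs 1))
    (ha : ∀ c ∈ Ioc (0 : ℝ) 1, a c ≤ 0)
    (hF : ∀ r c d, r ∈ Ioc 0 T → c ∈ Ioc (0 : ℝ) 1 → d ∈ Ioc (0 : ℝ) 1 →
      a c / c + a d / d + 2 * b * r - 2 * ε ≤ phi 4 R ε (radW v) r c d) :
    LineOK 4 R a b ε T (radW v) :=
  lineOK_radial hv hR.le hb hε ha (fun _ hr => nonneg_weight hR hv hder hvu hi ho hr.1)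
    (fun _ hr => (facts_at hR hv hder hvu hi ho hr.1).2.1)
    (fun _ hr => (facts_at hR hv hder hvu hi ho hr.1).2.2.1)
    (fun _ hr => (facts_at hR hv hder hvu hi ho hr.1).2.2.2) hF

end Vale.Agent.P219.CH.Relax.Four
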