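import Mathlib

/-!
# P219, dimension four: coefficients of the cooperative system for the radial weight

In curvature `-1` against the ball of radius `R`, with `tt = tanh (r / 2) / tanh R`,
the system is `V' = P / (sinh w^(3/2))`,
`P' = √w (b tt² - 3 sinh² cosh + (3 / tanh² R) tanh (r/2) V)` on `[0, 2 R]`, `w = 1 - tt²`.
-/

noncomputable section

open Set Filter Topology MeasureTheory

namespace Vale.Agent.P219.CH.Relax.Four.Ode

/-- The cosine coordinate `tanh (r / 2) / tanh R`. -/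
def tt (R r : ℝ) : ℝ := Real.tanh (r / 2) / Real.tanh R

/-- `1 - tt ^ 2`. -/
def ww (R r : ℝ) : ℝ := 1 - tt R r ^ 2

/-- Its square root. -/
def sw (R r : ℝ) : ℝ := Real.sqrt (ww R r)

/-- The coefficient of `P` in `V'`. -/
def av (R r : ℝ) : ℝ := 1 / (Real.sinh r * (ww R r * sw R r))

/-- The coefficient of `V` in `P'`. -/
def kv (R r : ℝ) : ℝ := 3 / Real.tanh R ^ 2 * (Real.tanh (r / 2) * sw R r)

/-- The forcing in `P'`. -/
def force (R b r : ℝ) : ℝ :=
  b * (tt R r ^ 2 * sw R r) - 3 * (Real.sinh r ^ 2 * Real.cosh r * sw R r)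

/-- A solution of the system, regular at both ends. -/
structure IsSol (R b : ℝ) (V P : ℝ → ℝ) : Prop where
  contV : ContinuousOn V (Icc 0 (2 * R))
  contP : ContinuousOn P (Icc 0 (2 * R))
  V_zero : V 0 = 0
  P_zero : P 0 = 0
  P_end : P (2 * R) = 0
  derivV : ∀ r ∈ Ioo 0 (2 * R), HasDerivAt V (av R r * P r) r
  derivP : ∀ r ∈ Ioo 0 (2 * R), HasDerivAt P (force R b r + kv R r * V r) r

theorem hasDerivAt_tanh (x : ℝ) :
    HasDerivAt Real.tanh (1 - Real.tanh x ^ 2) x := by
  have e : Real.tanh = fun x => Real.sinh x / Real.cosh x :=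
    funext fun x => Real.tanh_eq_sinh_div_cosh x
  have hc := (Real.cosh_pos x).ne'
  rw [e]
  refine ((Real.hasDerivAt_sinh x).fun_div (Real.hasDerivAt_cosh x) hc).congr_deriv ?_
  field_simp

theorem continuous_tanh : Continuous Real.tanh :=
  continuous_iff_continuousAt.2 fun x => (hasDerivAt_tanh x).continuousAt

theorem tanh_strictMono : StrictMono Real.tanh :=
  strictMono_of_deriv_pos fun x => by
    rw [(hasDerivAt_tanh x).deriv]
    linarith [Real.tanh_sq_lt_one x]

theorem tanh_pos {x : ℝ} (hx : 0 < x) : 0 < Real.tanh x := by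
  simpa using tanh_strictMono hx

theorem tanh_nonneg {x : ℝ} (hx : 0 ≤ x) : 0 ≤ Real.tanh x := by
  simpa using tanh_strictMono.monotone hx

theorem hasDerivAt_tanh_half (r : ℝ) :
    HasDerivAt (fun r => Real.tanh (r / 2)) ((1 - Real.tanh (r / 2) ^ 2) / 2) r := by
  have h := (hasDerivAt_tanh (r / 2)).comp r ((hasDerivAt_id r).div_const 2)
  exact h.congr_deriv (by ring)

/-- `sinh = tanh (r/2) (1 + cosh)`. -/
theorem sinh_eq_tanh_half (r : ℝ) :
    Real.sinh r = Real.tanh (r / 2) * (1 + Real.cosh r) := by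
  have hc := (Real.cosh_pos (r / 2)).ne'
  have h1 : Real.sinh r = 2 * Real.sinh (r / 2) * Real.cosh (r / 2) := by
    rw [← Real.sinh_two_mul]; ring_nf
  have h2 : Real.cosh r = Real.cosh (r / 2) ^ 2 + Real.sinh (r / 2) ^ 2 := by
    rw [← Real.cosh_two_mul]; ring_nf
  have h3 : Real.sinh (r / 2) ^ 2 = Real.cosh (r / 2) ^ 2 - 1 := by
    linarith [Real.cosh_sq (r / 2)]
  rw [h1, h2, Real.tanh_eq_sinh_div_cosh, h3]
  field_simp
  ring

/-- `cosh - 1 = tanh (r/2) sinh`. -/
theorem cosh_sub_one (r : ℝ) : Real.cosh r - 1 = Real.tanh (r / 2) * Real.sinh r := by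
  have h := sinh_eq_tanh_half r
  have h2 : Real.cosh r ^ 2 - Real.sinh r ^ 2 = 1 := Real.cosh_sq_sub_sinh_sq r
  have hp : 0 < 1 + Real.cosh r := by linarith [Real.cosh_pos r]
  have : (Real.cosh r - 1 - Real.tanh (r / 2) * Real.sinh r) * (1 + Real.cosh r) = 0 := by
    linear_combination h2 + Real.sinh r * h
  have := (mul_eq_zero.1 this).resolve_right hp.ne'
  linarith

variable {R r : ℝ}

@[fun_prop]
theorem continuous_tt : Continuous (tt R) :=
  (continuous_tanh.comp (continuous_id.div_const 2)).div_const _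

@[fun_prop]
theorem continuous_ww : Continuous (ww R) := by unfold ww; fun_prop

@[fun_prop]
theorem continuous_sw : Continuous (sw R) := by unfold sw; fun_prop

theorem tt_nonneg (hR : 0 < R) (hr : 0 ≤ r) : 0 ≤ tt R r :=
  div_nonneg (tanh_nonneg (by linarith)) (tanh_pos hR).le

theorem tt_pos (hR : 0 < R) (hr : 0 < r) : 0 < tt R r :=
  div_pos (tanh_pos (by linarith)) (tanh_pos hR)

theorem tt_zero : tt R 0 = 0 := by simp [tt]

theorem tt_end (hR : 0 < R) : tt R (2 * R) = 1 := by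
  rw [tt, mul_div_cancel_left₀ R two_ne_zero, div_self (tanh_pos hR).ne']

theorem tt_lt_one (hR : 0 < R) (hr : r < 2 * R) : tt R r < 1 := by
  rw [tt, div_lt_one (tanh_pos hR)]
  exact tanh_strictMono (by linarith)

theorem ww_zero : ww R 0 = 1 := by simp [ww, tt_zero]

theorem sw_zero : sw R 0 = 1 := by simp [sw, ww_zero]

theorem ww_end (hR : 0 < R) : ww R (2 * R) = 0 := by simp [ww, tt_end hR]

theorem sw_end (hR : 0 < R) : sw R (2 * R) = 0 := by simp [sw, ww_end hR]

theorem ww_pos (hR : 0 < R) (hr : 0 ≤ r) (hr' : r < 2 * R) : 0 < ww R r := by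
  have h0 := tt_nonneg hR hr
  have h1 := tt_lt_one hR hr'
  rw [ww]; nlinarith

theorem sw_pos (hR : 0 < R) (hr : 0 ≤ r) (hr' : r < 2 * R) : 0 < sw R r :=
  Real.sqrt_pos.2 (ww_pos hR hr hr')

theorem av_nonneg (hR : 0 < R) (hr : 0 < r) (hr' : r < 2 * R) : 0 ≤ av R r := by
  have := ww_pos hR hr.le hr'
  have := sw_pos hR hr.le hr'
  have := Real.sinh_pos_iff.2 hr
  rw [av]; positivity

theorem kv_nonneg (hr : 0 ≤ r) : 0 ≤ kv R r := by
  have := tanh_nonneg (show 0 ≤ r / 2 by linarith)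
  have := Real.sqrt_nonneg (ww R r)
  rw [kv, sw]; positivity

theorem hasDerivAt_ww (hR : 0 < R) (r : ℝ) :
    HasDerivAt (ww R)
      (-(Real.tanh (r / 2) * (1 - Real.tanh (r / 2) ^ 2)) / Real.tanh R ^ 2) r := by
  have h := (((hasDerivAt_tanh_half r).div_const (Real.tanh R)).fun_pow 2).const_sub 1
  have := (tanh_pos hR).ne'
  refine h.congr_deriv ?_
  push_cast
  field_simp

/-- Linear lower bound of `ww` at the far end. -/
theorem ww_ge_linear (hR : 0 < R) (hr : 0 ≤ r) (hr' : r ≤ 2 * R) :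
    (1 - Real.tanh R ^ 2) / (2 * Real.tanh R) * (2 * R - r) ≤ ww R r := by
  set T := Real.tanh R with hTdef
  have hT := tanh_pos hR
  set τ := Real.tanh (r / 2)
  have hτ0 : 0 ≤ τ := tanh_nonneg (by linarith)
  have hτT : τ ≤ T := tanh_strictMono.monotone (by linarith)
  have hmv : (1 - T ^ 2) * (R - r / 2) ≤ T - τ := by
    refine Convex.mul_sub_le_image_sub_of_le_deriv (convex_Icc 0 R) continuous_tanh.continuousOn
      (fun x _ => (hasDerivAt_tanh x).differentiableAt.differentiableWithinAt) ?_ _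
      ⟨by linarith, by linarith⟩ R ⟨hR.le, le_rfl⟩ (by linarith)
    intro x hx
    rw [interior_Icc] at hx
    rw [(hasDerivAt_tanh x).deriv]
    have h0 := tanh_nonneg hx.1.le
    have h1 : Real.tanh x ≤ T := tanh_strictMono.monotone hx.2.le
    nlinarith
  have hw : ww R r = (T - τ) * (T + τ) / T ^ 2 := by
    simp only [ww, tt, T, τ]; field_simp; ring
  rw [hw, le_div_iff₀ (by positivity)]
  have hL : (1 - T ^ 2) / (2 * T) * (2 * R - r) * T ^ 2 = (1 - T ^ 2) * (R - r / 2) * T := by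
    field_simp
  rw [hL]
  have hd : 0 ≤ T - τ := by linarith
  nlinarith [mul_le_mul_of_nonneg_right hmv hT.le, mul_nonneg hd hτ0]

/-- Linear upper bound of `ww` at the far end. -/
theorem ww_le_linear (hR : 0 < R) (hr : 0 ≤ r) (hr' : r ≤ 2 * R) :
    ww R r ≤ 1 / Real.tanh R * (2 * R - r) := by
  set T := Real.tanh R with hTdef
  have hT := tanh_pos hR
  set τ := Real.tanh (r / 2)
  have hτ0 : 0 ≤ τ := tanh_nonneg (by linarith)
  have hτT : τ ≤ T := tanh_strictMono.monotone (by linarith)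
  have hmv : T - τ ≤ 1 * (R - r / 2) :=
    Convex.image_sub_le_mul_sub_of_deriv_le (convex_Icc 0 R) continuous_tanh.continuousOn
      (fun x _ => (hasDerivAt_tanh x).differentiableAt.differentiableWithinAt)
      (fun x _ => by rw [(hasDerivAt_tanh x).deriv]; linarith [sq_nonneg (Real.tanh x)]) _
      ⟨by linarith, by linarith⟩ R ⟨hR.le, le_rfl⟩ (by linarith)
  have hw : ww R r = (T - τ) * (T + τ) / T ^ 2 := by
    simp only [ww, tt, T, τ]; field_simp; ring
  rw [hw, div_le_iff₀ (by positivity)]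
  have hL : 1 / T * (2 * R - r) * T ^ 2 = 2 * T * (R - r / 2) := by field_simp
  rw [hL]
  have hd : 0 ≤ T - τ := by linarith
  nlinarith

end Vale.Agent.P219.CH.Relax.Four.Ode
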