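import Vale.Agent.P219.Relax.Four.OdePins

/-!
# P219, dimension four: bounds of both components of the difference to a trial pair

With `Q = rimW t * (w - W)` one has `|Q'| ≤ sqrt (1 - t ^ 2) (6 t |v - V| + 2 η t ^ 2) / yf e t`,
so majorants of `Q` from either end bound `w - W`, hence `v - V`.
-/

noncomputable section

open Set Filter Topology

namespace Vale.Agent.P219.CH.Relax.Four

/-- A function is bounded by a majorant with the same zero at the left end. -/
theorem abs_le_of_deriv_le {a c : ℝ} {f f' M M' : ℝ → ℝ} (hf : ContinuousOn f (Icc a c))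
    (hM : ContinuousOn M (Icc a c)) (h0 : f a = 0) (hM0 : M a = 0)
    (df : ∀ t ∈ Ioo a c, HasDerivAt f (f' t) t) (dM : ∀ t ∈ Ioo a c, HasDerivAt M (M' t) t)
    (hle : ∀ t ∈ Ioo a c, |f' t| ≤ M' t) : ∀ t ∈ Icc a c, |f t| ≤ M t := by
  intro t ht
  have hI : a ≤ c := ht.1.trans ht.2
  have m1 : MonotoneOn (fun t => M t - f t) (Icc a c) := by
    refine monotoneOn_of_hasDerivWithinAt_nonneg (convex_Icc a c) (hM.sub hf)
      (f' := fun t => M' t - f' t) ?_ ?_
    all_goals rw [interior_Icc]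
    · exact fun x hx => ((dM x hx).fun_sub (df x hx)).hasDerivWithinAt
    · exact fun x hx => by linarith [(abs_le.1 (hle x hx)).2]
  have m2 : MonotoneOn (fun t => M t + f t) (Icc a c) := by
    refine monotoneOn_of_hasDerivWithinAt_nonneg (convex_Icc a c) (hM.add hf)
      (f' := fun t => M' t + f' t) ?_ ?_
    all_goals rw [interior_Icc]
    · exact fun x hx => ((dM x hx).fun_add (df x hx)).hasDerivWithinAt
    · exact fun x hx => by linarith [(abs_le.1 (hle x hx)).1]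
  have h1 := m1 ⟨le_rfl, hI⟩ ht ht.1
  have h2 := m2 ⟨le_rfl, hI⟩ ht ht.1
  simp only [h0, hM0, sub_zero, add_zero] at h1 h2
  exact abs_le.2 ⟨by linarith, by linarith⟩

/-- A function is bounded by a majorant with the same zero at the right end. -/
theorem abs_le_of_deriv_le_right {a c : ℝ} {f f' M M' : ℝ → ℝ} (hf : ContinuousOn f (Icc a c))
    (hM : ContinuousOn M (Icc a c)) (h0 : f c = 0) (hM0 : M c = 0)
    (df : ∀ t ∈ Ioo a c, HasDerivAt f (f' t) t) (dM : ∀ t ∈ Ioo a c, HasDerivAt M (M' t) t)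
    (hle : ∀ t ∈ Ioo a c, |f' t| ≤ -M' t) : ∀ t ∈ Icc a c, |f t| ≤ M t := by
  intro t ht
  have h := abs_le_of_deriv_le (a := -c) (c := -a) (f := fun s => f (-s)) (M := fun s => M (-s))
    (f' := fun s => -f' (-s)) (M' := fun s => -M' (-s))
    (hf.comp continuous_neg.continuousOn fun s hs =>
      ⟨by linarith [hs.2], by linarith [hs.1]⟩)
    (hM.comp continuous_neg.continuousOn fun s hs =>
      ⟨by linarith [hs.2], by linarith [hs.1]⟩)
    (by simpa using h0) (by simpa using hM0)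
    (fun s hs => ((df (-s) ⟨by linarith [hs.2], by linarith [hs.1]⟩).comp s
      (hasDerivAt_neg s)).congr_deriv (by ring))
    (fun s hs => ((dM (-s) ⟨by linarith [hs.2], by linarith [hs.1]⟩).comp s
      (hasDerivAt_neg s)).congr_deriv (by ring))
    (fun s hs => by rw [abs_neg]; exact hle (-s) ⟨by linarith [hs.2], by linarith [hs.1]⟩)
    (-t) ⟨by linarith [ht.2], by linarith [ht.1]⟩
  simpa using h

theorem yf_ge {e t : ℝ} (he : e ∈ Ioo (0 : ℝ) 1) (h1 : t ^ 2 ≤ 1) :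
    1 - t ^ 2 ≤ yf e t ∧ 1 - e ≤ yf e t := by
  rw [yf]
  constructor <;> nlinarith [he.1, he.2, sq_nonneg t]

theorem rimW_ge_of_le_half {t : ℝ} (h0 : 0 ≤ t) (h1 : t ≤ 1 / 2) : 9 / 14 ≤ rimW t := by
  have ht : 3 / 4 ≤ 1 - t ^ 2 := by nlinarith
  have hs : 6 / 7 ≤ Real.sqrt (1 - t ^ 2) := Real.le_sqrt_of_sq_le (by nlinarith)
  calc (9 / 14 : ℝ) = 3 / 4 * (6 / 7) := by norm_num
    _ ≤ rimW t := mul_le_mul ht hs (by norm_num) (by linarith)

/-- Bounds of both components. -/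
theorem compare_bounds {e β : ℝ} {v w : ℝ → ℝ} (he : e ∈ Ioo (0 : ℝ) 1) (hs : Sol e β v w)
    {B η k : ℝ} {V W W' : ℝ → ℝ} (hη : 0 ≤ η)
    (cV : ContinuousOn V (Icc 0 1)) (cW : ContinuousOn W (Icc 0 1)) (V0 : V 0 = 0)
    (hV3 : Tendsto (fun t => V t / t ^ 3) (𝓝[>] 0) (𝓝 k))
    (hW3 : Tendsto (fun t => W t / t ^ 3) (𝓝[>] 0) (𝓝 (3 * k)))
    (hres : ∀ t ∈ Ioo (0 : ℝ) 1, HasDerivAt V (W t / t) t ∧ HasDerivAt W (W' t) t ∧
      |yf e t * ((1 - t ^ 2) * W' t - 3 * t * W t) - (6 * t * V t + src e B t)| ≤ η * t ^ 2)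
    (hedge : |yf e 1 * (-3 * W 1) - (6 * V 1 + src e B 1)| ≤ η) :
    |β - B| ≤ η / 2 ∧
      (∀ t ∈ Icc (0 : ℝ) 1, |v t - V t| ≤ η / 3 ∧ |v t - V t| ≤ 8 / 3 * η * t ^ 3 ∧
        (1 - t ^ 2) * |w t - W t| ≤ 4 * η ∧ (1 - e) * |w t - W t| ≤ 4 / 3 * η) ∧
      ∀ t ∈ Icc (0 : ℝ) (1 / 2), |v t - V t| ≤ η * t ^ 3 ∧ |w t - W t| ≤ 3 * η * t ^ 3 := by
  obtain ⟨hd, hD⟩ := comparePin e he β v w hs B η k V W W' hη cV cW V0 hV3 hW3 hres hedge
  have W0 : W 0 = 0 := by
    have hm0 : 𝓝[>] (0 : ℝ) ≤ 𝓝[Icc 0 1] 0 :=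
      nhdsWithin_le_iff.2 (mem_of_superset (Ioo_mem_nhdsGT zero_lt_one) Ioo_subset_Icc_self)
    have h2 : Tendsto (fun t => W t / t ^ 3 * t ^ 3) (𝓝[>] 0) (𝓝 0) := by
      simpa using hW3.mul (((continuous_pow 3).tendsto (0 : ℝ)).mono_left
        (nhdsWithin_le_nhds (s := Ioi 0)))
    refine tendsto_nhds_unique ((cW 0 ⟨le_rfl, zero_le_one⟩).tendsto.mono_left hm0)
      (h2.congr' ?_)
    filter_upwards [self_mem_nhdsWithin] with t ht
    have : t ≠ 0 := ne_of_gt ht
    field_simp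
  set D := fun t => v t - V t with hDdef
  set E := fun t => w t - W t with hEdef
  set Q := fun t => rimW t * E t with hQdef
  set Q' := fun t => -3 * t * Real.sqrt (1 - t ^ 2) * E t +
    rimW t * (wDeriv e β (v t) (w t) t - W' t) with hQ'def
  have cD : ContinuousOn D (Icc 0 1) := hs.cont_v.sub cV
  have cQ : ContinuousOn Q (Icc 0 1) := continuous_rimW.continuousOn.mul (hs.cont_w.sub cW)
  have D0 : D 0 = 0 := by simp [hDdef, hs.zero_v, V0]
  have Q0 : Q 0 = 0 := by simp [hQdef, hEdef, hs.zero_w, W0]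
  have Q1 : Q 1 = 0 := by simp [hQdef, rimW]
  have dD : ∀ t ∈ Ioo (0 : ℝ) 1, HasDerivAt D (E t / t) t := fun t ht =>
    ((hs.deriv_v t ht).fun_sub (hres t ht).1).congr_deriv (by simp only [hEdef]; ring)
  have dQ : ∀ t ∈ Ioo (0 : ℝ) 1, HasDerivAt Q (Q' t) t := fun t ht =>
    (hasDerivAt_rimW (one_sub_sq_pos ht.1.le ht.2)).mul
      ((hs.deriv_w t ht).fun_sub (hres t ht).2.1)
  have hQ' : ∀ t ∈ Ioo (0 : ℝ) 1,
      |Q' t| ≤ Real.sqrt (1 - t ^ 2) * ((6 * t * |D t| + 2 * η * t ^ 2) / yf e t) := by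
    intro t ht
    have hy := yf_pos he ht.1.le ht.2.le
    have hw := one_sub_sq_pos ht.1.le ht.2
    set G := yf e t * ((1 - t ^ 2) * (wDeriv e β (v t) (w t) t - W' t) - 3 * t * E t) -
      6 * t * D t with hG
    have hGb : |G - 2 * (β - B) * t ^ 2| ≤ η * t ^ 2 := by
      refine le_of_eq_of_le ?_ (hres t ht).2.2
      rw [← abs_neg]
      congr 1
      simp only [hG, hEdef, hDdef, wDeriv, src]
      field_simp
      ring
    have hG2 : |G| ≤ 2 * η * t ^ 2 := by
      have h1 := abs_le.1 hGb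
      have h2 := mul_le_mul_of_nonneg_right (abs_le.1 hd).1 (sq_nonneg t)
      have h3 := mul_le_mul_of_nonneg_right (abs_le.1 hd).2 (sq_nonneg t)
      exact abs_le.2 ⟨by linarith, by linarith⟩
    have hQG : Q' t = Real.sqrt (1 - t ^ 2) * ((6 * t * D t + G) / yf e t) := by
      simp only [hQ'def, hG, rimW]
      field_simp
      ring
    have h6 : |6 * t * D t| = 6 * t * |D t| := by
      rw [abs_mul, abs_of_nonneg (by have := ht.1; positivity : (0:ℝ) ≤ 6 * t)]
    rw [hQG, abs_mul, abs_of_nonneg (Real.sqrt_nonneg _), abs_div, abs_of_pos hy]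
    gcongr
    exact (abs_add_le _ _).trans (by rw [h6]; linarith)
  -- from the origin, three rounds
  have near : ∀ (K : ℝ) (n : ℕ), 0 ≤ K →
      (∀ t ∈ Icc (0 : ℝ) (1 / 2), 6 * t * |D t| ≤ K * η * t ^ n) → ∀ t ∈ Icc (0 : ℝ) (1 / 2),
      |Q t| ≤ 4 / 3 * η * (K / ((n : ℝ) + 1) * t ^ (n + 1) + 2 / 3 * t ^ 3) := by
    intro K n hK hn
    refine abs_le_of_deriv_le (f' := Q') (M' := fun t => 4 / 3 * η * (K * t ^ n + 2 * t ^ 2))
      (cQ.mono (Icc_subset_Icc_right (by norm_num))) (by fun_prop) Q0 (by simp)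
      (fun t ht => dQ t ⟨ht.1, ht.2.trans (by norm_num)⟩) (fun t _ => ?_) fun t ht => ?_
    · have h1 := ((hasDerivAt_id t).fun_pow (n + 1)).const_mul (K / ((n : ℝ) + 1))
      have h2 := ((hasDerivAt_id t).fun_pow 3).const_mul (2 / 3 : ℝ)
      refine ((h1.add h2).const_mul (4 / 3 * η)).congr_deriv ?_
      simp only [id_eq, Nat.add_sub_cancel]
      push_cast
      field_simp
    · have htI : t ∈ Ioo (0 : ℝ) 1 := ⟨ht.1, ht.2.trans (by norm_num)⟩
      have hy : 3 / 4 ≤ yf e t := by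
        have := (yf_ge he (t := t) (by nlinarith [ht.1, ht.2])).1
        nlinarith [ht.1, ht.2]
      have hsq : Real.sqrt (1 - t ^ 2) ≤ 1 := Real.sqrt_le_one.2 (by nlinarith [sq_nonneg t])
      have hnum : 0 ≤ 6 * t * |D t| + 2 * η * t ^ 2 := by have := ht.1; positivity
      refine (hQ' t htI).trans ?_
      calc _ ≤ 1 * ((6 * t * |D t| + 2 * η * t ^ 2) / (3 / 4)) := by gcongr
        _ ≤ _ := by
          have := hn t (Ioo_subset_Icc_self ht)
          linarith
  have stepE : ∀ (C : ℝ) (m : ℕ), (∀ t ∈ Icc (0 : ℝ) (1 / 2), |Q t| ≤ 9 / 14 * (C * η * t ^ m)) →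
      ∀ t ∈ Icc (0 : ℝ) (1 / 2), |E t| ≤ C * η * t ^ m := by
    intro C m hC t ht
    have hW := rimW_ge_of_le_half ht.1 ht.2
    have h := hC t ht
    simp only [hQdef, abs_mul, abs_of_nonneg (by linarith : (0:ℝ) ≤ rimW t)] at h
    have h2 : 9 / 14 * |E t| ≤ rimW t * |E t| := mul_le_mul_of_nonneg_right hW (abs_nonneg _)
    linarith
  have stepD : ∀ (C : ℝ) (m : ℕ),
      (∀ t ∈ Icc (0 : ℝ) (1 / 2), |E t| ≤ C * η * t ^ (m + 1)) →
      ∀ t ∈ Icc (0 : ℝ) (1 / 2), |D t| ≤ C / ((m : ℝ) + 1) * η * t ^ (m + 1) := by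
    intro C m hC
    refine abs_le_of_deriv_le (f' := fun t => E t / t) (M' := fun t => C * η * t ^ m)
      (cD.mono (Icc_subset_Icc_right (by norm_num))) (by fun_prop) D0 (by simp)
      (fun t ht => dD t ⟨ht.1, ht.2.trans (by norm_num)⟩) (fun t _ => ?_) fun t ht => ?_
    · refine (((hasDerivAt_id t).fun_pow (m + 1)).const_mul
        (C / ((m : ℝ) + 1) * η)).congr_deriv ?_
      simp only [id_eq, Nat.add_sub_cancel]
      push_cast
      field_simp
    · rw [abs_div, abs_of_pos ht.1, div_le_iff₀ ht.1]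
      calc |E t| ≤ C * η * t ^ (m + 1) := hC t (Ioo_subset_Icc_self ht)
        _ = _ := by rw [pow_succ]; ring
  have E2 : ∀ t ∈ Icc (0 : ℝ) (1 / 2), |E t| ≤ 14 / 5 * η * t ^ (1 + 1) :=
    stepE _ _ fun t ht => (near 2 1 (by norm_num) (fun x hx => by
      have := (hD x ⟨hx.1, hx.2.trans (by norm_num)⟩)
      have h6 := mul_le_mul_of_nonneg_left this (by linarith [hx.1] : (0:ℝ) ≤ 6 * x)
      simp only [hDdef]; linarith) t ht).trans (by
      have : η * t ^ 3 ≤ η * (1 / 2 * t ^ 2) := mul_le_mul_of_nonneg_left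
        (by nlinarith [ht.1, ht.2, sq_nonneg t]) hη
      have : 0 ≤ η * t ^ 2 := by positivity
      push_cast
      linarith)
  have D2 := stepD _ _ E2
  have E3 : ∀ t ∈ Icc (0 : ℝ) (1 / 2), |E t| ≤ 9 / 2 * η * t ^ (2 + 1) :=
    stepE _ _ fun t ht => (near (21 / 5) 2 (by norm_num) (fun x hx => by
      have h6 := mul_le_mul_of_nonneg_left (D2 x hx) (by linarith [hx.1] : (0:ℝ) ≤ 6 * x)
      push_cast at h6
      have : η * x ^ 3 ≤ η * (1 / 2 * x ^ 2) := mul_le_mul_of_nonneg_left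
        (by nlinarith [hx.1, hx.2, sq_nonneg x]) hη
      linarith) t ht).trans (by
      have : 0 ≤ η * t ^ 3 := by have := ht.1; positivity
      push_cast
      linarith)
  have D3 := stepD _ _ E3
  have E4 : ∀ t ∈ Icc (0 : ℝ) (1 / 2), |E t| ≤ 3 * η * t ^ (2 + 1) :=
    stepE _ _ fun t ht => (near (9 / 4) 2 (by norm_num) (fun x hx => by
      have h6 := mul_le_mul_of_nonneg_left (D3 x hx) (by linarith [hx.1] : (0:ℝ) ≤ 6 * x)
      push_cast at h6
      have hxx : x ^ 2 ≤ 1 / 4 := by nlinarith [hx.1, hx.2]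
      have : η * x ^ 4 ≤ η * (1 / 4 * x ^ 2) := mul_le_mul_of_nonneg_left
        (by nlinarith [mul_le_mul_of_nonneg_right hxx (sq_nonneg x)]) hη
      linarith) t ht).trans (by
      have : 0 ≤ η * t ^ 3 := by have := ht.1; positivity
      push_cast
      linarith)
  have D4 : ∀ t ∈ Icc (0 : ℝ) (1 / 2), |D t| ≤ η * t ^ 3 := fun t ht => by
    have := stepD _ _ E4 t ht
    push_cast at this
    linarith
  have hee : 0 < 1 - e := by linarith [he.2]
  have aux : ∀ t ∈ Icc (0 : ℝ) 1, t < 1 → (1 - e) * |w t - W t| ≤ 4 / 3 * η := by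
    intro t ht ht1
    have hb := abs_le_of_deriv_le_right (f' := Q')
      (M' := fun t => 4 / 3 * η / (1 - e) * (-3 * t * Real.sqrt (1 - t ^ 2)))
      (M := fun t => 4 / 3 * η / (1 - e) * rimW t)
      cQ (continuous_rimW.continuousOn.const_mul _ : _) Q1 (by simp [rimW]) dQ
      (fun x hx => (hasDerivAt_rimW (one_sub_sq_pos hx.1.le hx.2)).const_mul _) (fun x hx => ?_)
      t ht
    · have hW := rimW_pos (one_sub_sq_pos ht.1 ht1)
      simp only [hQdef, hEdef, abs_mul, abs_of_pos hW] at hb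
      have h2 : |w t - W t| ≤ 4 / 3 * η / (1 - e) :=
        le_of_mul_le_mul_left (by linarith : rimW t * |w t - W t| ≤ rimW t * _) hW
      rw [le_div_iff₀ hee] at h2
      linarith
    · have hyw := (yf_ge he (t := x) (by nlinarith [hx.1, hx.2])).2
      have hDx := hD x (Ioo_subset_Icc_self hx)
      refine (hQ' x hx).trans ?_
      have hnum : 6 * x * |D x| + 2 * η * x ^ 2 ≤ 4 * η * x := by
        have h6 := mul_le_mul_of_nonneg_left hDx (by linarith [hx.1] : (0:ℝ) ≤ 6 * x)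
        have : η * x ^ 2 ≤ η * x := mul_le_mul_of_nonneg_left (by nlinarith [hx.1, hx.2]) hη
        simp only [hDdef]; linarith
      calc _ ≤ Real.sqrt (1 - x ^ 2) * (4 * η * x / (1 - e)) := by
            gcongr
            exact mul_nonneg (by positivity) hx.1.le
        _ = _ := by ring
  refine ⟨hd, fun t ht => ⟨hD t ht, ?_, ?_, ?_⟩, fun t ht => ⟨D4 t ht, E4 t ht⟩⟩
  · rcases le_or_gt t (1 / 2) with h | h
    · have := D4 t ⟨ht.1, h⟩
      have : 0 ≤ η * t ^ 3 := by have := ht.1; positivity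
      simp only [hDdef] at *
      linarith
    · have h3 : (1 / 2 : ℝ) ^ 3 ≤ t ^ 3 := pow_le_pow_left₀ (by norm_num) h.le 3
      have := mul_le_mul_of_nonneg_left h3 hη
      linarith [hD t ht]
  · -- majorant `4 η sqrt (1 - t ^ 2)` from the diameter
    rcases ht.2.eq_or_lt with rfl | ht1
    · simpa using mul_nonneg (by norm_num : (0:ℝ) ≤ 4) hη
    have hb := abs_le_of_deriv_le_right (f' := Q')
      (M' := fun t => 4 * η * (-(2 * t) / (2 * Real.sqrt (1 - t ^ 2))))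
      (M := fun t => 4 * η * Real.sqrt (1 - t ^ 2))
      cQ (by fun_prop) Q1 (by simp) dQ (fun x hx => ?_) (fun x hx => ?_) t ht
    · simp only [hQdef, abs_mul, abs_of_pos (rimW_pos (one_sub_sq_pos ht.1 ht1))] at hb
      have hs0 := Real.sqrt_pos.2 (one_sub_sq_pos ht.1 ht1)
      rw [rimW] at hb
      refine le_of_mul_le_mul_left ?_ hs0
      simp only [hEdef] at hb
      linarith
    · have h1 : HasDerivAt (fun x : ℝ => 1 - x ^ 2) (-(2 * x)) x := by
        simpa using (((hasDerivAt_id x).fun_pow 2).const_sub 1)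
      exact (h1.sqrt (one_sub_sq_pos hx.1.le hx.2).ne').const_mul _
    · have hw := one_sub_sq_pos hx.1.le hx.2
      have hs0 := Real.sqrt_pos.2 hw
      have hyw := (yf_ge he (t := x) (by nlinarith)).1
      have hDx := hD x (Ioo_subset_Icc_self hx)
      refine (hQ' x hx).trans ?_
      have hnum : 6 * x * |D x| + 2 * η * x ^ 2 ≤ 4 * η * x := by
        have h6 := mul_le_mul_of_nonneg_left hDx (by linarith [hx.1] : (0:ℝ) ≤ 6 * x)
        have : η * x ^ 2 ≤ η * x := mul_le_mul_of_nonneg_left (by nlinarith [hx.1, hx.2]) hη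
        simp only [hDdef]; linarith
      calc _ ≤ Real.sqrt (1 - x ^ 2) * (4 * η * x / (1 - x ^ 2)) := by
            gcongr
            exact mul_nonneg (by positivity) hx.1.le
        _ = _ := by
            field_simp
            rw [Real.sq_sqrt hw.le]
  · -- majorant a multiple of `rimW` from the diameter
    rcases ht.2.eq_or_lt with rfl | ht1
    · refine le_of_tendsto
        (f := fun t => (1 - e) * |w t - W t|) (x := 𝓝[<] (1 : ℝ)) ?_ ?_
      · have hc := (hs.cont_w 1 ⟨zero_le_one, le_rfl⟩).sub (cW 1 ⟨zero_le_one, le_rfl⟩)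
        exact ((hc.abs).const_smul (1 - e)).tendsto.mono_left
          (nhdsWithin_le_iff.2 (mem_of_superset (Ioo_mem_nhdsLT zero_lt_one) Ioo_subset_Icc_self))
      · filter_upwards [Ioo_mem_nhdsLT zero_lt_one] with x hx
        exact aux x (Ioo_subset_Icc_self hx) hx.2
    · exact aux t ht ht1

end Vale.Agent.P219.CH.Relax.Four
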