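import Vale.Agent.P219.Relax.Four.OdeBasic

/-!
# P219, dimension four: comparison in the cooperative system
-/

noncomputable section

open Set Filter Topology MeasureTheory

namespace Vale.Agent.P219.CH.Relax.Four.Ode

variable {R σ : ℝ}

/-- A pair which increases at least as the homogeneous system and starts nonnegative stays
nonnegative. -/
theorem nonneg_of_super (hR : 0 < R) {σ₀ : ℝ} (hσ₀ : 0 ≤ σ₀) (hσ : σ₀ ≤ σ) (hσL : σ < 2 * R)
    {V P V' P' : ℝ → ℝ} (cV : ContinuousOn V (Icc σ₀ σ)) (cP : ContinuousOn P (Icc σ₀ σ))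
    (hV0 : 0 ≤ V σ₀) (hP0 : 0 ≤ P σ₀)
    (dV : ∀ r ∈ Ioo σ₀ σ, HasDerivAt V (V' r) r) (dP : ∀ r ∈ Ioo σ₀ σ, HasDerivAt P (P' r) r)
    (hV : ∀ r ∈ Ioo σ₀ σ, av R r * P r ≤ V' r) (hP : ∀ r ∈ Ioo σ₀ σ, kv R r * V r ≤ P' r) :
    ∀ r ∈ Icc σ₀ σ, 0 ≤ V r ∧ 0 ≤ P r := by
  set C := 3 / Real.tanh R ^ 2 with hC
  have hC0 : 0 ≤ C := by positivity
  have hσ0 : 0 ≤ σ := hσ₀.trans hσ
  have hw := ww_pos hR hσ0 hσL
  set lam := C / (ww R σ * sw R σ) with hlam
  have hlam0 : 0 ≤ lam := div_nonneg hC0 (mul_nonneg hw.le (Real.sqrt_nonneg _))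
  have hswle : ∀ r ∈ Icc 0 σ, sw R σ ≤ sw R r ∧ ww R σ ≤ ww R r ∧ sw R r ≤ 1 := by
    intro r hr
    have hm : ∀ {a b : ℝ}, 0 ≤ a → a ≤ b → ww R b ≤ ww R a := fun {a b} ha hab => by
      have h1 : tt R a ≤ tt R b :=
        div_le_div_of_nonneg_right (tanh_strictMono.monotone (by linarith)) (tanh_pos hR).le
      have h0 := tt_nonneg hR ha
      rw [ww, ww]; nlinarith
    refine ⟨Real.sqrt_le_sqrt (hm hr.1 hr.2), hm hr.1 hr.2, ?_⟩
    rw [sw, Real.sqrt_le_one]
    simpa [ww_zero] using hm le_rfl hr.1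
  have kle : ∀ r ∈ Icc 0 σ, kv R r ≤ C := by
    intro r hr
    have h1 := (Real.tanh_lt_one (r / 2)).le
    have h2 := tanh_nonneg (show 0 ≤ r / 2 by linarith [hr.1])
    have h4 := (hswle r hr).2.2
    have h5 : (0:ℝ) ≤ sw R r := Real.sqrt_nonneg _
    calc kv R r = C * (Real.tanh (r / 2) * sw R r) := rfl
      _ ≤ C * 1 := by gcongr; exact mul_le_one₀ h1 h5 h4
      _ = C := mul_one _
  have ale : ∀ r ∈ Ioc 0 σ, av R r * r ≤ 1 / (ww R σ * sw R σ) := by
    intro r hr
    obtain ⟨h1, h2, -⟩ := hswle r ⟨hr.1.le, hr.2⟩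
    have hs : r ≤ Real.sinh r := Real.self_le_sinh_iff.2 hr.1.le
    have hp : 0 < ww R σ * sw R σ := mul_pos hw (sw_pos hR hσ0 hσL)
    have h3 : ww R σ * sw R σ ≤ ww R r * sw R r :=
      mul_le_mul h2 h1 (Real.sqrt_nonneg _) (hw.le.trans h2)
    rw [av, div_mul_eq_mul_div, one_mul, div_le_div_iff₀
      (mul_pos (hr.1.trans_le hs) (hp.trans_le h3)) hp, one_mul]
    exact mul_le_mul hs h3 hp.le (hr.1.trans_le hs).le
  have key : ∀ ε > 0, ∀ r ∈ Icc σ₀ σ,
      0 < V r + ε * Real.exp (lam * r) ∧ 0 ≤ P r + C * ε * r * Real.exp (lam * r) := by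
    intro ε hε
    set EV := fun r => V r + ε * Real.exp (lam * r) with hEV
    set EP := fun r => P r + C * ε * r * Real.exp (lam * r) with hEP
    have cEV : ContinuousOn EV (Icc σ₀ σ) := cV.add (by fun_prop)
    have cEP : ContinuousOn EP (Icc σ₀ σ) := cP.add (by fun_prop)
    have hEP0 : 0 ≤ EP σ₀ := add_nonneg hP0 (by positivity)
    have step : ∀ r1 ∈ Icc σ₀ σ, (∀ r ∈ Ioo σ₀ r1, 0 < EV r) →
        (0 < EV r1) ∧ 0 ≤ EP r1 := by
      intro r1 hr1 hpos
      have hsub : Icc σ₀ r1 ⊆ Icc σ₀ σ := Icc_subset_Icc_right hr1.2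
      have hmP : MonotoneOn EP (Icc σ₀ r1) := by
        refine monotoneOn_of_hasDerivWithinAt_nonneg (convex_Icc _ _) (cEP.mono hsub)
          (f' := fun r => P' r + C * ε * (Real.exp (lam * r) + r * (Real.exp (lam * r) * lam)))
          ?_ ?_
        all_goals rw [interior_Icc]
        · intro r hr
          have he : HasDerivAt (fun r => Real.exp (lam * r)) (Real.exp (lam * r) * lam) r := by
            simpa using ((hasDerivAt_id r).const_mul lam).exp
          have h2 := (((hasDerivAt_id r).mul he).const_mul (C * ε))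
          refine HasDerivAt.hasDerivWithinAt ?_
          refine ((dP r ⟨hr.1, hr.2.trans_le hr1.2⟩).add h2).congr_deriv (by simp)
            |>.congr_of_eventuallyEq ?_
          filter_upwards with z
          simp [hEP]; ring
        · intro r hr
          have hrs : r ∈ Ioo σ₀ σ := ⟨hr.1, hr.2.trans_le hr1.2⟩
          have hr0 : 0 ≤ r := hσ₀.trans hr.1.le
          have hk0 := kv_nonneg (R := R) hr0
          have hk := kle r ⟨hr0, hrs.2.le⟩
          have h1 := hP r hrs
          have h2 : 0 ≤ kv R r * EV r := mul_nonneg hk0 (hpos r hr).le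
          have he := (Real.exp_pos (lam * r)).le
          have h3 : kv R r * (ε * Real.exp (lam * r)) ≤ C * (ε * Real.exp (lam * r)) :=
            mul_le_mul_of_nonneg_right hk (by positivity)
          have h4 : 0 ≤ C * ε * (r * (Real.exp (lam * r) * lam)) := by positivity
          simp only [hEV] at h2
          linarith
      have hEPn : ∀ r ∈ Icc σ₀ r1, 0 ≤ EP r := fun r hr =>
        hEP0.trans (hmP ⟨le_rfl, hr.1.trans hr.2⟩ hr hr.1)
      have hmV : MonotoneOn EV (Icc σ₀ r1) := by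
        refine monotoneOn_of_hasDerivWithinAt_nonneg (convex_Icc _ _) (cEV.mono hsub)
          (f' := fun r => V' r + ε * (Real.exp (lam * r) * lam)) ?_ ?_
        all_goals rw [interior_Icc]
        · intro r hr
          have he : HasDerivAt (fun r => Real.exp (lam * r)) (Real.exp (lam * r) * lam) r := by
            simpa using ((hasDerivAt_id r).const_mul lam).exp
          exact (((dV r ⟨hr.1, hr.2.trans_le hr1.2⟩).add (he.const_mul ε))).hasDerivWithinAt
        · intro r hr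
          have hrs : r ∈ Ioo σ₀ σ := ⟨hr.1, hr.2.trans_le hr1.2⟩
          have hr0 : 0 < r := hσ₀.trans_lt hr.1
          have ha0 := av_nonneg hR hr0 (hrs.2.trans hσL)
          have ha := ale r ⟨hr0, hrs.2.le⟩
          have h1 := hV r hrs
          have h2 : 0 ≤ av R r * EP r := mul_nonneg ha0 (hEPn r (Ioo_subset_Icc_self hr))
          have h3 : C * ε * Real.exp (lam * r) * (av R r * r) ≤
              C * ε * Real.exp (lam * r) * (1 / (ww R σ * sw R σ)) :=
            mul_le_mul_of_nonneg_left ha (by positivity)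
          have h4 : C * ε * Real.exp (lam * r) * (1 / (ww R σ * sw R σ)) =
              ε * (Real.exp (lam * r) * lam) := by rw [hlam]; ring
          simp only [hEP] at h2
          linarith
      refine ⟨?_, hEPn r1 ⟨hr1.1, le_rfl⟩⟩
      have h0 : 0 < EV σ₀ := add_pos_of_nonneg_of_pos hV0 (mul_pos hε (Real.exp_pos _))
      exact h0.trans_le (hmV ⟨le_rfl, hr1.1⟩ ⟨hr1.1, le_rfl⟩ hr1.1)
    have all_pos : ∀ r ∈ Icc σ₀ σ, 0 < EV r := by
      by_contra hne
      push Not at hne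
      obtain ⟨r2, hr2, hr2'⟩ := hne
      have hcl : IsClosed (Icc σ₀ σ ∩ EV ⁻¹' Iic 0) :=
        cEV.preimage_isClosed_of_isClosed isClosed_Icc isClosed_Iic
      have hcpt : IsCompact (Icc σ₀ σ ∩ EV ⁻¹' Iic 0) :=
        isCompact_Icc.of_isClosed_subset hcl inter_subset_left
      obtain ⟨r1, hr1, hmin⟩ := hcpt.exists_isLeast ⟨r2, hr2, hr2'⟩
      have hp : ∀ r ∈ Ioo σ₀ r1, 0 < EV r := fun r hr => by
        by_contra hle
        exact absurd (hmin ⟨⟨hr.1.le, hr.2.le.trans hr1.1.2⟩, not_lt.1 hle⟩) (not_le.2 hr.2)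
      exact absurd (step r1 hr1.1 hp).1 (not_lt.2 hr1.2)
    intro r hr
    exact ⟨all_pos r hr,
      (step r hr fun x hx => all_pos x ⟨hx.1.le, hx.2.le.trans hr.2⟩).2⟩
  intro r hr
  constructor
  · refine le_of_forall_pos_le_add fun δ hδ => ?_
    have h := (key (δ / Real.exp (lam * r)) (by positivity) r hr).1
    rw [div_mul_cancel₀ _ (Real.exp_pos _).ne'] at h
    exact h.le
  · refine le_of_forall_pos_le_add fun δ hδ => ?_
    set Q := C * r * Real.exp (lam * r) + 1 with hQ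
    have hr0 : 0 ≤ r := hσ₀.trans hr.1
    have hQ0 : 0 < Q := by rw [hQ]; positivity
    have h := (key (δ / Q) (by positivity) r hr).2
    have : C * (δ / Q) * r * Real.exp (lam * r) ≤ δ := by
      have : C * (δ / Q) * r * Real.exp (lam * r) = δ * ((Q - 1) / Q) := by rw [hQ]; ring
      rw [this]
      have : (Q - 1) / Q ≤ 1 := by rw [div_le_one hQ0]; linarith
      nlinarith
    linarith

end Vale.Agent.P219.CH.Relax.Four.Ode
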