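import Vale.Agent.P219.Relax.Four.OdeBasic

/-!
# P219, dimension four: the Volterra operator of the radial system

The unknown is `f = P / sinh`; it stays bounded at both ends for every forcing.
-/

noncomputable section

open Set Filter Topology MeasureTheory intervalIntegral

namespace Vale.Agent.P219.CH.Relax.Four.Ode

/-- `V` recovered from `f = P / sinh`. -/
def vI (R : ℝ) (f : ℝ → ℝ) (σ : ℝ) : ℝ := ∫ q in (0:ℝ)..σ, f q / (ww R q * sw R q)

/-- `P'` divided by `tanh (σ / 2)`. -/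
def hI (R : ℝ) (h f : ℝ → ℝ) (σ : ℝ) : ℝ :=
  h σ + 3 / Real.tanh R ^ 2 * (sw R σ * vI R f σ)

/-- `P` recovered from `f`. -/
def pI (R : ℝ) (h f : ℝ → ℝ) (r : ℝ) : ℝ :=
  ∫ σ in (0:ℝ)..r, Real.tanh (σ / 2) * hI R h f σ

/-- The operator. -/
def phiI (R : ℝ) (h f : ℝ → ℝ) (r : ℝ) : ℝ := pI R h f r / Real.sinh r

/-- The constant in the bound of `sw * vI`. -/
def mbd (R : ℝ) : ℝ :=
  2 * Real.sqrt (1 / Real.tanh R) /
    ((1 - Real.tanh R ^ 2) / (2 * Real.tanh R) *
      Real.sqrt ((1 - Real.tanh R ^ 2) / (2 * Real.tanh R)))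

variable {R : ℝ}

theorem cbd_pos (hR : 0 < R) : 0 < (1 - Real.tanh R ^ 2) / (2 * Real.tanh R) := by
  have := tanh_pos hR
  have := Real.tanh_sq_lt_one R
  exact div_pos (by linarith) (by linarith)

theorem mbd_nonneg (hR : 0 < R) : 0 ≤ mbd R := by
  have := cbd_pos hR
  have := tanh_pos hR
  rw [mbd]; positivity

/-- The singular weight against its linear bound. -/
theorem inv_ww_sw_le (hR : 0 < R) {q : ℝ} (hq : 0 ≤ q) (hq' : q < 2 * R) :
    1 / (ww R q * sw R q) ≤
      1 / ((1 - Real.tanh R ^ 2) / (2 * Real.tanh R) *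
        Real.sqrt ((1 - Real.tanh R ^ 2) / (2 * Real.tanh R)) *
        ((2 * R - q) * Real.sqrt (2 * R - q))) := by
  set c := (1 - Real.tanh R ^ 2) / (2 * Real.tanh R) with hc
  have hc0 : 0 < c := cbd_pos hR
  have hd : 0 < 2 * R - q := by linarith
  have hw : c * (2 * R - q) ≤ ww R q := ww_ge_linear hR hq hq'.le
  have hp : 0 < c * Real.sqrt c * ((2 * R - q) * Real.sqrt (2 * R - q)) := by positivity
  refine one_div_le_one_div_of_le hp ?_
  have hs : Real.sqrt c * Real.sqrt (2 * R - q) ≤ sw R q := by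
    rw [← Real.sqrt_mul hc0.le]; exact Real.sqrt_le_sqrt hw
  calc _ = (c * (2 * R - q)) * (Real.sqrt c * Real.sqrt (2 * R - q)) := by ring
    _ ≤ _ := mul_le_mul hw hs (by positivity) (le_trans (by positivity) hw)

variable {f g h : ℝ → ℝ}

theorem continuousOn_vint (hR : 0 < R) (hf : Continuous f) :
    ContinuousOn (fun q => f q / (ww R q * sw R q)) (Ico 0 (2 * R)) :=
  hf.continuousOn.div (by fun_prop) fun q hq =>
    (mul_pos (ww_pos hR hq.1 hq.2) (sw_pos hR hq.1 hq.2)).ne'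

theorem intervalIntegrable_vint (hR : 0 < R) (hf : Continuous f) {σ : ℝ} (h0 : 0 ≤ σ)
    (hσ : σ < 2 * R) :
    IntervalIntegrable (fun q => f q / (ww R q * sw R q)) volume 0 σ :=
  ((continuousOn_vint hR hf).mono (Icc_subset_Ico_right hσ)).intervalIntegrable_of_Icc h0

theorem continuousOn_vI (hR : 0 < R) (hf : Continuous f) :
    ContinuousOn (vI R f) (Ico 0 (2 * R)) := by
  intro x hx
  set m := (x + 2 * R) / 2 with hm
  have hm0 : 0 ≤ m := by linarith [hx.1]
  have hmL : m < 2 * R := by linarith [hx.2]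
  have h1 := continuousOn_primitive_interval' (intervalIntegrable_vint hR hf hm0 hmL)
    (left_mem_uIcc (a := (0:ℝ)) (b := m))
  rw [uIcc_of_le hm0] at h1
  have h2 : ContinuousWithinAt (vI R f) (Icc 0 m) x := h1 x ⟨hx.1, by linarith [hx.2]⟩
  refine h2.mono_of_mem_nhdsWithin ?_
  refine mem_nhdsWithin.2 ⟨Iio m, isOpen_Iio, by simp only [mem_Iio]; linarith [hx.2], ?_⟩
  exact fun z hz => ⟨hz.2.1, le_of_lt hz.1⟩

theorem hasDerivAt_vI (hR : 0 < R) (hf : Continuous f) {σ : ℝ} (hσ : σ ∈ Ioo 0 (2 * R)) :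
    HasDerivAt (vI R f) (f σ / (ww R σ * sw R σ)) σ := by
  have hc := (continuousOn_vint hR hf).mono Ioo_subset_Ico_self
  exact integral_hasDerivAt_right (intervalIntegrable_vint hR hf hσ.1.le hσ.2)
    (hc.stronglyMeasurableAtFilter isOpen_Ioo σ hσ) (hc.continuousAt (isOpen_Ioo.mem_nhds hσ))

/-- `sw * vI` is bounded by the supremum of the unknown. -/
theorem abs_sw_vI_le (hR : 0 < R) {σ B : ℝ} (h0 : 0 ≤ σ) (hσ : σ < 2 * R)
    (hB : ∀ q ∈ Icc 0 σ, |f q| ≤ B) : |sw R σ * vI R f σ| ≤ mbd R * B := by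
  have hB0 : 0 ≤ B := (abs_nonneg _).trans (hB 0 ⟨le_rfl, h0⟩)
  set c := (1 - Real.tanh R ^ 2) / (2 * Real.tanh R) with hc
  have hc0 : 0 < c := cbd_pos hR
  set K := B / (c * Real.sqrt c) with hK
  have hK0 : 0 ≤ K := by positivity
  set g := fun q => K / ((2 * R - q) * Real.sqrt (2 * R - q)) with hg
  set G := fun q => 2 * K / Real.sqrt (2 * R - q) with hG
  have hpos : ∀ q ∈ Icc 0 σ, 0 < 2 * R - q := fun q hq => by linarith [hq.2]
  have hgc : ContinuousOn g (Icc 0 σ) := by
    refine continuousOn_const.div (by fun_prop) fun q hq => ?_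
    have := hpos q hq
    positivity
  have hgi : IntervalIntegrable g volume 0 σ := hgc.intervalIntegrable_of_Icc h0
  have hd : ∀ q ∈ uIcc 0 σ, HasDerivAt G (g q) q := by
    rw [uIcc_of_le h0]
    intro q hq
    have hp := hpos q hq
    have hs := Real.sqrt_pos.2 hp
    have h1 := ((hasDerivAt_id q).const_sub (2 * R)).sqrt hp.ne'
    refine ((hasDerivAt_const q (2 * K)).fun_div h1 hs.ne').congr_deriv ?_
    simp only [hg, id_eq]
    field_simp
    rw [Real.sq_sqrt hp.le]
    ring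
  have hint : |vI R f σ| ≤ ∫ q in (0:ℝ)..σ, g q := by
    rw [← Real.norm_eq_abs]
    refine intervalIntegral.norm_integral_le_of_norm_le h0 (ae_of_all _ fun q hq => ?_) hgi
    have hq2 : q < 2 * R := by linarith [hq.2]
    have hw : 0 < ww R q * sw R q :=
      mul_pos (ww_pos hR hq.1.le hq2) (sw_pos hR hq.1.le hq2)
    rw [Real.norm_eq_abs, abs_div, abs_of_pos hw, div_eq_mul_one_div]
    refine (mul_le_mul (hB q ⟨hq.1.le, hq.2⟩) (inv_ww_sw_le hR hq.1.le hq2)
      (by positivity) hB0).trans (le_of_eq ?_)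
    rw [mul_one_div, ← hc, ← div_div]
  rw [integral_eq_sub_of_hasDerivAt hd hgi] at hint
  have hle : |vI R f σ| ≤ G σ := by
    have : 0 ≤ G 0 := by simp only [hG]; positivity
    linarith
  have hsw : sw R σ ≤ Real.sqrt (1 / Real.tanh R) * Real.sqrt (2 * R - σ) := by
    rw [← Real.sqrt_mul (by have := tanh_pos hR; positivity)]
    exact Real.sqrt_le_sqrt (ww_le_linear hR h0 hσ.le)
  rw [abs_mul, abs_of_nonneg (show 0 ≤ sw R σ from Real.sqrt_nonneg _)]
  refine (mul_le_mul hsw hle (abs_nonneg _) (by positivity)).trans (le_of_eq ?_)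
  have := Real.sqrt_pos.2 (hpos σ ⟨h0, le_rfl⟩)
  simp only [hG, hK, mbd, ← hc]
  field_simp

theorem continuousOn_hI (hR : 0 < R) (hh : Continuous h) (hf : Continuous f) :
    ContinuousOn (hI R h f) (Ico 0 (2 * R)) :=
  hh.continuousOn.add (continuousOn_const.mul
    ((continuous_sw.continuousOn).mul (continuousOn_vI hR hf)))

theorem exists_hI_bound (hR : 0 < R) (hh : Continuous h) (hf : Continuous f) :
    ∃ B, 0 ≤ B ∧ ∀ σ ∈ Icc 0 (2 * R), |hI R h f σ| ≤ B := by
  obtain ⟨B1, hB1⟩ := isCompact_Icc.exists_bound_of_continuousOn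
    (hh.continuousOn (s := Icc 0 (2 * R)))
  obtain ⟨B2, hB2⟩ := isCompact_Icc.exists_bound_of_continuousOn
    (hf.continuousOn (s := Icc 0 (2 * R)))
  have h00 : (0:ℝ) ∈ Icc 0 (2 * R) := ⟨le_rfl, by linarith⟩
  have hB10 : 0 ≤ B1 := (norm_nonneg _).trans (hB1 0 h00)
  have hB20 : 0 ≤ B2 := (norm_nonneg _).trans (hB2 0 h00)
  have hT := tanh_pos hR
  have hm := mbd_nonneg hR
  refine ⟨B1 + 3 / Real.tanh R ^ 2 * (mbd R * B2), by positivity, fun σ hσ => ?_⟩
  have key : |sw R σ * vI R f σ| ≤ mbd R * B2 := by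
    rcases hσ.2.eq_or_lt with he | hlt
    · rw [he, sw_end hR, zero_mul, abs_zero]; positivity
    · exact abs_sw_vI_le hR hσ.1 hlt fun q hq =>
        hB2 q ⟨hq.1, hq.2.trans hσ.2⟩
  refine (abs_add_le _ _).trans (add_le_add (hB1 σ hσ) ?_)
  rw [abs_mul, abs_of_nonneg (by positivity : (0:ℝ) ≤ 3 / Real.tanh R ^ 2)]
  exact mul_le_mul_of_nonneg_left key (by positivity)

theorem integrableOn_pint (hR : 0 < R) (hh : Continuous h) (hf : Continuous f) :
    IntegrableOn (fun σ => Real.tanh (σ / 2) * hI R h f σ) (Icc 0 (2 * R)) := by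
  rw [integrableOn_Icc_iff_integrableOn_Ico]
  obtain ⟨B, hB0, hB⟩ := exists_hI_bound hR hh hf
  have hc : ContinuousOn (fun σ => Real.tanh (σ / 2) * hI R h f σ) (Ico 0 (2 * R)) :=
    ((continuous_tanh.comp (continuous_id.div_const 2)).continuousOn).mul
      (continuousOn_hI hR hh hf)
  refine IntegrableOn.of_bound measure_Ico_lt_top (hc.aestronglyMeasurable measurableSet_Ico) B ?_
  filter_upwards [ae_restrict_mem measurableSet_Ico] with σ hσ
  rw [Real.norm_eq_abs, abs_mul]
  calc _ ≤ 1 * B := mul_le_mul (Real.abs_tanh_lt_one _).le (hB σ (Ico_subset_Icc_self hσ))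
        (abs_nonneg _) zero_le_one
    _ = B := one_mul B

theorem intervalIntegrable_pint (hR : 0 < R) (hh : Continuous h) (hf : Continuous f) {r : ℝ}
    (hr : r ∈ Icc 0 (2 * R)) :
    IntervalIntegrable (fun σ => Real.tanh (σ / 2) * hI R h f σ) volume 0 r :=
  (intervalIntegrable_iff_integrableOn_Icc_of_le hr.1).2
    ((integrableOn_pint hR hh hf).mono_set (Icc_subset_Icc_right hr.2))

theorem continuousOn_pI (hR : 0 < R) (hh : Continuous h) (hf : Continuous f) :
    ContinuousOn (pI R h f) (Icc 0 (2 * R)) := by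
  have h := continuousOn_primitive_interval
    (a := 0) (b := 2 * R) (f := fun σ => Real.tanh (σ / 2) * hI R h f σ) (μ := volume)
    (by rw [uIcc_of_le (by linarith)]; exact integrableOn_pint hR hh hf)
  rwa [uIcc_of_le (by linarith)] at h

theorem hasDerivAt_pI (hR : 0 < R) (hh : Continuous h) (hf : Continuous f) {r : ℝ}
    (hr : r ∈ Ioo 0 (2 * R)) :
    HasDerivAt (pI R h f) (Real.tanh (r / 2) * hI R h f r) r := by
  have hc : ContinuousOn (fun σ => Real.tanh (σ / 2) * hI R h f σ) (Ioo 0 (2 * R)) :=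
    ((continuous_tanh.comp (continuous_id.div_const 2)).continuousOn).mul
      ((continuousOn_hI hR hh hf).mono Ioo_subset_Ico_self)
  exact integral_hasDerivAt_right (intervalIntegrable_pint hR hh hf (Ioo_subset_Icc_self hr))
    (hc.stronglyMeasurableAtFilter isOpen_Ioo r hr) (hc.continuousAt (isOpen_Ioo.mem_nhds hr))

theorem tanh_half_div_sinh_le (r : ℝ) (hr : 0 ≤ r) :
    Real.tanh (r / 2) / Real.sinh r ≤ 1 / 2 := by
  rcases hr.eq_or_lt with rfl | hr
  · simp
  · have hs := Real.sinh_pos_iff.2 hr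
    rw [div_le_iff₀ hs]
    have := sinh_eq_tanh_half r
    nlinarith [Real.one_le_cosh r, tanh_nonneg (show 0 ≤ r / 2 by linarith)]

/-- A bound of the primitive by a weighted integral. -/
theorem abs_prim_le {F G : ℝ → ℝ} {r : ℝ} (hr : 0 ≤ r) (hG : IntervalIntegrable G volume 0 r)
    (hFG : ∀ σ ∈ Ioc 0 r, |F σ| ≤ G σ) :
    |(∫ σ in (0:ℝ)..r, Real.tanh (σ / 2) * F σ) / Real.sinh r| ≤
      1 / 2 * ∫ σ in (0:ℝ)..r, G σ := by
  rcases hr.eq_or_lt with rfl | hrp
  · simp
  have hτr := tanh_nonneg (show 0 ≤ r / 2 by linarith)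
  have h1 : |∫ σ in (0:ℝ)..r, Real.tanh (σ / 2) * F σ| ≤
      Real.tanh (r / 2) * ∫ σ in (0:ℝ)..r, G σ := by
    rw [← intervalIntegral.integral_const_mul, ← Real.norm_eq_abs]
    refine intervalIntegral.norm_integral_le_of_norm_le hr (ae_of_all _ fun σ hσ => ?_)
      (hG.const_mul _)
    have h0 := tanh_nonneg (show 0 ≤ σ / 2 by linarith [hσ.1])
    rw [Real.norm_eq_abs, abs_mul, abs_of_nonneg h0]
    exact mul_le_mul (tanh_strictMono.monotone (by linarith [hσ.2])) (hFG σ hσ) (abs_nonneg _) hτr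
  have hs := Real.sinh_pos_iff.2 hrp
  have hI0 : 0 ≤ ∫ σ in (0:ℝ)..r, G σ :=
    intervalIntegral.integral_nonneg_of_ae_restrict hr (by
      filter_upwards [ae_restrict_mem measurableSet_Icc,
        Measure.ae_ne (volume.restrict (Icc 0 r)) 0] with σ hσ hne
      exact (abs_nonneg _).trans (hFG σ ⟨lt_of_le_of_ne hσ.1 (Ne.symm hne), hσ.2⟩))
  rw [abs_div, abs_of_pos hs]
  refine (div_le_div_of_nonneg_right h1 hs.le).trans ?_
  rw [mul_div_right_comm]
  exact mul_le_mul_of_nonneg_right (tanh_half_div_sinh_le r hr) hI0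

theorem continuousOn_phiI (hR : 0 < R) (hh : Continuous h) (hf : Continuous f) :
    ContinuousOn (phiI R h f) (Icc 0 (2 * R)) := by
  obtain ⟨B, hB0, hB⟩ := exists_hI_bound hR hh hf
  intro x hx
  rcases hx.1.eq_or_lt with rfl | hx0
  · have hb : ∀ r ∈ Icc 0 (2 * R), ‖phiI R h f r‖ ≤ B / 2 * r := fun r hr => by
      have h1 := abs_prim_le (F := hI R h f) (G := fun _ => B) hr.1 intervalIntegrable_const
        fun σ hσ => hB σ ⟨hσ.1.le, hσ.2.trans hr.2⟩
      rw [intervalIntegral.integral_const, smul_eq_mul, sub_zero] at h1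
      exact h1.trans (le_of_eq (by ring))
    have h0 : phiI R h f 0 = 0 := by simp [phiI, pI]
    rw [ContinuousWithinAt, h0]
    have hlim : Tendsto (fun r : ℝ => B / 2 * r) (𝓝[Icc 0 (2 * R)] 0) (𝓝 0) :=
      tendsto_nhdsWithin_of_tendsto_nhds
        (by simpa using (continuous_const_mul (B / 2)).tendsto (0:ℝ))
    exact squeeze_zero_norm'
      (eventually_nhdsWithin_of_forall hb) hlim
  · exact ((continuousOn_pI hR hh hf) x hx).div Real.continuous_sinh.continuousWithinAt
      (Real.sinh_pos_iff.2 hx0).ne'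

/-- The operator contracts in an exponentially weighted norm. -/
theorem abs_phiI_sub_le (hR : 0 < R) (hh : Continuous h) (hf : Continuous f) (hg : Continuous g)
    {lam A : ℝ} (hlam : 0 < lam) (hA : ∀ q ∈ Icc 0 (2 * R), |f q - g q| ≤ A * Real.exp (lam * q))
    {r : ℝ} (hr : r ∈ Icc 0 (2 * R)) :
    |phiI R h f r - phiI R h g r| ≤
      3 / Real.tanh R ^ 2 * mbd R / (2 * lam) * (A * Real.exp (lam * r)) := by
  have hA0 : 0 ≤ A := by
    have h := (abs_nonneg _).trans (hA 0 ⟨le_rfl, by linarith⟩)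
    simpa using h
  set C := 3 / Real.tanh R ^ 2 * mbd R with hC
  have hC0 : 0 ≤ C := mul_nonneg (by positivity) (mbd_nonneg hR)
  set G := fun σ => C * A * Real.exp (lam * σ) with hG
  have hsub : phiI R h f r - phiI R h g r =
      (∫ σ in (0:ℝ)..r, Real.tanh (σ / 2) * (hI R h f σ - hI R h g σ)) / Real.sinh r := by
    rw [phiI, phiI, pI, pI, ← sub_div,
      ← intervalIntegral.integral_sub (intervalIntegrable_pint hR hh hf hr)
        (intervalIntegrable_pint hR hh hg hr)]
    simp [mul_sub]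
  have hdiff : ∀ σ ∈ Ioc 0 r, |hI R h f σ - hI R h g σ| ≤ G σ := by
    intro σ hσ
    rcases (hσ.2.trans hr.2).eq_or_lt with he | hlt
    · have : (0:ℝ) ≤ G σ := by simp only [hG]; positivity
      simpa [hI, he, sw_end hR] using this
    · have hv : vI R f σ - vI R g σ = vI R (fun q => f q - g q) σ := by
        rw [vI, vI, vI, ← intervalIntegral.integral_sub
          (intervalIntegrable_vint hR hf hσ.1.le hlt) (intervalIntegrable_vint hR hg hσ.1.le hlt)]
        simp [sub_div]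
      have hb : |sw R σ * vI R (fun q => f q - g q) σ| ≤ mbd R * (A * Real.exp (lam * σ)) :=
        abs_sw_vI_le hR hσ.1.le hlt fun q hq =>
          (hA q ⟨hq.1, hq.2.trans hlt.le⟩).trans <| mul_le_mul_of_nonneg_left
            (Real.exp_le_exp.2 (by nlinarith [hq.2])) hA0
      have he : hI R h f σ - hI R h g σ =
          3 / Real.tanh R ^ 2 * (sw R σ * vI R (fun q => f q - g q) σ) := by
        rw [← hv, hI, hI]; ring
      rw [he, abs_mul, abs_of_nonneg (by positivity : (0:ℝ) ≤ 3 / Real.tanh R ^ 2)]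
      refine (mul_le_mul_of_nonneg_left hb (by positivity)).trans (le_of_eq ?_)
      simp only [hG, hC]; ring
  have hGi : IntervalIntegrable G volume 0 r := (by fun_prop : Continuous G).intervalIntegrable _ _
  rw [hsub]
  refine (abs_prim_le hr.1 hGi hdiff).trans ?_
  have hint : ∫ σ in (0:ℝ)..r, G σ = C * A * (Real.exp (lam * r) - 1) / lam := by
    have hd : ∀ σ ∈ uIcc 0 r, HasDerivAt (fun σ => C * A * Real.exp (lam * σ) / lam) (G σ) σ := by
      intro σ _
      have he : HasDerivAt (fun r => Real.exp (lam * r)) (Real.exp (lam * σ) * lam) σ := by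
        simpa using ((hasDerivAt_id σ).const_mul lam).exp
      exact ((he.const_mul (C * A)).div_const lam).congr_deriv (by simp only [hG]; field_simp)
    rw [integral_eq_sub_of_hasDerivAt hd hGi]
    simp; ring
  rw [hint]
  have : 0 ≤ C * A / lam := by positivity
  have e : 1 / 2 * (C * A * (Real.exp (lam * r) - 1) / lam) =
      C / (2 * lam) * (A * Real.exp (lam * r)) - C * A / lam / 2 := by ring
  linarith

/-- The integral equation has a continuous solution. -/
theorem exists_fixed (hR : 0 < R) (hh : Continuous h) :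
    ∃ f, Continuous f ∧ ∀ r ∈ Icc 0 (2 * R), f r = phiI R h f r := by
  set L := 2 * R with hL
  have hL0 : 0 ≤ L := by linarith
  set C := 3 / Real.tanh R ^ 2 * mbd R with hC
  have hC0 : 0 ≤ C := mul_nonneg (by positivity) (mbd_nonneg hR)
  set lam := C + 1 with hlam
  have hlam0 : 0 < lam := by linarith
  let ext : C(Icc 0 L, ℝ) → ℝ → ℝ := fun φ q => Real.exp (lam * q) * Set.IccExtend hL0 φ q
  have hext : ∀ φ, Continuous (ext φ) := fun φ =>
    (by fun_prop : Continuous fun q => Real.exp (lam * q)).mul φ.continuous.Icc_extend'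
  let Φ : C(Icc 0 L, ℝ) → C(Icc 0 L, ℝ) := fun φ =>
    ⟨fun x => Real.exp (-(lam * (x : ℝ))) * phiI R h (ext φ) x,
      (by fun_prop : Continuous fun x : Icc 0 L => Real.exp (-(lam * (x : ℝ)))).mul
        (continuousOn_iff_continuous_domRestrict.1 (continuousOn_phiI hR hh (hext φ)))⟩
  have hcontr : ContractingWith (1 / 2) Φ := by
    refine ⟨by norm_num, LipschitzWith.of_dist_le_mul fun φ ψ => ?_⟩
    rw [ContinuousMap.dist_le (by positivity)]
    intro x
    have hA : ∀ q ∈ Icc 0 L, |ext φ q - ext ψ q| ≤ dist φ ψ * Real.exp (lam * q) := by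
      intro q hq
      simp only [ext, IccExtend_of_mem hL0 _ hq, ← mul_sub, abs_mul,
        abs_of_pos (Real.exp_pos _)]
      rw [mul_comm (dist φ ψ)]
      exact mul_le_mul_of_nonneg_left (φ.dist_apply_le_dist (g := ψ) ⟨q, hq⟩) (Real.exp_pos _).le
    have hb := abs_phiI_sub_le (h := h) hR hh (hext φ) (hext ψ) hlam0 hA x.2
    simp only [Φ, ContinuousMap.coe_mk, Real.dist_eq, ← mul_sub, abs_mul,
      abs_of_pos (Real.exp_pos _)]
    refine (mul_le_mul_of_nonneg_left hb (Real.exp_pos _).le).trans ?_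
    have h1 : C / (2 * lam) ≤ 1 / 2 := by
      rw [div_le_div_iff₀ (by positivity) two_pos]; linarith
    have he : Real.exp (-(lam * (x : ℝ))) * Real.exp (lam * (x : ℝ)) = 1 := by
      rw [← Real.exp_add]; simp
    calc _ = C / (2 * lam) * dist φ ψ *
          (Real.exp (-(lam * (x : ℝ))) * Real.exp (lam * (x : ℝ))) := by rw [hC]; ring
      _ ≤ _ := by
        rw [he, mul_one]
        push_cast
        exact mul_le_mul_of_nonneg_right h1 dist_nonneg
  obtain ⟨φ, hφ⟩ : ∃ φ, Φ φ = φ := ⟨_, hcontr.fixedPoint_isFixedPt⟩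
  refine ⟨ext φ, hext φ, fun r hr => ?_⟩
  have h1 : Real.exp (-(lam * r)) * phiI R h (ext φ) r = φ ⟨r, hr⟩ :=
    congrArg (fun ψ => ψ ⟨r, hr⟩) hφ
  have h2 : ext φ r = Real.exp (lam * r) * φ ⟨r, hr⟩ := by
    simp only [ext, IccExtend_of_mem hL0 _ hr]
  rw [h2, ← h1, ← mul_assoc, ← Real.exp_add]
  simp

end Vale.Agent.P219.CH.Relax.Four.Ode
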