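import Vale.Agent.P219.Relax.Four.OdeCompare
import Vale.Agent.P219.Relax.Four.OdeIntegral

/-!
# P219, dimension four: existence for the radial system
-/

noncomputable section

open Set Filter Topology MeasureTheory intervalIntegral

namespace Vale.Agent.P219.CH.Relax.Four.Ode

variable {R : ℝ}

/-- Forward solutions for a forcing `tanh (r/2) * h`, on the half-open interval. -/
theorem exists_forward (hR : 0 < R) {h : ℝ → ℝ} (hh : Continuous h) :
    ∃ f V P : ℝ → ℝ, Continuous f ∧ ContinuousOn V (Ico 0 (2 * R)) ∧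
      ContinuousOn P (Icc 0 (2 * R)) ∧ V 0 = 0 ∧ P 0 = 0 ∧
      (∀ r ∈ Icc 0 (2 * R), P r = Real.sinh r * f r) ∧
      (∀ r ∈ Ioo 0 (2 * R), HasDerivAt V (f r / (ww R r * sw R r)) r) ∧
      (∀ r ∈ Ioo 0 (2 * R), HasDerivAt P (Real.tanh (r / 2) * h r + kv R r * V r) r) ∧
      (∀ r ∈ Ioo 0 (2 * R), av R r * P r = f r / (ww R r * sw R r)) ∧
      ∃ B, 0 ≤ B ∧ ∀ r ∈ Ioo 0 (2 * R),
        |Real.tanh (r / 2) * h r + kv R r * V r| ≤ B := by
  obtain ⟨f, hf, hfix⟩ := exists_fixed hR hh
  obtain ⟨B, hB0, hB⟩ := exists_hI_bound hR hh hf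
  have hP : ∀ r ∈ Icc 0 (2 * R), pI R h f r = Real.sinh r * f r := by
    intro r hr
    rcases hr.1.eq_or_lt with rfl | hr0
    · simp [pI]
    · rw [hfix r hr, phiI, mul_div_cancel₀ _ (Real.sinh_pos_iff.2 hr0).ne']
  have hder : ∀ r, Real.tanh (r / 2) * hI R h f r =
      Real.tanh (r / 2) * h r + kv R r * vI R f r := fun r => by rw [hI, kv]; ring
  refine ⟨f, vI R f, pI R h f, hf, continuousOn_vI hR hf, continuousOn_pI hR hh hf,
    by simp [vI], by simp [pI], hP, fun r hr => hasDerivAt_vI hR hf hr,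
    fun r hr => hder r ▸ hasDerivAt_pI hR hh hf hr, fun r hr => ?_, B, hB0, fun r hr => ?_⟩
  · rw [hP r (Ioo_subset_Icc_self hr), av]
    have := (Real.sinh_pos_iff.2 hr.1).ne'
    field_simp
  · rw [← hder, abs_mul]
    calc _ ≤ 1 * B := mul_le_mul (Real.abs_tanh_lt_one _).le (hB r (Ioo_subset_Icc_self hr))
          (abs_nonneg _) zero_le_one
      _ = B := one_mul B

/-- A strict supersolution has a strictly increasing second component. -/
theorem strictMonoOn_of_super (hR : 0 < R) {V P V' P' : ℝ → ℝ} {σ : ℝ} (hσ : σ ≤ 2 * R)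
    (cV : ContinuousOn V (Ico 0 σ)) (cP : ContinuousOn P (Icc 0 σ))
    (hV0 : 0 ≤ V 0) (hP0 : 0 ≤ P 0)
    (dV : ∀ r ∈ Ioo 0 σ, HasDerivAt V (V' r) r) (dP : ∀ r ∈ Ioo 0 σ, HasDerivAt P (P' r) r)
    (hV : ∀ r ∈ Ioo 0 σ, av R r * P r ≤ V' r) (hP : ∀ r ∈ Ioo 0 σ, kv R r * V r < P' r) :
    StrictMonoOn P (Icc 0 σ) := by
  refine strictMonoOn_of_hasDerivWithinAt_pos (convex_Icc 0 σ) cP (f' := P') ?_ ?_
  all_goals rw [interior_Icc]
  · exact fun r hr => (dP r hr).hasDerivWithinAt
  · intro r hr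
    have h := nonneg_of_super hR (σ := r) le_rfl hr.1.le (hr.2.trans_le hσ)
      (cV.mono (Icc_subset_Ico_right hr.2)) (cP.mono (Icc_subset_Icc_right hr.2.le)) hV0 hP0
      (fun x hx => dV x ⟨hx.1, hx.2.trans hr.2⟩) (fun x hx => dP x ⟨hx.1, hx.2.trans hr.2⟩)
      (fun x hx => hV x ⟨hx.1, hx.2.trans hr.2⟩) (fun x hx => (hP x ⟨hx.1, hx.2.trans hr.2⟩).le)
      r ⟨hr.1.le, le_rfl⟩
    exact (mul_nonneg (kv_nonneg hr.1.le) h.1).trans_lt (hP r hr)

/-- For every ball some value of `b` has a solution regular at both ends. -/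
theorem exists_sol (hR : 0 < R) : ∃ (b : ℝ) (V P : ℝ → ℝ), IsSol R b V P := by
  have hL : 0 ≤ 2 * R := by linarith
  have hT := tanh_pos hR
  obtain ⟨fA, VA, PA, cfA, cVA, cPA, VA0, PA0, eA, dVA, dPA, aA, BA, hBA0, hBA⟩ :=
    exists_forward hR (h := fun r => Real.tanh (r / 2) * sw R r / Real.tanh R ^ 2)
      ((((continuous_tanh.comp (continuous_id.div_const 2))).mul continuous_sw).div_const _)
  obtain ⟨fB, VB, PB, cfB, cVB, cPB, VB0, PB0, eB, dVB, dPB, aB, BB, hBB0, hBB⟩ :=
    exists_forward hR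
      (h := fun r => -3 * (Real.sinh r * (1 + Real.cosh r) * Real.cosh r * sw R r)) (by fun_prop)
  have hA : ∀ r, Real.tanh (r / 2) * (Real.tanh (r / 2) * sw R r / Real.tanh R ^ 2) =
      tt R r ^ 2 * sw R r := fun r => by rw [tt]; ring
  have hB : ∀ r, Real.tanh (r / 2) *
      (-3 * (Real.sinh r * (1 + Real.cosh r) * Real.cosh r * sw R r)) =
      -(3 * (Real.sinh r ^ 2 * Real.cosh r * sw R r)) := fun r => by
    rw [sinh_eq_tanh_half r]; ring
  have hpos : 0 < PA (2 * R) := by
    have := strictMonoOn_of_super hR le_rfl cVA cPA VA0.ge PA0.ge dVA dPA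
      (fun r hr => (aA r hr).le) (fun r hr => by
        rw [hA]
        have h1 := pow_pos (tt_pos hR hr.1) 2
        have h2 := sw_pos hR hr.1.le hr.2
        nlinarith [mul_pos h1 h2])
      ⟨le_rfl, hL⟩ ⟨hL, le_rfl⟩ (by linarith)
    linarith
  set b := -PB (2 * R) / PA (2 * R) with hb
  set f := fun r => b * fA r + fB r with hf
  set P := fun r => b * PA r + PB r with hP
  have cP : ContinuousOn P (Icc 0 (2 * R)) := (continuousOn_const.mul cPA).add cPB
  have cf : Continuous f := (continuous_const.mul cfA).add cfB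
  have hPL : P (2 * R) = 0 := by
    simp only [hP, hb]
    rw [div_mul_cancel₀ _ hpos.ne']; ring
  have eP : ∀ r ∈ Icc 0 (2 * R), P r = Real.sinh r * f r := fun r hr => by
    simp only [hP, hf, eA r hr, eB r hr]; ring
  have dP : ∀ r ∈ Ioo 0 (2 * R), HasDerivAt P
      (force R b r + kv R r * (b * VA r + VB r)) r := fun r hr => by
    refine (((dPA r hr).const_mul b).add (dPB r hr)).congr_deriv ?_
    rw [hA, hB, force]; ring
  have hPlin : ∀ r ∈ Icc 0 (2 * R), |P r| ≤ (|b| * BA + BB) * (2 * R - r) := by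
    intro r hr
    rcases hr.2.eq_or_lt with he | hlt
    · rw [he, hPL]; simp
    · obtain ⟨x, hx, he⟩ := exists_hasDerivAt_eq_slope P _ hlt
        (cP.mono (Icc_subset_Icc_left hr.1)) fun x hx => dP x ⟨hr.1.trans_lt hx.1, hx.2⟩
      have hx' : x ∈ Ioo 0 (2 * R) := ⟨hr.1.trans_lt hx.1, hx.2⟩
      have h1 := hBA x hx'
      have h2 := hBB x hx'
      rw [hA] at h1
      rw [hB] at h2
      have hb2 : |force R b x + kv R x * (b * VA x + VB x)| ≤ |b| * BA + BB := by
        have e : force R b x + kv R x * (b * VA x + VB x) =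
            b * (tt R x ^ 2 * sw R x + kv R x * VA x) +
              (-(3 * (Real.sinh x ^ 2 * Real.cosh x * sw R x)) + kv R x * VB x) := by
          rw [force]; ring
        rw [e]
        refine (abs_add_le _ _).trans (add_le_add ?_ h2)
        rw [abs_mul]; exact mul_le_mul_of_nonneg_left h1 (abs_nonneg _)
      rw [hPL, zero_sub, eq_div_iff (by linarith)] at he
      rw [show P r = -((force R b x + kv R x * (b * VA x + VB x)) * (2 * R - r)) by linarith,
        abs_neg, abs_mul, abs_of_pos (by linarith : 0 < 2 * R - r)]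
      exact mul_le_mul_of_nonneg_right hb2 (by linarith)
  obtain ⟨Bf, hBf⟩ := isCompact_Icc.exists_bound_of_continuousOn
    (cf.continuousOn (s := Icc 0 (2 * R)))
  set K := max (Bf / R) ((|b| * BA + BB) / Real.sinh R) with hK
  have hK0 : 0 ≤ K :=
    le_max_of_le_right (div_nonneg (by positivity) (Real.sinh_nonneg_iff.2 hR.le))
  have hflin : ∀ r ∈ Icc 0 (2 * R), |f r| ≤ K * (2 * R - r) := by
    intro r hr
    rcases le_or_gt r R with hle | hgt
    · have h1 : |f r| ≤ Bf := hBf r hr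
      have h2 : Bf ≤ K * R := by
        rw [← div_le_iff₀ hR]; exact le_max_left _ _
      nlinarith
    · have hs := Real.sinh_pos_iff.2 hR
      have hs2 : Real.sinh R ≤ Real.sinh r := Real.sinh_strictMono.monotone hgt.le
      have h1 := hPlin r hr
      rw [eP r hr, abs_mul, abs_of_pos (hs.trans_le hs2)] at h1
      have h2 : (|b| * BA + BB) ≤ K * Real.sinh R := by
        rw [← div_le_iff₀ hs]; exact le_max_right _ _
      have h3 : Real.sinh R * |f r| ≤ Real.sinh R * (K * (2 * R - r)) :=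
        calc Real.sinh R * |f r| ≤ Real.sinh r * |f r| :=
              mul_le_mul_of_nonneg_right hs2 (abs_nonneg _)
          _ ≤ (|b| * BA + BB) * (2 * R - r) := h1
          _ ≤ K * Real.sinh R * (2 * R - r) := mul_le_mul_of_nonneg_right h2 (by linarith [hr.2])
          _ = _ := by ring
      exact le_of_mul_le_mul_left h3 hs
  set c := (1 - Real.tanh R ^ 2) / (2 * Real.tanh R) with hc
  have hc0 : 0 < c := cbd_pos hR
  set M := K / (c * Real.sqrt c) with hM
  have hgi : IntegrableOn (fun q => M / Real.sqrt (2 * R - q)) (Ioc 0 (2 * R)) := by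
    refine integrableOn_deriv_of_nonneg (g := fun q => -2 * M * Real.sqrt (2 * R - q))
      (by fun_prop) (fun q hq => ?_) fun q _ => by positivity
    have hp : 0 < 2 * R - q := by linarith [hq.2]
    refine ((((hasDerivAt_id q).const_sub (2 * R)).sqrt hp.ne').const_mul (-2 * M)).congr_deriv ?_
    have := Real.sqrt_pos.2 hp
    simp only [id_eq]; field_simp
  set F := fun q => f q / (ww R q * sw R q) with hF
  have hFi : IntegrableOn F (Icc 0 (2 * R)) := by
    rw [integrableOn_Icc_iff_integrableOn_Ico]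
    rw [← integrableOn_Icc_iff_integrableOn_Ioc, integrableOn_Icc_iff_integrableOn_Ico] at hgi
    refine hgi.mono' ((continuousOn_vint hR cf).aestronglyMeasurable measurableSet_Ico) ?_
    filter_upwards [ae_restrict_mem measurableSet_Ico] with q hq
    have hw : 0 < ww R q * sw R q := mul_pos (ww_pos hR hq.1 hq.2) (sw_pos hR hq.1 hq.2)
    have hp : 0 < 2 * R - q := by linarith [hq.2]
    rw [Real.norm_eq_abs, abs_div, abs_of_pos hw, div_eq_mul_one_div]
    refine (mul_le_mul (hflin q (Ico_subset_Icc_self hq)) (inv_ww_sw_le hR hq.1 hq.2)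
      (by positivity) (by positivity)).trans (le_of_eq ?_)
    rw [← hc, hM]
    have := Real.sqrt_pos.2 hp
    field_simp
  set V := fun r => ∫ q in (0:ℝ)..r, F q with hV
  have cV : ContinuousOn V (Icc 0 (2 * R)) := by
    have h := continuousOn_primitive_interval (a := 0) (b := 2 * R) (f := F) (μ := volume)
      (by rwa [uIcc_of_le hL])
    rwa [uIcc_of_le hL] at h
  have hVeq : ∀ r ∈ Ico 0 (2 * R), V r = b * VA r + VB r := by
    intro r hr
    have hd : ∀ x ∈ Ioo 0 r, HasDerivAt (fun x => b * VA x + VB x) (F x) x := fun x hx => by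
      have hx' : x ∈ Ioo 0 (2 * R) := ⟨hx.1, hx.2.trans hr.2⟩
      refine (((dVA x hx').const_mul b).add (dVB x hx')).congr_deriv ?_
      simp only [hF, hf]; ring
    have := integral_eq_sub_of_hasDerivAt_of_le hr.1
      (((continuousOn_const.mul cVA).add cVB).mono (Icc_subset_Ico_right hr.2)) hd
      (intervalIntegrable_vint hR cf hr.1 hr.2)
    simpa [hV, hF, VA0, VB0] using this
  refine ⟨b, V, P, cV, cP, by simp [hV], by simp [hP, PA0, PB0], hPL, fun r hr => ?_,
    fun r hr => ?_⟩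
  · have hev : V =ᶠ[𝓝 r] fun x => b * VA x + VB x := by
      filter_upwards [isOpen_Ioo.mem_nhds hr] with x hx using hVeq x (Ioo_subset_Ico_self hx)
    refine ((((dVA r hr).const_mul b).add (dVB r hr)).congr_deriv ?_).congr_of_eventuallyEq hev
    rw [← aA r hr, ← aB r hr]; simp only [hP]; ring
  · rw [hVeq r (Ioo_subset_Ico_self hr)]
    exact dP r hr

end Vale.Agent.P219.CH.Relax.Four.Ode
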