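import Vale.Agent.P219.Relax.Four.Defs
import Vale.Agent.P219.Relax.Four.OdeExist

/-!
# P219, dimension four: existence and comparison in the contact cosine

`v (t) = V (r) / T ^ 3` and `w (t) = P (r) / (T ^ 3 (1 - t ^ 2) ^ (3 / 2))` at `T t = tanh (r / 2)`.
The comparison uses the reduced variable `rimW t * w t` and, for `v`, the maximum principle.
-/

noncomputable section

open Set Filter Topology

namespace Vale.Agent.P219.CH.Relax.Four

/-- The power three halves of `1 - t ^ 2`. -/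
def rimW (t : ℝ) : ℝ := (1 - t ^ 2) * Real.sqrt (1 - t ^ 2)

theorem hasDerivAt_rimW {t : ℝ} (ht : 0 < 1 - t ^ 2) :
    HasDerivAt rimW (-3 * t * Real.sqrt (1 - t ^ 2)) t := by
  have h1 : HasDerivAt (fun x : ℝ => 1 - x ^ 2) (-(2 * t)) t := by
    simpa using (((hasDerivAt_id t).fun_pow 2).const_sub 1)
  refine (h1.mul (h1.sqrt ht.ne')).congr_deriv ?_
  have hs := Real.sqrt_pos.2 ht
  field_simp
  rw [Real.sq_sqrt ht.le]
  ring

theorem rimW_pos {t : ℝ} (ht : 0 < 1 - t ^ 2) : 0 < rimW t :=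
  mul_pos ht (Real.sqrt_pos.2 ht)

theorem continuous_rimW : Continuous rimW := by unfold rimW; fun_prop

theorem one_sub_sq_pos {t : ℝ} (h0 : 0 ≤ t) (h1 : t < 1) : 0 < 1 - t ^ 2 := by nlinarith

theorem yf_pos {e t : ℝ} (he : e ∈ Ioo (0 : ℝ) 1) (h0 : 0 ≤ t) (h1 : t ≤ 1) : 0 < yf e t := by
  have : e * t ^ 2 ≤ e * 1 := mul_le_mul_of_nonneg_left (by nlinarith) he.1.le
  have := he.2
  rw [yf]; linarith

namespace Ode

/-- The distance at the contact cosine `t`. -/
def rad (T t : ℝ) : ℝ := 2 * Real.artanh (T * t)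

theorem hasDerivAt_artanh' {z : ℝ} (h : z ∈ Ioo (-1 : ℝ) 1) :
    HasDerivAt Real.artanh (1 / (1 - z ^ 2)) z := by
  have h1 : 0 < 1 + z := by linarith [h.1]
  have h2 : 0 < 1 - z := by linarith [h.2]
  have hd : HasDerivAt (fun y : ℝ => 1 / 2 * Real.log ((1 + y) / (1 - y))) _ z :=
    ((((hasDerivAt_id z).const_add 1).div ((hasDerivAt_id z).const_sub 1) h2.ne').log
      (div_pos h1 h2).ne').const_mul (1 / 2)
  refine (hd.congr_deriv ?_).congr_of_eventuallyEq ?_
  · simp only [id_eq, Pi.div_apply]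
    have h3 : (1 : ℝ) - z ^ 2 ≠ 0 := by nlinarith
    field_simp
    ring
  · filter_upwards [Ioo_mem_nhds h.1 h.2] with y hy
    exact Real.artanh_eq_half_log ⟨hy.1.le, hy.2.le⟩

theorem mem_Ioo {T t : ℝ} (hT : 0 < T) (hT1 : T < 1) (ht : t ∈ Icc (0 : ℝ) 1) :
    T * t ∈ Ioo (-1 : ℝ) 1 := ⟨by nlinarith [ht.1], by nlinarith [ht.2]⟩

theorem hasDerivAt_rad {T t : ℝ} (hT : 0 < T) (hT1 : T < 1) (ht : t ∈ Icc (0 : ℝ) 1) :
    HasDerivAt (rad T) (2 * T / yf (T ^ 2) t) t := by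
  have h := ((hasDerivAt_artanh' (mem_Ioo hT hT1 ht)).comp t
    ((hasDerivAt_id t).const_mul T)).const_mul 2
  refine h.congr_deriv ?_
  rw [yf, mul_one, mul_pow]
  ring

theorem tanh_rad_half {T t : ℝ} (hT : 0 < T) (hT1 : T < 1) (ht : t ∈ Icc (0 : ℝ) 1) :
    Real.tanh (rad T t / 2) = T * t := by
  rw [rad, mul_div_cancel_left₀ _ two_ne_zero]
  exact Real.tanh_artanh (mem_Ioo hT hT1 ht)

/-- `sinh` and `cosh` from the tangent of the half angle. -/
theorem sinh_cosh_of_tanh_half (r : ℝ) :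
    Real.sinh r = 2 * Real.tanh (r / 2) / (1 - Real.tanh (r / 2) ^ 2) ∧
      Real.cosh r = (1 + Real.tanh (r / 2) ^ 2) / (1 - Real.tanh (r / 2) ^ 2) := by
  have hy : 0 < 1 - Real.tanh (r / 2) ^ 2 := by linarith [Real.tanh_sq_lt_one (r / 2)]
  have h1 := cosh_sub_one r
  have h2 := sinh_eq_tanh_half r
  constructor <;> rw [eq_div_iff hy.ne']
  · linear_combination h2 + Real.tanh (r / 2) * h1
  · linear_combination h1 + Real.tanh (r / 2) * h2

end Ode

open Ode in
/-- Existence, for every value of `e`. -/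
theorem existsPin : ExistsPin := by
  intro e he
  set T := Real.sqrt e with hTdef
  have hT : 0 < T := Real.sqrt_pos.2 he.1
  have hT1 : T < 1 := by rw [hTdef, Real.sqrt_lt' one_pos]; simpa using he.2
  have hT2 : T ^ 2 = e := Real.sq_sqrt he.1.le
  set R := Real.artanh T with hRdef
  have hTR : Real.tanh R = T := Real.tanh_artanh ⟨by linarith, hT1⟩
  have hR : 0 < R := tanh_strictMono.lt_iff_lt.1 (by rw [hTR, Real.tanh_zero]; exact hT)
  obtain ⟨b, V, P, hs⟩ := exists_sol hR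
  set β := b / e with hβ
  have hr0 : rad T 0 = 0 := by simp [rad, Real.artanh_eq_half_log]
  have hr1 : rad T 1 = 2 * R := by simp [rad, hRdef]
  have hth : ∀ t ∈ Icc (0 : ℝ) 1, Real.tanh (rad T t / 2) = T * t := fun t ht =>
    tanh_rad_half hT hT1 ht
  have hmem : ∀ t ∈ Icc (0 : ℝ) 1, rad T t ∈ Icc 0 (2 * R) := fun t ht => by
    have h1 := hth t ht
    have ha : Real.tanh 0 ≤ Real.tanh (rad T t / 2) := by
      rw [h1, Real.tanh_zero]; exact mul_nonneg hT.le ht.1
    have hb : Real.tanh (rad T t / 2) ≤ Real.tanh R := by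
      rw [h1, hTR]; exact mul_le_of_le_one_right hT.le ht.2
    exact ⟨by linarith [tanh_strictMono.le_iff_le.1 ha],
      by linarith [tanh_strictMono.le_iff_le.1 hb]⟩
  have hmemo : ∀ t ∈ Ioo (0 : ℝ) 1, rad T t ∈ Ioo 0 (2 * R) := fun t ht => by
    have h1 := hth t (Ioo_subset_Icc_self ht)
    have ha : Real.tanh 0 < Real.tanh (rad T t / 2) := by
      rw [h1, Real.tanh_zero]; exact mul_pos hT ht.1
    have hb : Real.tanh (rad T t / 2) < Real.tanh R := by
      rw [h1, hTR]; exact mul_lt_of_lt_one_right hT ht.2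
    exact ⟨by linarith [tanh_strictMono.lt_iff_lt.1 ha],
      by linarith [tanh_strictMono.lt_iff_lt.1 hb]⟩
  have crad : ContinuousOn (rad T) (Icc 0 1) := fun t ht =>
    (hasDerivAt_rad hT hT1 ht).continuousAt.continuousWithinAt
  set v := fun t => V (rad T t) / T ^ 3 with hv
  set Q := fun t => P (rad T t) / T ^ 3 with hQ
  have cv : ContinuousOn v (Icc 0 1) := (hs.contV.comp crad hmem).div_const _
  have cQ : ContinuousOn Q (Icc 0 1) := (hs.contP.comp crad hmem).div_const _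
  have v0 : v 0 = 0 := by simp [hv, hr0, hs.V_zero]
  have Q0 : Q 0 = 0 := by simp [hQ, hr0, hs.P_zero]
  have Q1 : Q 1 = 0 := by simp [hQ, hr1, hs.P_end]
  set N := fun t => (6 * t * v t + src e β t) / yf e t with hN
  have hnum : ∀ t ∈ Ioo (0 : ℝ) 1,
      HasDerivAt v (Q t / (t * rimW t)) t ∧
        HasDerivAt Q (Real.sqrt (1 - t ^ 2) * N t) t := by
    intro t ht
    have htI := Ioo_subset_Icc_self ht
    have hy : 0 < yf e t := yf_pos he ht.1.le ht.2.le
    have hw1 := one_sub_sq_pos ht.1.le ht.2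
    have htt : tt R (rad T t) = t := by rw [tt, hth t htI, hTR]; field_simp
    have hww : ww R (rad T t) = 1 - t ^ 2 := by rw [ww, htt]
    have hsw : sw R (rad T t) = Real.sqrt (1 - t ^ 2) := by rw [sw, hww]
    obtain ⟨hS, hC⟩ := sinh_cosh_of_tanh_half (rad T t)
    rw [hth t htI, mul_pow, hT2] at hS hC
    rw [show (1 : ℝ) - e * t ^ 2 = yf e t from rfl] at hS hC
    have hd := hasDerivAt_rad hT hT1 htI
    rw [hT2] at hd
    have hsq := Real.sqrt_pos.2 hw1
    refine ⟨(((hs.derivV _ (hmemo t ht)).comp t hd).div_const _).congr_deriv ?_,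
      (((hs.derivP _ (hmemo t ht)).comp t hd).div_const _).congr_deriv ?_⟩
    · rw [av, hww, hsw, hS]
      simp only [hQ, rimW]
      have := ht.1.ne'
      field_simp
    · rw [force, kv, htt, hsw, hS, hC, hth t htI, hTR]
      simp only [hN, src, hv, hβ, ← hT2]
      have := ht.1.ne'
      have hy' : yf (T ^ 2) t ≠ 0 := hT2 ▸ hy.ne'
      field_simp
      ring
  set w1 := -((6 * v 1 + src e β 1) / yf e 1) / 3 with hw1def
  set w := fun t => if t = 1 then w1 else Q t / rimW t with hw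
  have weq : ∀ t, t ≠ 1 → w t = Q t / rimW t := fun t ht => if_neg ht
  have hW0 : rimW 0 = 1 := by simp [rimW]
  have w0 : w 0 = 0 := by rw [weq 0 zero_ne_one, Q0, zero_div]
  have hsrc : ContinuousOn (src e β) (Icc 0 1) := by
    unfold src
    refine (by fun_prop : ContinuousOn (fun t : ℝ => 2 * β * t ^ 2) (Icc 0 1)).sub
      (ContinuousOn.div (by fun_prop)
        ((by unfold yf; fun_prop : Continuous (yf e)).pow 3).continuousOn
        fun t ht => (pow_pos (yf_pos he ht.1 ht.2) 3).ne')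
  have cN : ContinuousOn N (Icc 0 1) :=
    (((continuousOn_const.mul continuousOn_id).mul cv).add hsrc).div
      (by unfold yf; fun_prop) fun t ht => (yf_pos he ht.1 ht.2).ne'
  have ev1 : ∀ᶠ t in 𝓝[<] (1 : ℝ), t ∈ Ioo (0 : ℝ) 1 := Ioo_mem_nhdsLT zero_lt_one
  have ev0 : ∀ᶠ t in 𝓝[>] (0 : ℝ), t ∈ Ioo (0 : ℝ) 1 := Ioo_mem_nhdsGT zero_lt_one
  have hm1 : 𝓝[<] (1 : ℝ) ≤ 𝓝[Icc 0 1] 1 :=
    nhdsWithin_le_iff.2 (mem_of_superset (Ioo_mem_nhdsLT zero_lt_one) Ioo_subset_Icc_self)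
  have hm0 : 𝓝[>] (0 : ℝ) ≤ 𝓝[Icc 0 1] 0 :=
    nhdsWithin_le_iff.2 (mem_of_superset (Ioo_mem_nhdsGT zero_lt_one) Ioo_subset_Icc_self)
  have lim1 : Tendsto (fun t => Q t / rimW t) (𝓝[<] 1) (𝓝 w1) := by
    refine HasDerivAt.lhopital_zero_nhdsLT (ev1.mono fun t ht => (hnum t ht).2)
      (ev1.mono fun t ht => hasDerivAt_rimW (one_sub_sq_pos ht.1.le ht.2))
      (ev1.mono fun t ht => ?_) ?_ ?_ ?_
    · exact mul_ne_zero (by linarith [ht.1]) (Real.sqrt_pos.2 (one_sub_sq_pos ht.1.le ht.2)).ne'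
    · simpa [Q1] using ((cQ 1 ⟨zero_le_one, le_rfl⟩).tendsto.mono_left hm1)
    · have h := (continuous_rimW.tendsto (1 : ℝ)).mono_left (nhdsWithin_le_nhds (s := Iio 1))
      simpa [rimW] using h
    · have h : Tendsto (fun t => N t / (-3 * t)) (𝓝[<] 1) (𝓝 (N 1 / (-3 * 1))) :=
        ((cN 1 ⟨zero_le_one, le_rfl⟩).tendsto.mono_left hm1).div
          (tendsto_nhdsWithin_of_tendsto_nhds ((continuous_const_mul (-3 : ℝ)).tendsto 1))
          (by norm_num)
      rw [show N 1 / (-3 * 1) = w1 by simp only [hN, hw1def]; ring_nf] at h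
      refine h.congr' (ev1.mono fun t ht => ?_)
      have := (Real.sqrt_pos.2 (one_sub_sq_pos ht.1.le ht.2)).ne'
      field_simp
  have cw : ContinuousOn w (Icc 0 1) := by
    intro x hx
    rcases hx.2.eq_or_lt with rfl | hlt
    · rw [← continuousWithinAt_sdiff_self, Icc_sdiff_right]
      have h : Tendsto w (𝓝[<] 1) (𝓝 (w 1)) := by
        rw [show w 1 = w1 from if_pos rfl]
        exact lim1.congr' (ev1.mono fun t ht => (weq t ht.2.ne).symm)
      exact h.mono_left (nhdsWithin_mono _ fun z hz => hz.2)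
    · have h : ContinuousWithinAt (fun t => Q t / rimW t) (Icc 0 1) x :=
        (cQ x hx).div continuous_rimW.continuousWithinAt
          (rimW_pos (one_sub_sq_pos hx.1 hlt)).ne'
      refine h.congr_of_eventuallyEq ?_ (weq x hlt.ne)
      filter_upwards [mem_nhdsWithin_of_mem_nhds (Iio_mem_nhds hlt)] with t ht
      exact weq t (ne_of_lt ht)
  have dv : ∀ t ∈ Ioo (0 : ℝ) 1, HasDerivAt v (w t / t) t := fun t ht => by
    refine (hnum t ht).1.congr_deriv ?_
    rw [weq t ht.2.ne]; ring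
  have dw : ∀ t ∈ Ioo (0 : ℝ) 1, HasDerivAt w (wDeriv e β (v t) (w t) t) t := by
    intro t ht
    have hw1 := one_sub_sq_pos ht.1.le ht.2
    have hsq := Real.sqrt_pos.2 hw1
    refine (((hnum t ht).2.div (hasDerivAt_rimW hw1) (rimW_pos hw1).ne').congr_deriv ?_
      ).congr_of_eventuallyEq ?_
    · rw [weq t ht.2.ne, wDeriv]
      simp only [hN, rimW]
      field_simp
      ring
    · filter_upwards [Iio_mem_nhds ht.2] with z hz using weq z (ne_of_lt hz)
  -- the origin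
  set K := (2 * β - 24) / 3 with hK
  have lQ1 : Tendsto (fun t => Q t / t) (𝓝[>] 0) (𝓝 0) := by
    refine HasDerivAt.lhopital_zero_nhdsGT (ev0.mono fun t ht => (hnum t ht).2)
      (ev0.mono fun t _ => hasDerivAt_id t) (ev0.mono fun t _ => one_ne_zero) ?_ ?_ ?_
    · simpa [Q0] using ((cQ 0 ⟨le_rfl, zero_le_one⟩).tendsto.mono_left hm0)
    · exact tendsto_nhdsWithin_of_tendsto_nhds tendsto_id
    · have hsq : Continuous fun t : ℝ => Real.sqrt (1 - t ^ 2) := by fun_prop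
      have h := ((hsq.tendsto (0 : ℝ)).mono_left (nhdsWithin_le_nhds (s := Ioi 0))).mul
        ((cN 0 ⟨le_rfl, zero_le_one⟩).tendsto.mono_left hm0)
      simpa [hN, src] using h
  have hWlim : Tendsto rimW (𝓝[>] 0) (𝓝 1) := by
    simpa [hW0] using (continuous_rimW.tendsto (0 : ℝ)).mono_left (nhdsWithin_le_nhds (s := Ioi 0))
  have lw1 : Tendsto (fun t => w t / t) (𝓝[>] 0) (𝓝 0) := by
    have h := lQ1.div hWlim one_ne_zero
    rw [zero_div] at h
    refine h.congr' (ev0.mono fun t ht => ?_)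
    simp only [Pi.div_apply]
    rw [weq t ht.2.ne, div_right_comm]
  have lv1 : Tendsto (fun t => v t / t) (𝓝[>] 0) (𝓝 0) := by
    refine HasDerivAt.lhopital_zero_nhdsGT (ev0.mono fun t ht => dv t ht)
      (ev0.mono fun t _ => hasDerivAt_id t) (ev0.mono fun t _ => one_ne_zero) ?_ ?_ ?_
    · simpa [v0] using ((cv 0 ⟨le_rfl, zero_le_one⟩).tendsto.mono_left hm0)
    · exact tendsto_nhdsWithin_of_tendsto_nhds tendsto_id
    · simpa using lw1
  have lQ3 : Tendsto (fun t => Q t / t ^ 3) (𝓝[>] 0) (𝓝 K) := by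
    refine HasDerivAt.lhopital_zero_nhdsGT (g' := fun t => 3 * t ^ 2)
      (ev0.mono fun t ht => (hnum t ht).2)
      (ev0.mono fun t _ => by simpa using (hasDerivAt_id t).fun_pow 3)
      (ev0.mono fun t ht => by have := ht.1; positivity) ?_ ?_ ?_
    · simpa [Q0] using ((cQ 0 ⟨le_rfl, zero_le_one⟩).tendsto.mono_left hm0)
    · simpa using ((continuous_pow 3).tendsto (0 : ℝ)).mono_left (nhdsWithin_le_nhds (s := Ioi 0))
    · have hb : ContinuousAt (fun t => Real.sqrt (1 - t ^ 2) / (3 * yf e t) *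
          (2 * β - 24 * (1 + e * t ^ 2) / yf e t ^ 3)) 0 := by
        unfold yf
        fun_prop (disch := simp)
      have hc : ContinuousAt (fun t : ℝ => Real.sqrt (1 - t ^ 2) / (3 * yf e t) * 6) 0 := by
        unfold yf
        fun_prop (disch := simp)
      have h := (hb.tendsto.mono_left (nhdsWithin_le_nhds (s := Ioi 0))).add
        ((hc.tendsto.mono_left (nhdsWithin_le_nhds (s := Ioi 0))).mul lv1)
      rw [mul_zero, add_zero] at h
      refine (h.congr' (ev0.mono fun t ht => ?_)).trans (le_of_eq ?_)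
      · have hy := (yf_pos he ht.1.le ht.2.le).ne'
        have := ht.1.ne'
        simp only [hN, src]
        field_simp
        ring
      · simp [yf, hK]; ring_nf
  have lw3 : Tendsto (fun t => w t / t ^ 3) (𝓝[>] 0) (𝓝 K) := by
    have h := lQ3.div hWlim one_ne_zero
    rw [div_one] at h
    refine h.congr' (ev0.mono fun t ht => ?_)
    simp only [Pi.div_apply]
    rw [weq t ht.2.ne, div_right_comm]
  have lv3 : Tendsto (fun t => v t / t ^ 3) (𝓝[>] 0) (𝓝 (K / 3)) := by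
    refine HasDerivAt.lhopital_zero_nhdsGT (g' := fun t => 3 * t ^ 2)
      (ev0.mono fun t ht => dv t ht)
      (ev0.mono fun t _ => by simpa using (hasDerivAt_id t).fun_pow 3)
      (ev0.mono fun t ht => by have := ht.1; positivity) ?_ ?_ ?_
    · simpa [v0] using ((cv 0 ⟨le_rfl, zero_le_one⟩).tendsto.mono_left hm0)
    · simpa using ((continuous_pow 3).tendsto (0 : ℝ)).mono_left (nhdsWithin_le_nhds (s := Ioi 0))
    · refine (lw3.div_const 3).congr' (ev0.mono fun t ht => ?_)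
      have := ht.1.ne'
      field_simp
  refine ⟨β, v, w, cv, cw, dv, dw, ?_, v0, w0, K / 3, lv3, ?_⟩
  · rw [show w 1 = w1 from if_pos rfl, hw1def]; ring
  · rwa [show 3 * (K / 3) = K by ring]

/-- The sign of the forcing decides the sign of `β` against a pair with equal ends. -/
theorem beta_aux {e : ℝ} (he : e ∈ Ioo (0 : ℝ) 1) {D E E' G : ℝ → ℝ}
    (cE : ContinuousOn E (Icc 0 1)) (E0 : E 0 = 0) (cD : ContinuousOn D (Icc 0 1)) (D0 : D 0 = 0)
    {δ : ℝ} (hδ : 0 < δ) (hG : ∀ t ∈ Ioo (0 : ℝ) 1, δ * t ^ 2 ≤ G t)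
    (hD3 : ∃ k, Tendsto (fun t => D t / t ^ 3) (𝓝[>] 0) (𝓝 k))
    (dD : ∀ t ∈ Ioo (0 : ℝ) 1, HasDerivAt D (E t / t) t)
    (dE : ∀ t ∈ Ioo (0 : ℝ) 1, HasDerivAt E (E' t) t)
    (heq : ∀ t ∈ Ioo (0 : ℝ) 1,
      yf e t * ((1 - t ^ 2) * E' t - 3 * t * E t) = 6 * t * D t + G t) : False := by
  set Q := fun t => rimW t * E t with hQ
  have cQ : ContinuousOn Q (Icc 0 1) := continuous_rimW.continuousOn.mul cE
  have dQ : ∀ t ∈ Ioo (0 : ℝ) 1,
      HasDerivAt Q (Real.sqrt (1 - t ^ 2) * ((6 * t * D t + G t) / yf e t)) t := by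
    intro t ht
    refine ((hasDerivAt_rimW (one_sub_sq_pos ht.1.le ht.2)).mul (dE t ht)).congr_deriv ?_
    rw [← heq t ht, mul_div_cancel_left₀ _ (yf_pos he ht.1.le ht.2.le).ne', rimW]
    ring
  have hpos : ∀ s ∈ Ioo (0 : ℝ) 1, (∀ t ∈ Ioo 0 s, 0 < 6 * t * D t + G t) →
      StrictMonoOn Q (Icc 0 s) := by
    intro s hs hp
    refine strictMonoOn_of_hasDerivWithinAt_pos (convex_Icc 0 s)
      (cQ.mono (Icc_subset_Icc_right hs.2.le))
      (f' := fun t => Real.sqrt (1 - t ^ 2) * ((6 * t * D t + G t) / yf e t)) ?_ ?_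
    all_goals rw [interior_Icc]
    · exact fun t ht => (dQ t ⟨ht.1, ht.2.trans hs.2⟩).hasDerivWithinAt
    · exact fun t ht => mul_pos (Real.sqrt_pos.2 (one_sub_sq_pos ht.1.le (ht.2.trans hs.2)))
        (div_pos (hp t ht) (yf_pos he ht.1.le (ht.2.trans hs.2).le))
  have Q0 : Q 0 = 0 := by simp [hQ, E0]
  obtain ⟨k, hk⟩ := hD3
  have hnear : ∀ᶠ t in 𝓝[>] (0 : ℝ), 0 < 6 * t * D t + G t := by
    have h2 : Tendsto (fun t : ℝ => 6 * t ^ 2 * (D t / t ^ 3)) (𝓝[>] 0) (𝓝 0) := by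
      have h3 : Tendsto (fun t : ℝ => 6 * t ^ 2) (𝓝[>] 0) (𝓝 0) :=
        tendsto_nhdsWithin_of_tendsto_nhds
          (by simpa using (((continuous_pow 2).const_mul (6 : ℝ))).tendsto 0)
      simpa using h3.mul hk
    filter_upwards [h2.eventually_const_lt (show -δ < 0 by linarith),
      Ioo_mem_nhdsGT zero_lt_one] with t ht htI
    have hg := hG t htI
    have ht2 : 0 < t ^ 2 := by have := htI.1; positivity
    have h4 : 6 * t * D t = t ^ 2 * (6 * t ^ 2 * (D t / t ^ 3)) := by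
      have := htI.1.ne'; field_simp
    nlinarith [mul_lt_mul_of_pos_left ht ht2]
  obtain ⟨u, hu, hus⟩ := (mem_nhdsGT_iff_exists_Ioo_subset).1 hnear
  set s₀ := min u (1 / 2 : ℝ) with hs₀
  have hs0 : s₀ ∈ Ioo (0 : ℝ) 1 :=
    ⟨lt_min hu (by norm_num), lt_of_le_of_lt (min_le_right _ _) (by norm_num)⟩
  have hQs0 : 0 < Q s₀ := Q0 ▸ hpos s₀ hs0
    (fun t ht => hus ⟨ht.1, ht.2.trans_le (min_le_left _ _)⟩)
    ⟨le_rfl, hs0.1.le⟩ ⟨hs0.1.le, le_rfl⟩ hs0.1
  have hcpt : IsCompact (Icc s₀ 1 ∩ Q ⁻¹' Iic 0) :=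
    isCompact_Icc.of_isClosed_subset
      ((cQ.mono (Icc_subset_Icc_left hs0.1.le)).preimage_isClosed_of_isClosed isClosed_Icc
        isClosed_Iic) inter_subset_left
  obtain ⟨t1, ht1, hmin⟩ := hcpt.exists_isLeast
    ⟨1, ⟨hs0.2.le, le_rfl⟩, by simp [hQ, rimW]⟩
  have ht1' : s₀ < t1 := lt_of_le_of_ne ht1.1.1 fun h => by
    have h2 : Q t1 ≤ 0 := ht1.2
    rw [← h] at h2; linarith
  have hQpos : ∀ t ∈ Ioo 0 t1, 0 < Q t := by
    intro t ht
    rcases le_or_gt t s₀ with h | h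
    · rw [← Q0]
      exact hpos s₀ hs0 (fun x hx => hus ⟨hx.1, hx.2.trans_le (min_le_left _ _)⟩)
        ⟨le_rfl, hs0.1.le⟩ ⟨ht.1.le, h⟩ ht.1
    · by_contra hle
      exact absurd (hmin ⟨⟨h.le, ht.2.le.trans ht1.1.2⟩, not_lt.1 hle⟩) (not_le.2 ht.2)
  have hDpos : ∀ t ∈ Ioo 0 t1, 0 ≤ D t := by
    intro t ht
    rw [← D0]
    refine monotoneOn_of_hasDerivWithinAt_nonneg (convex_Icc 0 t)
      (cD.mono (Icc_subset_Icc_right (ht.2.le.trans ht1.1.2))) (f' := fun x => E x / x) ?_ ?_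
      ⟨le_rfl, ht.1.le⟩ ⟨ht.1.le, le_rfl⟩ ht.1.le
    all_goals rw [interior_Icc]
    · exact fun x hx =>
        (dD x ⟨hx.1, hx.2.trans (ht.2.trans_le ht1.1.2)⟩).hasDerivWithinAt
    · intro x hx
      have hW := rimW_pos (one_sub_sq_pos hx.1.le (hx.2.trans (ht.2.trans_le ht1.1.2)))
      exact div_nonneg ((pos_iff_pos_of_mul_pos (hQpos x ⟨hx.1, hx.2.trans ht.2⟩)).1 hW).le hx.1.le
  have hmono : StrictMonoOn Q (Icc 0 t1) := by
    refine strictMonoOn_of_hasDerivWithinAt_pos (convex_Icc 0 t1)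
      (cQ.mono (Icc_subset_Icc_right ht1.1.2))
      (f' := fun t => Real.sqrt (1 - t ^ 2) * ((6 * t * D t + G t) / yf e t)) ?_ ?_
    all_goals rw [interior_Icc]
    · exact fun t ht => (dQ t ⟨ht.1, ht.2.trans_le ht1.1.2⟩).hasDerivWithinAt
    · intro t ht
      have htI : t ∈ Ioo (0 : ℝ) 1 := ⟨ht.1, ht.2.trans_le ht1.1.2⟩
      have := hG t htI
      have := hDpos t ht
      have : 0 < 6 * t * D t + G t := by
        have : 0 < δ * t ^ 2 := by have := ht.1; positivity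
        have : 0 ≤ 6 * t * D t := by have := ht.1; positivity
        linarith
      exact mul_pos (Real.sqrt_pos.2 (one_sub_sq_pos ht.1.le htI.2))
        (div_pos this (yf_pos he ht.1.le htI.2.le))
  have := hmono ⟨hs0.1.le, ht1'.le⟩ ⟨hs0.1.le.trans ht1'.le, le_rfl⟩ ht1'
  have h2 : Q t1 ≤ 0 := ht1.2
  linarith

/-- The maximum principle. -/
theorem max_aux {e η : ℝ} (he : e ∈ Ioo (0 : ℝ) 1) (hη : 0 ≤ η) {D E E' G : ℝ → ℝ} {G1 : ℝ}
    (cD : ContinuousOn D (Icc 0 1)) (cE : ContinuousOn E (Icc 0 1)) (D0 : D 0 = 0)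
    (dD : ∀ t ∈ Ioo (0 : ℝ) 1, HasDerivAt D (E t / t) t)
    (dE : ∀ t ∈ Ioo (0 : ℝ) 1, HasDerivAt E (E' t) t)
    (heq : ∀ t ∈ Ioo (0 : ℝ) 1,
      yf e t * ((1 - t ^ 2) * E' t - 3 * t * E t) = 6 * t * D t + G t)
    (hG : ∀ t ∈ Ioo (0 : ℝ) 1, -(2 * η * t ^ 2) ≤ G t) (hG1 : -(2 * η) ≤ G1)
    (hedge : 6 * D 1 + G1 + 3 * yf e 1 * E 1 = 0) :
    ∀ t ∈ Icc (0 : ℝ) 1, D t ≤ η / 3 := by
  obtain ⟨m, hm, hmax⟩ := isCompact_Icc.exists_isMaxOn (nonempty_Icc.2 zero_le_one) cD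
  intro t ht
  refine (hmax ht : D t ≤ D m).trans ?_
  have up : ∀ a c : ℝ, 0 ≤ a → a < c → c ≤ 1 → (∀ x ∈ Ioo a c, 0 < E x) → D a < D c := by
    intro a c ha hac hc hpos
    refine strictMonoOn_of_hasDerivWithinAt_pos (convex_Icc a c)
      (cD.mono (Icc_subset_Icc ha hc)) (f' := fun x => E x / x) ?_ ?_
      ⟨le_rfl, hac.le⟩ ⟨hac.le, le_rfl⟩ hac
    all_goals rw [interior_Icc]
    · exact fun x hx => (dD x ⟨ha.trans_lt hx.1, hx.2.trans_le hc⟩).hasDerivWithinAt
    · exact fun x hx => div_pos (hpos x hx) (ha.trans_lt hx.1)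
  rcases hm.2.eq_or_lt with hm1 | hm1
  · subst hm1
    by_contra hgt
    push Not at hgt
    have hy := yf_pos he zero_le_one le_rfl
    have hE : E 1 < 0 := by nlinarith
    obtain ⟨l, hl, hls⟩ := mem_nhdsLE_iff_exists_Ioc_subset.1
      (((cE 1 ⟨zero_le_one, le_rfl⟩).mono_of_mem_nhdsWithin
        (Icc_mem_nhdsLE zero_lt_one)).eventually_lt_const hE)
    set a := max l (1 / 2 : ℝ) with ha
    have ha1 : a < 1 := max_lt hl (by norm_num)
    have : D 1 < D a := by
      refine strictAntiOn_of_hasDerivWithinAt_neg (convex_Icc a 1)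
        (cD.mono (Icc_subset_Icc_left (le_trans (by norm_num) (le_max_right l _))))
        (f' := fun x => E x / x) ?_ ?_ ⟨le_rfl, ha1.le⟩ ⟨ha1.le, le_rfl⟩ ha1
      all_goals rw [interior_Icc]
      · exact fun x hx => (dD x ⟨lt_of_lt_of_le (by norm_num) ((le_max_right l _).trans hx.1.le),
          hx.2⟩).hasDerivWithinAt
      · exact fun x hx => div_neg_of_neg_of_pos (hls ⟨(le_max_left l _).trans_lt hx.1, hx.2.le⟩)
          (lt_of_lt_of_le (by norm_num) ((le_max_right l _).trans hx.1.le))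
    have h2 : D a ≤ D 1 := hmax ⟨le_trans (by norm_num) (le_max_right l _), ha1.le⟩
    linarith
  · rcases hm.1.eq_or_lt with hm0 | hm0
    · subst hm0; rw [D0]; linarith
    have hmI : m ∈ Ioo (0 : ℝ) 1 := ⟨hm0, hm1⟩
    have hE0 : E m = 0 := by
      have hloc : IsLocalMax D m := by
        filter_upwards [Icc_mem_nhds hm0 hm1] with x hx using hmax hx
      simpa [hm0.ne'] using hloc.hasDerivAt_eq_zero (dD m hmI)
    have hE' : E' m ≤ 0 := by
      by_contra hgt
      push Not at hgt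
      have h := (hasDerivAt_iff_tendsto_slope.1 (dE m hmI)).eventually_const_lt hgt
      have h' : ∀ᶠ x in 𝓝[>] m, 0 < slope E m x :=
        h.filter_mono (nhdsWithin_mono _ fun x hx => ne_of_gt hx)
      obtain ⟨u, hu, hus⟩ := mem_nhdsGT_iff_exists_Ioo_subset.1 h'
      have hc : m < min u 1 := lt_min hu hm1
      have := up m (min u 1) hm0.le hc (min_le_right _ _) fun x hx => by
        have h1 : 0 < slope E m x := hus ⟨hx.1, hx.2.trans_le (min_le_left _ _)⟩
        rw [slope_def_field, hE0, sub_zero] at h1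
        exact (div_pos_iff_of_pos_right (by linarith [hx.1])).1 h1
      have h2 : D (min u 1) ≤ D m := hmax ⟨hm0.le.trans hc.le, min_le_right _ _⟩
      linarith
    have h := heq m hmI
    rw [hE0] at h
    have h1 := hG m hmI
    have h2 : yf e m * ((1 - m ^ 2) * E' m) ≤ 0 :=
      mul_nonpos_of_nonneg_of_nonpos (yf_pos he hm0.le hm1.le).le
        (mul_nonpos_of_nonneg_of_nonpos (one_sub_sq_pos hm0.le hm1).le hE')
    have h3 : 6 * m * D m ≤ 2 * η * m ^ 2 := by nlinarith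
    have h4 : 6 * D m ≤ 2 * η * m := le_of_mul_le_mul_left (by linarith) hm0
    nlinarith [hm.2]

/-- Comparison with a trial pair. -/
theorem comparePin : ComparePin := by
  intro e he β v w hs B η k V W W' hη cV cW V0 hV3 hW3 hres hedge
  set D := fun t => v t - V t with hD
  set E := fun t => w t - W t with hE
  set E' := fun t => wDeriv e β (v t) (w t) t - W' t with hE'
  set G := fun t => yf e t * ((1 - t ^ 2) * E' t - 3 * t * E t) - 6 * t * D t with hG
  have W0 : W 0 = 0 := by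
    have hm0 : 𝓝[>] (0 : ℝ) ≤ 𝓝[Icc 0 1] 0 :=
      nhdsWithin_le_iff.2 (mem_of_superset (Ioo_mem_nhdsGT zero_lt_one) Ioo_subset_Icc_self)
    have h2 : Tendsto (fun t => W t / t ^ 3 * t ^ 3) (𝓝[>] 0) (𝓝 0) := by
      simpa using hW3.mul (((continuous_pow 3).tendsto (0 : ℝ)).mono_left
        (nhdsWithin_le_nhds (s := Ioi 0)))
    refine tendsto_nhds_unique ((cW 0 ⟨le_rfl, zero_le_one⟩).tendsto.mono_left hm0)
      (h2.congr' ?_)
    filter_upwards [self_mem_nhdsWithin] with t ht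
    have : t ≠ 0 := ne_of_gt ht
    field_simp
  have cD : ContinuousOn D (Icc 0 1) := hs.cont_v.sub cV
  have cE : ContinuousOn E (Icc 0 1) := hs.cont_w.sub cW
  have D0 : D 0 = 0 := by simp [hD, hs.zero_v, V0]
  have E0 : E 0 = 0 := by simp [hE, hs.zero_w, W0]
  have dD : ∀ t ∈ Ioo (0 : ℝ) 1, HasDerivAt D (E t / t) t := fun t ht =>
    ((hs.deriv_v t ht).fun_sub (hres t ht).1).congr_deriv (by simp only [hE]; ring)
  have dE : ∀ t ∈ Ioo (0 : ℝ) 1, HasDerivAt E (E' t) t := fun t ht =>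
    (hs.deriv_w t ht).fun_sub (hres t ht).2.1
  have heq : ∀ t ∈ Ioo (0 : ℝ) 1,
      yf e t * ((1 - t ^ 2) * E' t - 3 * t * E t) = 6 * t * D t + G t := fun t _ => by
    simp only [hG]; ring
  have hGb : ∀ t ∈ Ioo (0 : ℝ) 1, |G t - 2 * (β - B) * t ^ 2| ≤ η * t ^ 2 := by
    intro t ht
    have hy := (yf_pos he ht.1.le ht.2.le).ne'
    have hd := (one_sub_sq_pos ht.1.le ht.2).ne'
    refine le_of_eq_of_le ?_ (hres t ht).2.2
    rw [← abs_neg]
    congr 1
    simp only [hG, hE', hE, hD, wDeriv, src]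
    field_simp
    ring
  set G1 := -(6 * D 1) - 3 * yf e 1 * E 1 with hG1
  have hG1b : |G1 - 2 * (β - B)| ≤ η := by
    refine le_of_eq_of_le ?_ hedge
    rw [← abs_neg]
    congr 1
    have h := hs.edge
    rw [div_add' _ _ _ (yf_pos he zero_le_one le_rfl).ne', div_eq_zero_iff] at h
    have h' := h.resolve_right (yf_pos he zero_le_one le_rfl).ne'
    simp only [hG1, hD, hE, src] at *
    linarith
  obtain ⟨kv', hv3, -⟩ := hs.origin
  have hD3 : ∃ k', Tendsto (fun t => D t / t ^ 3) (𝓝[>] 0) (𝓝 k') :=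
    ⟨kv' - k, (hv3.sub hV3).congr fun t => by simp only [hD]; rw [sub_div]⟩
  have dDn : ∀ t ∈ Ioo (0 : ℝ) 1, HasDerivAt (fun x => -D x) (-E t / t) t := fun t ht =>
    (dD t ht).neg.congr_deriv (neg_div _ _).symm
  have hd : |β - B| ≤ η / 2 := by
    rw [abs_le]
    constructor <;> by_contra hlt <;> push Not at hlt
    · refine beta_aux he (D := fun x => -D x) (E := fun x => -E x) (E' := fun x => -E' x)
        (G := fun x => -G x) cE.neg (by simp [E0]) cD.neg (by simp [D0])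
        (δ := -2 * (β - B) - η) (by linarith) (fun t ht => ?_) ?_ dDn
        (fun t ht => (dE t ht).neg) (fun t ht => by linarith [heq t ht])
      · have := abs_le.1 (hGb t ht)
        nlinarith
      · obtain ⟨k', hk'⟩ := hD3
        exact ⟨-k', hk'.neg.congr fun t => by simp [neg_div]⟩
    · refine beta_aux he cE E0 cD D0 (δ := 2 * (β - B) - η) (by linarith) (fun t ht => ?_) hD3
        dD dE heq
      have := abs_le.1 (hGb t ht)
      nlinarith
  refine ⟨hd, fun t ht => abs_le.2 ⟨?_, ?_⟩⟩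
  · have h := max_aux (G1 := -G1) he hη (D := fun x => -D x) (E := fun x => -E x)
      (E' := fun x => -E' x) (G := fun x => -G x) cD.neg cE.neg (by simp [D0]) dDn
      (fun t ht => (dE t ht).neg) (fun t ht => by linarith [heq t ht])
      (fun x hx => by
        have := abs_le.1 (hGb x hx)
        have := mul_le_mul_of_nonneg_right (abs_le.1 hd).2 (sq_nonneg x)
        linarith)
      (by have := abs_le.1 hG1b; linarith [(abs_le.1 hd).2])
      (by simp only [hG1]; ring) t ht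
    simp only [hD] at h
    linarith
  · exact max_aux (G1 := G1) he hη cD cE D0 dD dE heq
      (fun x hx => by
        have := abs_le.1 (hGb x hx)
        have := mul_le_mul_of_nonneg_right (abs_le.1 hd).1 (sq_nonneg x)
        linarith)
      (by have := abs_le.1 hG1b; linarith [(abs_le.1 hd).1])
      (by simp only [hG1]; ring) t ht

/-- The value of `β` is unique. -/
theorem Sol.beta_unique {e β β' : ℝ} {v w v' w' : ℝ → ℝ} (he : e ∈ Ioo (0 : ℝ) 1)
    (h : Sol e β v w) (h' : Sol e β' v' w') : β = β' := by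
  obtain ⟨k, h1, h2⟩ := h'.origin
  have hy := yf_pos he zero_le_one le_rfl
  have key := (comparePin e he β v w h β' 0 k v' w' (fun t => wDeriv e β' (v' t) (w' t) t) le_rfl
    h'.cont_v h'.cont_w h'.zero_v h1 h2 (fun t ht => ⟨h'.deriv_v t ht, h'.deriv_w t ht, by
      have hy' := (yf_pos he ht.1.le ht.2.le).ne'
      have hd := (one_sub_sq_pos ht.1.le ht.2).ne'
      rw [zero_mul, wDeriv, mul_div_cancel₀ _ hd, add_sub_cancel_right,
        mul_div_cancel₀ _ hy', sub_self, abs_zero]⟩) (by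
      have h3 := h'.edge
      rw [div_add' _ _ _ hy.ne', div_eq_zero_iff] at h3
      have h4 := h3.resolve_right hy.ne'
      rw [abs_le]; constructor <;> linarith)).1
  have := abs_le.1 key
  linarith

end Vale.Agent.P219.CH.Relax.Four
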