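import Mathlib

/-!
# P219, dimension four: the polynomial inequalities beyond the diameter

In `p = tanh R * coth r` and `n = tanh R / sinh r`, after clearing denominators and scaling the
triangle to the unit square. Each is checked in the Bernstein basis.
-/

noncomputable section

open Set

namespace Vale.Agent.P219.CH.Relax.Four.Out

def slopeA (a b : ℝ) : ℝ :=
  (9 / 2) + (-15 / 4) * a + (-3 / 2) * a * b ^ 2 + (3 / 4) * a ^ 2 + (-3 / 4) * a ^ 2 * b ^ 2 + (9 / 2) * a ^ 2 * b ^ 3 + (-3 / 4) * a ^ 3 * b ^ 3 + (-3 / 4) * a ^ 4 * b ^ 3 + (3 / 2) * a ^ 4 * b ^ 5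

def slopeB (a b : ℝ) : ℝ :=
  (3 / 2) + (3 / 4) * a + -3 * a * b ^ 2 + (-3 / 4) * a ^ 2 + (3 / 4) * a ^ 2 * b ^ 2 + (15 / 4) * a ^ 3 * b ^ 3 + (-3 / 4) * a ^ 4 * b ^ 3 + (3 / 2) * a ^ 4 * b ^ 5

def valueV (a b : ℝ) : ℝ :=
  (1 / 2) + (-1 / 4) * a + (-3 / 2) * a * b + (1 / 4) * a * b ^ 2 + (29 / 16) * a ^ 2 * b + (-3 / 16) * a ^ 2 * b ^ 3 + (-41 / 16) * a ^ 3 * b + (15 / 16) * a ^ 3 * b ^ 3 + (183 / 64) * a ^ 4 * b + (-11 / 8) * a ^ 4 * b ^ 3 + (1 / 64) * a ^ 4 * b ^ 5 + -1 * a ^ 5 * b + (5 / 4) * a ^ 5 * b ^ 3 + (-1 / 4) * a ^ 5 * b ^ 5 + (7 / 64) * a ^ 6 * b + (-15 / 64) * a ^ 6 * b ^ 3 + (9 / 64) * a ^ 6 * b ^ 5 + (-1 / 64) * a ^ 6 * b ^ 7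

lemma slopeA_box {a b : ℝ} (ha : a ∈ Icc (0 : ℝ) 1) (hb : b ∈ Icc (0 : ℝ) 1) :
    0 ≤ slopeA a b := by
  obtain ⟨a', ha', rfl⟩ : ∃ a', 0 ≤ a' ∧ a = 1 - a' := ⟨1 - a, by linarith [ha.2], by ring⟩
  obtain ⟨b', hb', rfl⟩ : ∃ b', 0 ≤ b' ∧ b = 1 - b' := ⟨1 - b, by linarith [hb.2], by ring⟩
  obtain ⟨ha0, -⟩ := ha
  obtain ⟨hb0, -⟩ := hb
  have key : slopeA (1 - a') (1 - b') =
      (9 / 2) * a' ^ 4 * b' ^ 5 + (45 / 2) * a' ^ 4 * (1 - b') * b' ^ 4 + 45 * a' ^ 4 * (1 - b') ^ 2 * b' ^ 3 +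
      45 * a' ^ 4 * (1 - b') ^ 3 * b' ^ 2 + (45 / 2) * a' ^ 4 * (1 - b') ^ 4 * b' + (9 / 2) * a' ^ 4 * (1 - b') ^ 5 +
      (57 / 4) * (1 - a') * a' ^ 3 * b' ^ 5 + (285 / 4) * (1 - a') * a' ^ 3 * (1 - b') * b' ^ 4 +
      141 * (1 - a') * a' ^ 3 * (1 - b') ^ 2 * b' ^ 3 + 138 * (1 - a') * a' ^ 3 * (1 - b') ^ 3 * b' ^ 2 +
      (267 / 4) * (1 - a') * a' ^ 3 * (1 - b') ^ 4 * b' + (51 / 4) * (1 - a') * a' ^ 3 * (1 - b') ^ 5 +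
      (33 / 2) * (1 - a') ^ 2 * a' ^ 2 * b' ^ 5 + (165 / 2) * (1 - a') ^ 2 * a' ^ 2 * (1 - b') * b' ^ 4 +
      (639 / 4) * (1 - a') ^ 2 * a' ^ 2 * (1 - b') ^ 2 * b' ^ 3 + (615 / 4) * (1 - a') ^ 2 * a' ^ 2 * (1 - b') ^ 3 * b' ^ 2 +
      (303 / 4) * (1 - a') ^ 2 * a' ^ 2 * (1 - b') ^ 4 * b' + (63 / 4) * (1 - a') ^ 2 * a' ^ 2 * (1 - b') ^ 5 +
      (33 / 4) * (1 - a') ^ 3 * a' * b' ^ 5 + (165 / 4) * (1 - a') ^ 3 * a' * (1 - b') * b' ^ 4 +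
      (153 / 2) * (1 - a') ^ 3 * a' * (1 - b') ^ 2 * b' ^ 3 + (291 / 4) * (1 - a') ^ 3 * a' * (1 - b') ^ 3 * b' ^ 2 +
      (159 / 4) * (1 - a') ^ 3 * a' * (1 - b') ^ 4 * b' + (21 / 2) * (1 - a') ^ 3 * a' * (1 - b') ^ 5 +
      (3 / 2) * (1 - a') ^ 4 * b' ^ 5 + (15 / 2) * (1 - a') ^ 4 * (1 - b') * b' ^ 4 +
      (51 / 4) * (1 - a') ^ 4 * (1 - b') ^ 2 * b' ^ 3 + (45 / 4) * (1 - a') ^ 4 * (1 - b') ^ 3 * b' ^ 2 +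
      (27 / 4) * (1 - a') ^ 4 * (1 - b') ^ 4 * b' + (15 / 4) * (1 - a') ^ 4 * (1 - b') ^ 5 := by
    simp only [slopeA]
    ring
  rw [key]
  generalize 1 - a' = a at ha0 ⊢
  generalize 1 - b' = b at hb0 ⊢
  positivity

lemma slopeB_box {a b : ℝ} (ha : a ∈ Icc (0 : ℝ) 1) (hb : b ∈ Icc (0 : ℝ) 1) :
    0 ≤ slopeB a b := by
  obtain ⟨a', ha', rfl⟩ : ∃ a', 0 ≤ a' ∧ a = 1 - a' := ⟨1 - a, by linarith [ha.2], by ring⟩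
  obtain ⟨b', hb', rfl⟩ : ∃ b', 0 ≤ b' ∧ b = 1 - b' := ⟨1 - b, by linarith [hb.2], by ring⟩
  obtain ⟨ha0, -⟩ := ha
  obtain ⟨hb0, -⟩ := hb
  have key : slopeB (1 - a') (1 - b') =
      (3 / 2) * a' ^ 4 * b' ^ 5 + (15 / 2) * a' ^ 4 * (1 - b') * b' ^ 4 + 15 * a' ^ 4 * (1 - b') ^ 2 * b' ^ 3 +
      15 * a' ^ 4 * (1 - b') ^ 3 * b' ^ 2 + (15 / 2) * a' ^ 4 * (1 - b') ^ 4 * b' + (3 / 2) * a' ^ 4 * (1 - b') ^ 5 +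
      (27 / 4) * (1 - a') * a' ^ 3 * b' ^ 5 + (135 / 4) * (1 - a') * a' ^ 3 * (1 - b') * b' ^ 4 +
      (129 / 2) * (1 - a') * a' ^ 3 * (1 - b') ^ 2 * b' ^ 3 + (117 / 2) * (1 - a') * a' ^ 3 * (1 - b') ^ 3 * b' ^ 2 +
      (99 / 4) * (1 - a') * a' ^ 3 * (1 - b') ^ 4 * b' + (15 / 4) * (1 - a') * a' ^ 3 * (1 - b') ^ 5 +
      (21 / 2) * (1 - a') ^ 2 * a' ^ 2 * b' ^ 5 + (105 / 2) * (1 - a') ^ 2 * a' ^ 2 * (1 - b') * b' ^ 4 +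
      (387 / 4) * (1 - a') ^ 2 * a' ^ 2 * (1 - b') ^ 2 * b' ^ 3 + (321 / 4) * (1 - a') ^ 2 * a' ^ 2 * (1 - b') ^ 3 * b' ^ 2 +
      (111 / 4) * (1 - a') ^ 2 * a' ^ 2 * (1 - b') ^ 4 * b' + (9 / 4) * (1 - a') ^ 2 * a' ^ 2 * (1 - b') ^ 5 +
      (27 / 4) * (1 - a') ^ 3 * a' * b' ^ 5 + (135 / 4) * (1 - a') ^ 3 * a' * (1 - b') * b' ^ 4 +
      60 * (1 - a') ^ 3 * a' * (1 - b') ^ 2 * b' ^ 3 + (195 / 4) * (1 - a') ^ 3 * a' * (1 - b') ^ 3 * b' ^ 2 +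
      (75 / 4) * (1 - a') ^ 3 * a' * (1 - b') ^ 4 * b' + 3 * (1 - a') ^ 3 * a' * (1 - b') ^ 5 + (3 / 2) * (1 - a') ^ 4 * b' ^ 5 +
      (15 / 2) * (1 - a') ^ 4 * (1 - b') * b' ^ 4 + (51 / 4) * (1 - a') ^ 4 * (1 - b') ^ 2 * b' ^ 3 +
      (45 / 4) * (1 - a') ^ 4 * (1 - b') ^ 3 * b' ^ 2 + (27 / 4) * (1 - a') ^ 4 * (1 - b') ^ 4 * b' +
      (15 / 4) * (1 - a') ^ 4 * (1 - b') ^ 5 := by
    simp only [slopeB]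
    ring
  rw [key]
  generalize 1 - a' = a at ha0 ⊢
  generalize 1 - b' = b at hb0 ⊢
  positivity

lemma valueV_box₁_row0 {a : ℝ} (h₀ : 0 ≤ a) (h₁ : 0 ≤ 1 - a) :
    0 ≤ (1 / 2) + (-1 / 8) * a := by
  refine le_of_le_of_eq (b := (1 / 2) * a ^ 0 * (1 - a) ^ 6 + (23 / 8) * a ^ 1 * (1 - a) ^ 5 +
      (55 / 8) * a ^ 2 * (1 - a) ^ 4 + (35 / 4) * a ^ 3 * (1 - a) ^ 3 +
      (25 / 4) * a ^ 4 * (1 - a) ^ 2 + (19 / 8) * a ^ 5 * (1 - a) ^ 1 +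
      (3 / 8) * a ^ 6 * (1 - a) ^ 0) ?_ (by ring)
  positivity

lemma valueV_box₁_row1 {a : ℝ} (h₀ : 0 ≤ a) (h₁ : 0 ≤ 1 - a) :
    0 ≤ (7 / 2) + (-13 / 8) * a + (29 / 64) * a ^ 2 + (-41 / 128) * a ^ 3 + (183 / 1024) * a ^ 4 +
      (-1 / 32) * a ^ 5 + (7 / 4096) * a ^ 6 := by
  refine le_of_le_of_eq (b := (7 / 2) * a ^ 0 * (1 - a) ^ 6 + (155 / 8) * a ^ 1 * (1 - a) ^ 5 +
      (2869 / 64) * a ^ 2 * (1 - a) ^ 4 + (7071 / 128) * a ^ 3 * (1 - a) ^ 3 +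
      (39103 / 1024) * a ^ 4 * (1 - a) ^ 2 + (7195 / 512) * a ^ 5 * (1 - a) ^ 1 +
      (8835 / 4096) * a ^ 6 * (1 - a) ^ 0) ?_ (by ring)
  positivity

lemma valueV_box₁_row2 {a : ℝ} (h₀ : 0 ≤ a) (h₁ : 0 ≤ 1 - a) :
    0 ≤ (21 / 2) + -7 * a + (87 / 32) * a ^ 2 + (-123 / 64) * a ^ 3 + (549 / 512) * a ^ 4 +
      (-3 / 16) * a ^ 5 + (21 / 2048) * a ^ 6 := by
  refine le_of_le_of_eq (b := (21 / 2) * a ^ 0 * (1 - a) ^ 6 + 56 * a ^ 1 * (1 - a) ^ 5 +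
      (4007 / 32) * a ^ 2 * (1 - a) ^ 4 + (9533 / 64) * a ^ 3 * (1 - a) ^ 3 +
      (50749 / 512) * a ^ 4 * (1 - a) ^ 2 + (8977 / 256) * a ^ 5 * (1 - a) ^ 1 +
      (10633 / 2048) * a ^ 6 * (1 - a) ^ 0) ?_ (by ring)
  positivity

lemma valueV_box₁_row3 {a : ℝ} (h₀ : 0 ≤ a) (h₁ : 0 ≤ 1 - a) :
    0 ≤ (35 / 2) + -15 * a + (27 / 4) * a ^ 2 + (-75 / 16) * a ^ 3 + (2657 / 1024) * a ^ 4 +
      (-55 / 128) * a ^ 5 + (45 / 2048) * a ^ 6 := by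
  refine le_of_le_of_eq (b := (35 / 2) * a ^ 0 * (1 - a) ^ 6 + 90 * a ^ 1 * (1 - a) ^ 5 + (777 / 4) * a ^ 2 * (1 - a) ^ 4 +
      (3557 / 16) * a ^ 3 * (1 - a) ^ 3 + (144929 / 1024) * a ^ 4 * (1 - a) ^ 2 +
      (24421 / 512) * a ^ 5 * (1 - a) ^ 1 + (13823 / 2048) * a ^ 6 * (1 - a) ^ 0) ?_ (by ring)
  positivity

lemma valueV_box₁_row4 {a : ℝ} (h₀ : 0 ≤ a) (h₁ : 0 ≤ 1 - a) :
    0 ≤ (35 / 2) + (-145 / 8) * a + (71 / 8) * a ^ 2 + (-95 / 16) * a ^ 3 + (827 / 256) * a ^ 4 +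
      (-15 / 32) * a ^ 5 + (5 / 256) * a ^ 6 := by
  refine le_of_le_of_eq (b := (35 / 2) * a ^ 0 * (1 - a) ^ 6 + (695 / 8) * a ^ 1 * (1 - a) ^ 5 +
      (723 / 4) * a ^ 2 * (1 - a) ^ 4 + (3173 / 16) * a ^ 3 * (1 - a) ^ 3 +
      (30699 / 256) * a ^ 4 * (1 - a) ^ 2 + (4871 / 128) * a ^ 5 * (1 - a) ^ 1 +
      (163 / 32) * a ^ 6 * (1 - a) ^ 0) ?_ (by ring)
  positivity

lemma valueV_box₁_row5 {a : ℝ} (h₀ : 0 ≤ a) (h₁ : 0 ≤ 1 - a) :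
    0 ≤ (21 / 2) + (-101 / 8) * a + (417 / 64) * a ^ 2 + (-525 / 128) * a ^ 3 +
      (1109 / 512) * a ^ 4 + (-31 / 128) * a ^ 5 + (3 / 512) * a ^ 6 := by
  refine le_of_le_of_eq (b := (21 / 2) * a ^ 0 * (1 - a) ^ 6 + (403 / 8) * a ^ 1 * (1 - a) ^ 5 +
      (6457 / 64) * a ^ 2 * (1 - a) ^ 4 + (13531 / 128) * a ^ 3 * (1 - a) ^ 3 +
      (30825 / 512) * a ^ 4 * (1 - a) ^ 2 + (4537 / 256) * a ^ 5 * (1 - a) ^ 1 +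
      (71 / 32) * a ^ 6 * (1 - a) ^ 0) ?_ (by ring)
  positivity

lemma valueV_box₁_row6 {a : ℝ} (h₀ : 0 ≤ a) (h₁ : 0 ≤ 1 - a) :
    0 ≤ (7 / 2) + (-19 / 4) * a + (81 / 32) * a ^ 2 + (-93 / 64) * a ^ 3 + (187 / 256) * a ^ 4 +
      (-3 / 64) * a ^ 5 := by
  refine le_of_le_of_eq (b := (7 / 2) * a ^ 0 * (1 - a) ^ 6 + (65 / 4) * a ^ 1 * (1 - a) ^ 5 +
      (1001 / 32) * a ^ 2 * (1 - a) ^ 4 + (1995 / 64) * a ^ 3 * (1 - a) ^ 3 +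
      (4239 / 256) * a ^ 4 * (1 - a) ^ 2 + (567 / 128) * a ^ 5 * (1 - a) ^ 1 +
      (131 / 256) * a ^ 6 * (1 - a) ^ 0) ?_ (by ring)
  positivity

lemma valueV_box₁_row7 {a : ℝ} (h₀ : 0 ≤ a) (h₁ : 0 ≤ 1 - a) :
    0 ≤ (1 / 2) + (-3 / 4) * a + (13 / 32) * a ^ 2 + (-13 / 64) * a ^ 3 + (3 / 32) * a ^ 4 := by
  refine le_of_le_of_eq (b := (1 / 2) * a ^ 0 * (1 - a) ^ 6 + (9 / 4) * a ^ 1 * (1 - a) ^ 5 +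
      (133 / 32) * a ^ 2 * (1 - a) ^ 4 + (251 / 64) * a ^ 3 * (1 - a) ^ 3 +
      (123 / 64) * a ^ 4 * (1 - a) ^ 2 + (29 / 64) * a ^ 5 * (1 - a) ^ 1 +
      (3 / 64) * a ^ 6 * (1 - a) ^ 0) ?_ (by ring)
  positivity

lemma valueV_box₁ {a b : ℝ} (ha : a ∈ Icc (0 : ℝ) 1) (hb : b ∈ Icc (0 : ℝ) 1) :
    0 ≤ valueV (a / 2) b := by
  have h₀ := ha.1
  have h₁ : 0 ≤ 1 - a := sub_nonneg.2 ha.2
  have k₀ := hb.1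
  have k₁ : 0 ≤ 1 - b := sub_nonneg.2 hb.2
  have r0 := mul_nonneg (mul_nonneg (valueV_box₁_row0 h₀ h₁) (pow_nonneg k₀ 0)) (pow_nonneg k₁ 7)
  have r1 := mul_nonneg (mul_nonneg (valueV_box₁_row1 h₀ h₁) (pow_nonneg k₀ 1)) (pow_nonneg k₁ 6)
  have r2 := mul_nonneg (mul_nonneg (valueV_box₁_row2 h₀ h₁) (pow_nonneg k₀ 2)) (pow_nonneg k₁ 5)
  have r3 := mul_nonneg (mul_nonneg (valueV_box₁_row3 h₀ h₁) (pow_nonneg k₀ 3)) (pow_nonneg k₁ 4)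
  have r4 := mul_nonneg (mul_nonneg (valueV_box₁_row4 h₀ h₁) (pow_nonneg k₀ 4)) (pow_nonneg k₁ 3)
  have r5 := mul_nonneg (mul_nonneg (valueV_box₁_row5 h₀ h₁) (pow_nonneg k₀ 5)) (pow_nonneg k₁ 2)
  have r6 := mul_nonneg (mul_nonneg (valueV_box₁_row6 h₀ h₁) (pow_nonneg k₀ 6)) (pow_nonneg k₁ 1)
  have r7 := mul_nonneg (mul_nonneg (valueV_box₁_row7 h₀ h₁) (pow_nonneg k₀ 7)) (pow_nonneg k₁ 0)
  simp only [valueV]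
  linear_combination r0 + r1 + r2 + r3 + r4 + r5 + r6 + r7

lemma valueV_box₂_row0 {a : ℝ} (h₀ : 0 ≤ a) (h₁ : 0 ≤ 1 - a) :
    0 ≤ (3 / 8) + (-1 / 8) * a := by
  refine le_of_le_of_eq (b := (3 / 8) * a ^ 0 * (1 - a) ^ 6 + (17 / 8) * a ^ 1 * (1 - a) ^ 5 + 5 * a ^ 2 * (1 - a) ^ 4 +
      (25 / 4) * a ^ 3 * (1 - a) ^ 3 + (35 / 8) * a ^ 4 * (1 - a) ^ 2 +
      (13 / 8) * a ^ 5 * (1 - a) ^ 1 + (1 / 4) * a ^ 6 * (1 - a) ^ 0) ?_ (by ring)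
  positivity

lemma valueV_box₂_row1 {a : ℝ} (h₀ : 0 ≤ a) (h₁ : 0 ≤ 1 - a) :
    0 ≤ (8835 / 4096) + (-2275 / 2048) * a + (1137 / 4096) * a ^ 2 + (119 / 1024) * a ^ 3 +
      (197 / 4096) * a ^ 4 + (-43 / 2048) * a ^ 5 + (7 / 4096) * a ^ 6 := by
  refine le_of_le_of_eq (b := (8835 / 4096) * a ^ 0 * (1 - a) ^ 6 + (12115 / 1024) * a ^ 1 * (1 - a) ^ 5 +
      (1733 / 64) * a ^ 2 * (1 - a) ^ 4 + (4257 / 128) * a ^ 3 * (1 - a) ^ 3 +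
      (5967 / 256) * a ^ 4 * (1 - a) ^ 2 + (571 / 64) * a ^ 5 * (1 - a) ^ 1 +
      (47 / 32) * a ^ 6 * (1 - a) ^ 0) ?_ (by ring)
  positivity

lemma valueV_box₂_row2 {a : ℝ} (h₀ : 0 ≤ a) (h₁ : 0 ≤ 1 - a) :
    0 ≤ (10633 / 2048) + (-4009 / 1024) * a + (3411 / 2048) * a ^ 2 + (357 / 512) * a ^ 3 +
      (591 / 2048) * a ^ 4 + (-129 / 1024) * a ^ 5 + (21 / 2048) * a ^ 6 := by
  refine le_of_le_of_eq (b := (10633 / 2048) * a ^ 0 * (1 - a) ^ 6 + (13945 / 512) * a ^ 1 * (1 - a) ^ 5 +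
      (1919 / 32) * a ^ 2 * (1 - a) ^ 4 + (4611 / 64) * a ^ 3 * (1 - a) ^ 3 +
      (6541 / 128) * a ^ 4 * (1 - a) ^ 2 + (665 / 32) * a ^ 5 * (1 - a) ^ 1 +
      (61 / 16) * a ^ 6 * (1 - a) ^ 0) ?_ (by ring)
  positivity

lemma valueV_box₂_row3 {a : ℝ} (h₀ : 0 ≤ a) (h₁ : 0 ≤ 1 - a) :
    0 ≤ (13823 / 2048) + (-7373 / 1024) * a + (8783 / 2048) * a ^ 2 + (939 / 512) * a ^ 3 +
      (1589 / 2048) * a ^ 4 + (-305 / 1024) * a ^ 5 + (45 / 2048) * a ^ 6 := by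
  refine le_of_le_of_eq (b := (13823 / 2048) * a ^ 0 * (1 - a) ^ 6 + (2131 / 64) * a ^ 1 * (1 - a) ^ 5 +
      (71199 / 1024) * a ^ 2 * (1 - a) ^ 4 + (10493 / 128) * a ^ 3 * (1 - a) ^ 3 +
      (245 / 4) * a ^ 4 * (1 - a) ^ 2 + (909 / 32) * a ^ 5 * (1 - a) ^ 1 +
      (395 / 64) * a ^ 6 * (1 - a) ^ 0) ?_ (by ring)
  positivity

lemma valueV_box₂_row4 {a : ℝ} (h₀ : 0 ≤ a) (h₁ : 0 ≤ 1 - a) :
    0 ≤ (163 / 32) + (-959 / 128) * a + (1549 / 256) * a ^ 2 + (43 / 16) * a ^ 3 +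
      (151 / 128) * a ^ 4 + (-45 / 128) * a ^ 5 + (5 / 256) * a ^ 6 := by
  refine le_of_le_of_eq (b := (163 / 32) * a ^ 0 * (1 - a) ^ 6 + (2953 / 128) * a ^ 1 * (1 - a) ^ 5 +
      (11519 / 256) * a ^ 2 * (1 - a) ^ 4 + (1723 / 32) * a ^ 3 * (1 - a) ^ 3 +
      (1505 / 32) * a ^ 4 * (1 - a) ^ 2 + (219 / 8) * a ^ 5 * (1 - a) ^ 1 +
      (115 / 16) * a ^ 6 * (1 - a) ^ 0) ?_ (by ring)
  positivity

lemma valueV_box₂_row5 {a : ℝ} (h₀ : 0 ≤ a) (h₁ : 0 ≤ 1 - a) :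
    0 ≤ (71 / 32) + (-1129 / 256) * a + (2495 / 512) * a ^ 2 + (289 / 128) * a ^ 3 +
      (267 / 256) * a ^ 4 + (-53 / 256) * a ^ 5 + (3 / 512) * a ^ 6 := by
  refine le_of_le_of_eq (b := (71 / 32) * a ^ 0 * (1 - a) ^ 6 + (2279 / 256) * a ^ 1 * (1 - a) ^ 5 +
      (8245 / 512) * a ^ 2 * (1 - a) ^ 4 + (2819 / 128) * a ^ 3 * (1 - a) ^ 3 +
      (1679 / 64) * a ^ 4 * (1 - a) ^ 2 + (621 / 32) * a ^ 5 * (1 - a) ^ 1 +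
      (185 / 32) * a ^ 6 * (1 - a) ^ 0) ?_ (by ring)
  positivity

lemma valueV_box₂_row6 {a : ℝ} (h₀ : 0 ≤ a) (h₁ : 0 ≤ 1 - a) :
    0 ≤ (131 / 256) + (-87 / 64) * a + (267 / 128) * a ^ 2 + 1 * a ^ 3 + (127 / 256) * a ^ 4 +
      (-3 / 64) * a ^ 5 := by
  refine le_of_le_of_eq (b := (131 / 256) * a ^ 0 * (1 - a) ^ 6 + (219 / 128) * a ^ 1 * (1 - a) ^ 5 +
      (759 / 256) * a ^ 2 * (1 - a) ^ 4 + (383 / 64) * a ^ 3 * (1 - a) ^ 3 +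
      (323 / 32) * a ^ 4 * (1 - a) ^ 2 + (137 / 16) * a ^ 5 * (1 - a) ^ 1 +
      (43 / 16) * a ^ 6 * (1 - a) ^ 0) ?_ (by ring)
  positivity

lemma valueV_box₂_row7 {a : ℝ} (h₀ : 0 ≤ a) (h₁ : 0 ≤ 1 - a) :
    0 ≤ (3 / 64) + (-11 / 64) * a + (23 / 64) * a ^ 2 + (11 / 64) * a ^ 3 + (3 / 32) * a ^ 4 := by
  refine le_of_le_of_eq (b := (3 / 64) * a ^ 0 * (1 - a) ^ 6 + (7 / 64) * a ^ 1 * (1 - a) ^ 5 +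
      (13 / 64) * a ^ 2 * (1 - a) ^ 4 + (53 / 64) * a ^ 3 * (1 - a) ^ 3 +
      (7 / 4) * a ^ 4 * (1 - a) ^ 2 + (25 / 16) * a ^ 5 * (1 - a) ^ 1 +
      (1 / 2) * a ^ 6 * (1 - a) ^ 0) ?_ (by ring)
  positivity

lemma valueV_box₂ {a b : ℝ} (ha : a ∈ Icc (0 : ℝ) 1) (hb : b ∈ Icc (0 : ℝ) 1) :
    0 ≤ valueV (1 / 2 + a / 2) b := by
  have h₀ := ha.1
  have h₁ : 0 ≤ 1 - a := sub_nonneg.2 ha.2
  have k₀ := hb.1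
  have k₁ : 0 ≤ 1 - b := sub_nonneg.2 hb.2
  have r0 := mul_nonneg (mul_nonneg (valueV_box₂_row0 h₀ h₁) (pow_nonneg k₀ 0)) (pow_nonneg k₁ 7)
  have r1 := mul_nonneg (mul_nonneg (valueV_box₂_row1 h₀ h₁) (pow_nonneg k₀ 1)) (pow_nonneg k₁ 6)
  have r2 := mul_nonneg (mul_nonneg (valueV_box₂_row2 h₀ h₁) (pow_nonneg k₀ 2)) (pow_nonneg k₁ 5)
  have r3 := mul_nonneg (mul_nonneg (valueV_box₂_row3 h₀ h₁) (pow_nonneg k₀ 3)) (pow_nonneg k₁ 4)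
  have r4 := mul_nonneg (mul_nonneg (valueV_box₂_row4 h₀ h₁) (pow_nonneg k₀ 4)) (pow_nonneg k₁ 3)
  have r5 := mul_nonneg (mul_nonneg (valueV_box₂_row5 h₀ h₁) (pow_nonneg k₀ 5)) (pow_nonneg k₁ 2)
  have r6 := mul_nonneg (mul_nonneg (valueV_box₂_row6 h₀ h₁) (pow_nonneg k₀ 6)) (pow_nonneg k₁ 1)
  have r7 := mul_nonneg (mul_nonneg (valueV_box₂_row7 h₀ h₁) (pow_nonneg k₀ 7)) (pow_nonneg k₁ 0)
  simp only [valueV]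
  linear_combination r0 + r1 + r2 + r3 + r4 + r5 + r6 + r7

/-- The slope beyond the diameter. -/
theorem slope_poly {p n : ℝ} (hp : 0 < p) (hn : 0 ≤ n) (hnp : n ≤ p) (hnq : n ≤ 1 - p) :
    0 ≤ 9 * p * (1 - p) ^ 2 + 3 * (p ^ 2 - 2 * n ^ 2) * (1 - p) - 12 * p * n ^ 2
      + 12 * n ^ 3 * (3 + 2 * p) * (1 - p) + 48 * n ^ 5 := by
  rcases le_total p (1 / 2) with h | h
  · have hb := slopeA_box (a := 2 * p) (b := n / p) ⟨by linarith, by linarith⟩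
      ⟨div_nonneg hn hp.le, (div_le_one hp).2 hnp⟩
    refine le_of_le_of_eq (mul_nonneg hb (show (0 : ℝ) ≤ 2 * p by linarith)) ?_
    simp only [slopeA]
    field_simp
    ring
  · rcases (sub_nonneg.1 (hn.trans hnq)).lt_or_eq with h1 | h1
    · have hq : 0 < 1 - p := sub_pos.2 h1
      have hb := slopeB_box (a := 2 * (1 - p)) (b := n / (1 - p)) ⟨by linarith, by linarith⟩
        ⟨div_nonneg hn hq.le, (div_le_one hq).2 hnq⟩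
      refine le_of_le_of_eq (mul_nonneg hb (show (0 : ℝ) ≤ 2 * (1 - p) by linarith)) ?_
      simp only [slopeB]
      field_simp
      ring
    · subst h1
      have hn0 : n = 0 := le_antisymm (by linarith) hn
      subst hn0
      norm_num

/-- The value at cosine one beyond the diameter, with the volume coefficient at its least. -/
theorem value_poly {p n : ℝ} (hp : 1 / 2 ≤ p) (hp1 : p < 1) (hn : 0 ≤ n) (hnq : n ≤ 1 - p) :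
    0 ≤ (3 - 6 * p + 12 * n ^ 3) * (1 - p) +
      (1 - 2 * n * (3 / 2 - 7 / 4 * (p ^ 2 - n ^ 2) + (p ^ 2 - n ^ 2) ^ 2)) *
        ((7 * p - 3) * (1 - p) + n ^ 2) := by
  have hq : 0 < 1 - p := sub_pos.2 hp1
  have hb : n / (1 - p) ∈ Icc (0 : ℝ) 1 := ⟨div_nonneg hn hq.le, (div_le_one hq).2 hnq⟩
  have hv : 0 ≤ valueV (2 * (1 - p)) (n / (1 - p)) := by
    rcases le_total (2 * (1 - p)) (1 / 2) with h | h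
    · have := valueV_box₁ (a := 4 * (1 - p)) ⟨by linarith, by linarith⟩ hb
      rwa [show 4 * (1 - p) / 2 = 2 * (1 - p) by ring] at this
    · have := valueV_box₂ (a := 4 * (1 - p) - 1) ⟨by linarith, by linarith⟩ hb
      rwa [show 1 / 2 + (4 * (1 - p) - 1) / 2 = 2 * (1 - p) by ring] at this
  refine le_of_le_of_eq (mul_nonneg hv (show (0 : ℝ) ≤ 2 * (1 - p) by linarith)) ?_
  simp only [valueV]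
  field_simp
  ring

end Vale.Agent.P219.CH.Relax.Four.Out
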