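import Vale.Agent.P219.Relax.Four.AlgFacts
import Vale.Agent.P219.Relax.Four.Line
import Vale.Agent.P219.Relax.Four.OutPoly

/-!
# P219, dimension four: the facts beyond the diameter

With `p = tanh R * coth r`, `n = tanh R / sinh r` and `X = 1 - g / sinh r ^ 3` the coefficients are
algebraic; `g` is affine, between its edge value and a multiple of `sinh r ^ 2`.
-/

noncomputable section

open Set Filter Topology

namespace Vale.Agent.P219.CH.Relax.Four.Out

/-! ## The edge -/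

/-- What the bounds give at the diameter. -/
structure Edge (e β v₁ w₁ : ℝ) : Prop where
  e_pos : 0 < e
  e_lt : e < 1
  eq : 6 * v₁ * (1 - e) ^ 3 + 2 * β * (1 - e) ^ 3 + 3 * w₁ * (1 - e) ^ 4 = 24 * (1 + e)
  v_pos : 0 < v₁
  lo : (3 - e / 2) * v₁ ≤ (1 - e) * w₁
  hi : (1 - e) * w₁ ≤ (3 + e) * v₁
  beta_lo : 12 ≤ β
  beta_hi : β * (1 - e) ^ 3 ≤ 12 * (1 - e) ^ 3 + 9 / 4 * e * (1 - e) * (9 - 6 * e)
  cap : v₁ * (1 - e) ^ 3 ≤ 32 / 9
  slope : 0 ≤ 2 / (1 - e) ^ 3 + w₁ / 4 - 3 * v₁ / (4 * (1 - e))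

theorem edge_of {e β : ℝ} {v w : ℝ → ℝ} (he : e ∈ Ioo (0 : ℝ) 1) (hs : Sol e β v w)
    (hb : InBounds e β v w) : Edge e β (v 1) (w 1) := by
  have h1 : (1 : ℝ) ∈ Ioc (0 : ℝ) 1 := right_mem_Ioc.2 one_pos
  have hd : 0 < 1 - e := sub_pos.2 he.2
  obtain ⟨k, hk, hkv⟩ := hb.origin_pos
  have hE := hs.edge
  have hlo := hb.ratio_lo 1 h1
  have hhi := hb.ratio_hi 1 h1
  have hsl := hb.slope_nonneg 1 h1
  simp only [yf, src, slopeF, one_pow, mul_one] at hE hlo hhi hsl
  refine ⟨he.1, he.2, ?_, by linarith [hkv 1 h1], hlo, hhi, hb.beta_lo, hb.beta_hi,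
    Alg.edge_bound he hs hb, hsl⟩
  field_simp at hE
  linarith

variable {e β v₁ w₁ : ℝ}

/-- The constant of the linear upper bound on `g / sinh ^ 2`, over `1 - e`. -/
def muFac (e : ℝ) : ℝ := 3 / 2 - 7 / 4 * e + e ^ 2

lemma Edge.d_pos (h : Edge e β v₁ w₁) : 0 < 1 - e := sub_pos.2 h.e_lt

lemma Edge.beta_mu (h : Edge e β v₁ w₁) :
    β * (1 - e) ^ 3 ≤ 8 * (1 + e) * ((1 - e) * muFac e) := by
  refine h.beta_hi.trans ?_
  have hd := h.d_pos
  have h1 : 0 ≤ e * (7 / 4 - 9 / 2 * e + 8 * e ^ 2) :=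
    mul_nonneg h.e_pos.le (by nlinarith [sq_nonneg (e - 9 / 32)])
  rw [muFac]
  nlinarith [mul_nonneg hd.le h1]

lemma Edge.sigma_le_mu (h : Edge e β v₁ w₁) :
    1 - 3 * v₁ * (1 - e) ^ 3 / 8 ≤ (1 - e) * muFac e := by
  have hd := h.d_pos
  have he := h.e_pos
  have h1 := mul_le_mul_of_nonneg_left h.hi (show 0 ≤ 3 * (1 - e) ^ 3 by positivity)
  have h2 : (15 + 3 * e) * (v₁ * (1 - e) ^ 3) ≥ 24 * (1 + e) -
      2 * (12 * (1 - e) ^ 3 + 9 / 4 * e * (1 - e) * (9 - 6 * e)) := by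
    linarith [h.beta_hi, h.eq]
  have h3 : (15 + 3 * e) * (1 - (1 - e) * muFac e) ≤
      9 * (1 + e) - 3 / 4 * (12 * (1 - e) ^ 3 + 9 / 4 * e * (1 - e) * (9 - 6 * e)) := by
    rw [muFac]
    nlinarith [mul_nonneg he.le hd.le, mul_nonneg (mul_nonneg he.le hd.le) (sq_nonneg (e - 4 / 5)),
      mul_nonneg (mul_nonneg he.le hd.le) he.le, mul_nonneg (mul_nonneg he.le hd.le) hd.le,
      mul_nonneg (mul_nonneg he.le hd.le) (mul_nonneg he.le hd.le)]
  by_contra hc
  nlinarith [mul_lt_mul_of_pos_left (not_le.1 hc) (show (0 : ℝ) < 15 + 3 * e by linarith)]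

lemma Edge.sigma_small (h : Edge e β v₁ w₁) (he5 : e ≤ 1 / 5) :
    0 ≤ 1 - 3 * v₁ * (1 - e) ^ 3 / 8 := by
  have hd := h.d_pos
  have he := h.e_pos
  have h1 := mul_le_mul_of_nonneg_left h.lo (show 0 ≤ 3 * (1 - e) ^ 3 by positivity)
  have h2 : (15 - 3 / 2 * e) * (v₁ * (1 - e) ^ 3) ≤ 24 * (1 + e) - 24 * (1 - e) ^ 3 := by
    linarith [mul_le_mul_of_nonneg_right h.beta_lo (pow_nonneg hd.le 3), h.eq]
  nlinarith [mul_le_mul_of_nonneg_left he5 he.le, pow_nonneg he.le 3]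

/-! ## The algebraic variables beyond the diameter -/

/-- The variables at one distance. -/
structure Dom (e p n : ℝ) : Prop where
  p_pos : 0 < p
  n_pos : 0 < n
  rel : n ^ 2 = p ^ 2 - e
  p_le : p ≤ (1 + e) / 2
  p_lt : p < 1
  n_le : n ≤ (1 - e) / 2
  n_le_p : n ≤ p
  n_le_q : n ≤ 1 - p

lemma dom_mk {p n : ℝ} (he : 0 < e) (hp : 0 < p) (hn : 0 < n)
    (hrel : n ^ 2 = p ^ 2 - e) (hpe : p ≤ (1 + e) / 2) (hn2 : n ≤ (1 - e) / 2) : Dom e p n := by
  have hp1 : p < 1 := by linarith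
  refine ⟨hp, hn, hrel, hpe, hp1, hn2, ?_, ?_⟩
  · nlinarith
  · nlinarith

lemma Dom.ratio_le {p n : ℝ} (h : Dom e p n) (he : 0 < e) :
    n ^ 2 * (1 + e) ≤ p * (1 - e) * (1 - p) := by
  nlinarith [mul_nonneg (sub_nonneg.2 h.p_le) (add_nonneg h.p_pos.le he.le), h.rel]

lemma Dom.cube_le {p n : ℝ} (h : Dom e p n) (he : 0 < e) :
    8 * (1 - p) * n ^ 2 ≤ (1 - e) ^ 3 := by
  have hpT : e ≤ p ^ 2 := by nlinarith [h.rel, sq_nonneg n]
  have hb : 0 ≤ (1 + e) / 2 + p - (((1 + e) / 2) ^ 2 + (1 + e) / 2 * p + p ^ 2) + e := by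
    nlinarith [mul_nonneg (sub_nonneg.2 h.p_le) h.p_pos.le, h.p_lt, sq_nonneg (e - 1),
      mul_nonneg (sub_nonneg.2 h.p_le) (sub_nonneg.2 h.p_lt.le)]
  have h1 := mul_nonneg (sub_nonneg.2 h.p_le) hb
  rw [h.rel]
  linarith

/-- The value at cosine one is nonnegative. -/
lemma value_nonneg {p n X : ℝ} (h : Dom e p n) (hE : Edge e β v₁ w₁) (hX : 0 < X)
    (hlo : (1 - 3 * v₁ * (1 - e) ^ 3 / 8) * (2 * n / (1 - e)) ^ 3 ≤ 1 - X)
    (hhi : 1 - X ≤ 2 * n * muFac e) :
    0 ≤ 3 - 6 * p + β * n ^ 3 + X * (7 * p - 3 + n ^ 2 / (1 - p)) := by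
  have hq : 0 < 1 - p := sub_pos.2 h.p_lt
  have hn3 : 0 ≤ n ^ 3 := pow_nonneg h.n_pos.le 3
  have hb : 12 * n ^ 3 ≤ β * n ^ 3 := mul_le_mul_of_nonneg_right hE.beta_lo hn3
  have hn2 : 0 ≤ n ^ 2 / (1 - p) := by positivity
  rcases le_or_gt p (1 / 2) with hp | hp
  · rcases le_or_gt 0 (7 * p - 3 + n ^ 2 / (1 - p)) with hc | hc
    · nlinarith [mul_nonneg hX.le hc]
    · have he5 : e ≤ 1 / 5 := by nlinarith [h.rel, h.p_pos, sq_nonneg n]
      have hX1 : X ≤ 1 := by
        have := mul_nonneg (hE.sigma_small he5)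
          (pow_nonneg (div_nonneg (mul_nonneg two_pos.le h.n_pos.le) hE.d_pos.le) 3)
        linarith
      nlinarith [mul_nonneg (sub_nonneg.2 hX1) (neg_nonneg.2 hc.le), h.p_pos]
  · have hc : 0 ≤ 7 * p - 3 + n ^ 2 / (1 - p) := by linarith
    have key := value_poly hp.le h.p_lt h.n_pos.le h.n_le_q
    rw [show p ^ 2 - n ^ 2 = e by linarith [h.rel]] at key
    have key' : 0 ≤ 3 - 6 * p + 12 * n ^ 3 +
        (1 - 2 * n * muFac e) * (7 * p - 3 + n ^ 2 / (1 - p)) := by
      refine le_of_le_of_eq (div_nonneg key hq.le) ?_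
      rw [muFac]
      field_simp
    nlinarith [mul_le_mul_of_nonneg_right (show 1 - 2 * n * muFac e ≤ X by linarith) hc]

/-- The diagonal condition. -/
lemma mono_core {p h q : ℝ} (hh : 0 ≤ h) (h1 : h ≤ 2 * p) (h2 : 0 ≤ p - h + 2 * q) {c : ℝ}
    (hc : c ∈ Icc (0 : ℝ) 1) : 0 ≤ p - h * c + 2 * q * c ^ 2 := by
  nlinarith [mul_nonneg hh (sq_nonneg (1 - c)),
    mul_nonneg (show 0 ≤ p - h / 2 by linarith) (show 0 ≤ 1 - c ^ 2 by nlinarith [hc.1, hc.2]),
    mul_nonneg h2 (sq_nonneg c)]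

lemma gain_of {p h q g : ℝ} (hh : 0 ≤ h) (h1 : h ≤ 2 * p) (h2 : 0 ≤ p - h + 2 * q)
    (h3 : 0 ≤ p - h + q + g) : GainCond p h q g := by
  intro c hc d hd
  set x := (c + d) / 2 with hx
  have hx0 : 0 ≤ 1 - x ^ 2 := by nlinarith [hc.1, hc.2, hd.1, hd.2]
  have h4 : 0 ≤ p - h + (q + min q g) := by
    rcases le_total q g with h' | h'
    · rw [min_eq_left h']; linarith
    · rw [min_eq_right h']; linarith
  have hq : 0 ≤ p - h * x + (q + min q g) * x ^ 2 := by
    nlinarith [mul_nonneg hh (sq_nonneg (1 - x)),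
      mul_nonneg (show 0 ≤ p - h / 2 by linarith) hx0, mul_nonneg h4 (sq_nonneg x)]
  have e2 := mul_le_mul_of_nonneg_right (min_le_right q g) (mul_nonneg hc.1 hd.1)
  have e3 := mul_le_mul_of_nonneg_right (min_le_left q g) (sq_nonneg (c - d))
  rw [hx] at hq
  linarith

/-! ## Along the distance -/

/-- A function with nonnegative derivative from a point on grows. -/
lemma mono_from {f f' : ℝ → ℝ} {r₀ : ℝ} (hd : ∀ x, r₀ ≤ x → HasDerivAt f (f' x) x)
    (hf : ∀ x, r₀ ≤ x → 0 ≤ f' x) {r : ℝ} (hr : r₀ ≤ r) : f r₀ ≤ f r :=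
  monotoneOn_of_deriv_nonneg (convex_Ici r₀)
    (fun x hx => (hd x hx).continuousAt.continuousWithinAt)
    (fun x hx => (hd x (interior_subset hx)).differentiableAt.differentiableWithinAt)
    (fun x hx => by rw [(hd x (interior_subset hx)).deriv]; exact hf x (interior_subset hx))
    self_mem_Ici hr hr

variable {R r : ℝ}

lemma sinh_diameter (R : ℝ) :
    Real.sinh (2 * R) = 2 * Real.tanh R / (1 - Real.tanh R ^ 2) := by
  rw [GenK.Four.sinh_eq, show 2 * R / 2 = R by ring]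

lemma coth_diameter (hR : 0 < R) :
    coth (2 * R) = (1 + Real.tanh R ^ 2) / (2 * Real.tanh R) := by
  rw [coth, coth_half (by linarith), show 2 * R / 2 = R by ring]

lemma hasDerivAt_coth (hr : r ≠ 0) : HasDerivAt coth (-1 / Real.sinh r ^ 2) r :=
  ((Real.hasDerivAt_cosh r).div (Real.hasDerivAt_sinh r) (by simpa using hr)).congr_deriv (by
    rw [show Real.sinh r * Real.sinh r - Real.cosh r * Real.cosh r = -1 by
      nlinarith [Real.cosh_sq_sub_sinh_sq r]])

/-- The affine function. -/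
def gLin (R β v₁ r : ℝ) : ℝ := gEdge R v₁ + Real.tanh R ^ 2 * β * (r - 2 * R)

/-- The denominator. -/
def kDen (R r : ℝ) : ℝ := 3 / Real.tanh R - 3 * coth r

lemma uOut_eq (R β v₁ r : ℝ) :
    uOut R β v₁ r = (1 - gLin R β v₁ r / Real.sinh r ^ 3) / kDen R r := rfl

/-- `sinh r ^ 3` less the affine function. -/
def nLin (R β v₁ r : ℝ) : ℝ := Real.sinh r ^ 3 - gLin R β v₁ r

lemma gEdge_eq (hR : 0 < R) :
    gEdge R v₁ = Real.sinh (2 * R) ^ 3 * (1 - 3 * v₁ * (1 - Real.tanh R ^ 2) ^ 3 / 8) := by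
  have := GenK.Four.tanh_pos hR
  rw [gEdge, uEdge, coth_diameter hR]
  field_simp
  ring

lemma hasDerivAt_gLin : HasDerivAt (gLin R β v₁) (Real.tanh R ^ 2 * β) r :=
  (((hasDerivAt_id r).sub_const (2 * R)).const_mul (Real.tanh R ^ 2 * β)
    |>.const_add (gEdge R v₁)).congr_deriv (by simp)

lemma hasDerivAt_nLin :
    HasDerivAt (nLin R β v₁) (3 * Real.sinh r ^ 2 * Real.cosh r - Real.tanh R ^ 2 * β) r :=
  (((Real.hasDerivAt_sinh r).pow 3).sub hasDerivAt_gLin).congr_deriv (by push_cast; ring)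

/-- What is used of the geometry at one distance. -/
structure Pt (R r : ℝ) : Prop where
  s_pos : 0 < Real.sinh r
  s_ge : Real.sinh (2 * R) ≤ Real.sinh r
  c_ge : Real.cosh (2 * R) ≤ Real.cosh r
  dom : Dom (Real.tanh R ^ 2) (Real.tanh R * coth r) (Real.tanh R / Real.sinh r)
  k_eq : kDen R r = 3 * (1 - Real.tanh R * coth r) / Real.tanh R
  k_pos : 0 < kDen R r
  sc_ge : Real.sinh (2 * R) ^ 2 * Real.cosh (2 * R) ≤ Real.sinh r ^ 2 * Real.cosh r

lemma pt (hR : 0 < R) (hr : 2 * R ≤ r) : Pt R r := by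
  have hT := GenK.Four.tanh_pos hR
  have h0 : 0 < Real.sinh (2 * R) := Real.sinh_pos_iff.2 (by linarith)
  have hs : 0 < Real.sinh r := Real.sinh_pos_iff.2 (by linarith)
  have hsg : Real.sinh (2 * R) ≤ Real.sinh r := Real.sinh_le_sinh.2 hr
  have hcg : Real.cosh (2 * R) ≤ Real.cosh r :=
    Real.cosh_le_cosh.2 (by rw [abs_of_pos (by linarith), abs_of_pos (by linarith)]; exact hr)
  have hC : coth r ≤ coth (2 * R) := by
    rw [coth, coth, div_le_div_iff₀ hs h0]
    have h := Real.sinh_nonneg_iff.2 (sub_nonneg.2 hr)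
    rw [Real.sinh_sub] at h
    linarith
  have hp : Real.tanh R * coth r ≤ (1 + Real.tanh R ^ 2) / 2 := by
    refine (mul_le_mul_of_nonneg_left hC hT.le).trans_eq ?_
    rw [coth_diameter hR]
    field_simp
  have hn : Real.tanh R / Real.sinh r ≤ (1 - Real.tanh R ^ 2) / 2 := by
    refine (div_le_div_of_nonneg_left hT.le h0 hsg).trans_eq ?_
    rw [sinh_diameter]
    field_simp
  have hk : kDen R r = 3 * (1 - Real.tanh R * coth r) / Real.tanh R := by
    rw [kDen]
    field_simp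
  refine ⟨hs, hsg, hcg, dom_mk (pow_pos hT 2)
    (mul_pos hT (div_pos (Real.cosh_pos r) hs)) (div_pos hT hs) ?_ hp hn, hk, ?_,
    mul_le_mul (pow_le_pow_left₀ h0.le hsg 2) hcg (Real.cosh_pos _).le (by positivity)⟩
  · rw [coth]
    field_simp
    rw [Real.cosh_sq]
    ring
  · rw [hk]
    have he1 : Real.tanh R ^ 2 < 1 := pow_lt_one₀ hT.le (Real.tanh_lt_one R) two_ne_zero
    exact div_pos (by linarith) hT

section Main

variable (hR : 0 < R) (hE : Edge (Real.tanh R ^ 2) β v₁ w₁)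
include hR hE

lemma beta_cosh {x : ℝ} (hx : 2 * R ≤ x) :
    Real.tanh R ^ 2 * β ≤ 3 * Real.sinh x ^ 2 * Real.cosh x := by
  have hd := hE.d_pos
  have hT := GenK.Four.tanh_pos hR
  have h1 : β * (1 - Real.tanh R ^ 2) ^ 3 ≤ 12 * (1 + Real.tanh R ^ 2) := by
    have : 0 ≤ 3 * (1 - Real.tanh R ^ 2) ^ 3 * ((1 - Real.tanh R ^ 2) * w₁) :=
      mul_nonneg (by positivity) (le_trans (mul_nonneg (by linarith [hE.e_lt]) hE.v_pos.le) hE.lo)
    linarith [hE.eq, mul_nonneg hE.v_pos.le (pow_nonneg hd.le 3)]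
  suffices h2 : Real.tanh R ^ 2 * β ≤ 3 * (Real.sinh (2 * R) ^ 2 * Real.cosh (2 * R)) by
    rw [mul_assoc]
    exact h2.trans (mul_le_mul_of_nonneg_left (pt hR hx).sc_ge three_pos.le)
  have e : Real.cosh (2 * R) = coth (2 * R) * Real.sinh (2 * R) := by
    rw [coth, div_mul_cancel₀ _ (Real.sinh_pos_iff.2 (by linarith)).ne']
  rw [e, coth_diameter hR, sinh_diameter]
  field_simp
  nlinarith [mul_le_mul_of_nonneg_left h1 (pow_nonneg hT.le 3)]

lemma nLin_pos (hr : 2 * R ≤ r) : 0 < nLin R β v₁ r := by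
  refine lt_of_lt_of_le ?_ (mono_from (fun x _ => hasDerivAt_nLin)
    (fun x hx => sub_nonneg.2 (beta_cosh hR hE hx)) hr)
  rw [nLin, gLin, gEdge_eq hR, sub_self, mul_zero, add_zero]
  have := pow_pos (Real.sinh_pos_iff.2 (show 0 < 2 * R by linarith)) 3
  have := mul_pos hE.v_pos (pow_pos hE.d_pos 3)
  nlinarith

lemma sigma_bounds (hr : 2 * R ≤ r) :
    let n := Real.tanh R / Real.sinh r
    let σ := gLin R β v₁ r / Real.sinh r ^ 3
    (1 - 3 * v₁ * (1 - Real.tanh R ^ 2) ^ 3 / 8) * (2 * n / (1 - Real.tanh R ^ 2)) ^ 3 ≤ σ ∧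
      σ ≤ 2 * n * muFac (Real.tanh R ^ 2) := by
  intro n σ
  have hd := hE.d_pos
  have hT := GenK.Four.tanh_pos hR
  have P := pt hR hr
  have hs := P.s_pos
  have h2n : 2 * n / (1 - Real.tanh R ^ 2) = Real.sinh (2 * R) / Real.sinh r := by
    simp only [n, sinh_diameter]
    field_simp
  constructor
  · rw [h2n, div_pow, ← mul_div_assoc]
    refine div_le_div_of_nonneg_right ?_ (pow_nonneg hs.le 3)
    rw [gLin, gEdge_eq hR]
    have : 0 ≤ Real.tanh R ^ 2 * β * (r - 2 * R) :=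
      mul_nonneg (mul_nonneg (sq_nonneg _) (by linarith [hE.beta_lo])) (by linarith)
    linarith
  · have h0 : 0 < Real.sinh (2 * R) := Real.sinh_pos_iff.2 (by linarith)
    set μ := (1 - Real.tanh R ^ 2) * muFac (Real.tanh R ^ 2) with hμ
    have hμ0 : 0 ≤ μ := mul_nonneg hd.le (by rw [muFac]; nlinarith [sq_nonneg (Real.tanh R ^ 2 - 7 / 8)])
    have key : gLin R β v₁ r ≤ μ * Real.sinh (2 * R) * Real.sinh r ^ 2 := by
      have hm := mono_from (f := fun x => μ * Real.sinh (2 * R) * Real.sinh x ^ 2 - gLin R β v₁ x)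
        (f' := fun x => μ * Real.sinh (2 * R) * (2 * Real.sinh x * Real.cosh x) -
          Real.tanh R ^ 2 * β)
        (fun x _ => ((((Real.hasDerivAt_sinh x).pow 2).const_mul
          (μ * Real.sinh (2 * R))).sub hasDerivAt_gLin).congr_deriv (by push_cast; ring))
        (fun x hx => by
          have Q := pt hR hx
          have h1 : Real.tanh R ^ 2 * β ≤
              μ * Real.sinh (2 * R) * (2 * Real.sinh (2 * R) * Real.cosh (2 * R)) := by
            have e : Real.cosh (2 * R) = coth (2 * R) * Real.sinh (2 * R) := by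
              rw [coth, div_mul_cancel₀ _ h0.ne']
            rw [e, coth_diameter hR, sinh_diameter]
            field_simp
            rw [hμ]
            linarith [hE.beta_mu]
          have h2 : μ * Real.sinh (2 * R) * (2 * Real.sinh (2 * R) * Real.cosh (2 * R)) ≤
              μ * Real.sinh (2 * R) * (2 * Real.sinh x * Real.cosh x) := by
            refine mul_le_mul_of_nonneg_left ?_ (mul_nonneg hμ0 h0.le)
            exact mul_le_mul (by linarith [Q.s_ge]) Q.c_ge (Real.cosh_pos _).le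
              (by linarith [Q.s_pos])
          linarith) hr
      have h3 : gLin R β v₁ (2 * R) ≤ μ * Real.sinh (2 * R) * Real.sinh (2 * R) ^ 2 := by
        rw [gLin, gEdge_eq hR, sub_self, mul_zero, add_zero]
        nlinarith [mul_le_mul_of_nonneg_left hE.sigma_le_mu (pow_nonneg h0.le 3)]
      linarith
    calc σ ≤ μ * Real.sinh (2 * R) * Real.sinh r ^ 2 / Real.sinh r ^ 3 :=
          div_le_div_of_nonneg_right key (pow_nonneg hs.le 3)
      _ = μ * (2 * n / (1 - Real.tanh R ^ 2)) := by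
          rw [h2n]
          field_simp
      _ = _ := by
          rw [hμ]
          field_simp

omit hE in
/-- The derivative of the weight. -/
lemma hasDerivAt_uOut (hr : 2 * R ≤ r) :
    HasDerivAt (uOut R β v₁)
      (((3 * coth r * gLin R β v₁ r - Real.tanh R ^ 2 * β) / Real.sinh r ^ 3 * kDen R r -
        (1 - gLin R β v₁ r / Real.sinh r ^ 3) * (3 / Real.sinh r ^ 2)) / kDen R r ^ 2) r := by
  have P := pt hR hr
  have hs := P.s_pos
  have h1 : HasDerivAt (fun x => 1 - gLin R β v₁ x / Real.sinh x ^ 3)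
      ((3 * coth r * gLin R β v₁ r - Real.tanh R ^ 2 * β) / Real.sinh r ^ 3) r :=
    ((hasDerivAt_gLin.div ((Real.hasDerivAt_sinh r).pow 3) (pow_ne_zero 3 hs.ne')).const_sub
      1).congr_deriv (by simp only [coth, Pi.pow_apply]; push_cast; field_simp; ring)
  have h2 : HasDerivAt (kDen R) (3 / Real.sinh r ^ 2) r :=
    (((hasDerivAt_coth (by linarith : (0 : ℝ) < r).ne').const_mul 3).const_sub
      (3 / Real.tanh R)).congr_deriv (by ring)
  exact h1.div h2 P.k_pos.ne'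

omit hR hE in
/-- The value at cosine one in the algebraic variables. -/
lemma sigma_q_form {T C s g b : ℝ} (hT : T ≠ 0) (hs : s ≠ 0) (hq : 1 - T * C ≠ 0) :
    g / s ^ 3 + ((1 - g / s ^ 3) / (3 * (1 - T * C) / T) * C -
      ((3 * C * g - T ^ 2 * b) / s ^ 3 * (3 * (1 - T * C) / T) -
        (1 - g / s ^ 3) * (3 / s ^ 2)) / (3 * (1 - T * C) / T) ^ 2) =
    (3 - 6 * (T * C) + b * (T / s) ^ 3 + (1 - g / s ^ 3) * (7 * (T * C) - 3 +
      (T / s) ^ 2 / (1 - T * C))) / (3 * (1 - T * C)) := by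
  field_simp
  ring

/-- The slope function, in closed form. -/
def slopeOut (R β v₁ r : ℝ) : ℝ :=
  nLin R β v₁ r * (1 + 5 * coth r / kDen R r + 6 / (Real.sinh r ^ 2 * kDen R r ^ 2))
    - 2 * Real.sinh r ^ 3 + (2 * Real.tanh R ^ 2 * β - 6 * Real.sinh r ^ 2 * Real.cosh r) / kDen R r

omit hE in
lemma slopeOut_eq (hr : 2 * R ≤ r) :
    Real.sinh r ^ 3 * (hOut R β v₁ r - 2 * p0Out R β v₁ r) = slopeOut R β v₁ r := by
  have P := pt hR hr
  have hs := P.s_pos
  have hk := P.k_pos.ne'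
  have hT : 3 / Real.tanh R = kDen R r + 3 * coth r := by rw [kDen]; ring
  have e : Real.cosh r = coth r * Real.sinh r := by rw [coth, div_mul_cancel₀ _ hs.ne']
  rw [hOut, p0Out, (hasDerivAt_uOut hR hr).deriv, hT, uOut_eq, slopeOut, nLin, e]
  field_simp
  ring

lemma slopeOut_deriv (hr : 2 * R ≤ r) :
    ∃ D ≤ (0 : ℝ), HasDerivAt (slopeOut R β v₁) D r := by
  have P := pt hR hr
  have hs := P.s_pos
  have hk := P.k_pos
  have h2 : HasDerivAt (kDen R) (3 / Real.sinh r ^ 2) r :=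
    (((hasDerivAt_coth (by linarith : (0 : ℝ) < r).ne').const_mul 3).const_sub
      (3 / Real.tanh R)).congr_deriv (by ring)
  have hC := hasDerivAt_coth (by linarith : (0 : ℝ) < r).ne'
  have hS := (Real.hasDerivAt_sinh r).pow 2
  have hd := ((hasDerivAt_nLin (R := R) (β := β) (v₁ := v₁) (r := r)).mul
      (((hC.const_mul 5).div h2 hk.ne').const_add 1 |>.add
        ((hasDerivAt_const r (6 : ℝ)).div (hS.mul (h2.pow 2))
          (mul_ne_zero (pow_ne_zero 2 hs.ne') (pow_ne_zero 2 hk.ne'))))).sub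
      (((Real.hasDerivAt_sinh r).pow 3).const_mul 2) |>.add
      ((((hS.const_mul 6).mul (Real.hasDerivAt_cosh r)).const_sub
        (2 * Real.tanh R ^ 2 * β)).div h2 hk.ne')
  refine ⟨_, ?_, hd⟩
  simp only [Pi.mul_apply, Pi.pow_apply, Pi.add_apply, Pi.div_apply]
  push_cast
  set C := coth r with hCdef
  set k := kDen R r with hkdef
  set s := Real.sinh r with hsdef
  set N := nLin R β v₁ r with hNdef
  have eC : Real.cosh r = C * s := by rw [hCdef, coth, hsdef, div_mul_cancel₀ _ hs.ne']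
  have hN : 0 ≤ N := (nLin_pos hR hE hr).le
  have hC0 : 0 ≤ C := (div_pos (Real.cosh_pos r) hs).le
  have hsq : C ^ 2 * s ^ 2 = s ^ 2 + 1 := by rw [← mul_pow, ← eC, Real.cosh_sq]
  have hT := GenK.Four.tanh_pos hR
  -- the polynomial
  have poly : -3 * C * k - 3 + 3 / s ^ 2 + 36 * C / (k * s ^ 2) -
      12 * Real.tanh R ^ 2 / s ^ 3 * (k + 5 * C + 12 / (k * s ^ 2)) ≤ 0 := by
    have key := slope_poly P.dom.p_pos P.dom.n_pos.le P.dom.n_le_p P.dom.n_le_q
    have hrel := P.dom.rel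
    have hq := sub_pos.2 P.dom.p_lt
    rw [← hCdef] at hrel key hq
    rw [hkdef, P.k_eq, ← hCdef]
    rw [← hsdef] at key hrel
    refine le_of_eq_of_le (b := -((9 * (Real.tanh R * C) * (1 - Real.tanh R * C) ^ 2
      + 3 * ((Real.tanh R * C) ^ 2 - 2 * (Real.tanh R / s) ^ 2) * (1 - Real.tanh R * C)
      - 12 * (Real.tanh R * C) * (Real.tanh R / s) ^ 2
      + 12 * (Real.tanh R / s) ^ 3 * (3 + 2 * (Real.tanh R * C)) * (1 - Real.tanh R * C)
      + 48 * (Real.tanh R / s) ^ 5) / ((1 - Real.tanh R * C) * Real.tanh R ^ 2))) ?_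
      (neg_nonpos.2 (div_nonneg key (by positivity)))
    field_simp at hrel ⊢
    grind
  have hB : 0 ≤ (β - 12) * (Real.tanh R ^ 2 / s ^ 3 * (k + 5 * C + 12 / (k * s ^ 2))) :=
    mul_nonneg (by linarith [hE.beta_lo]) (by positivity)
  have hX : 0 ≤ N / s ^ 3 * (5 / s ^ 2 + 27 * C / (k * s ^ 2) + 36 / (k ^ 2 * s ^ 4)) := by
    positivity
  have htot := mul_nonneg (show 0 ≤ -(-3 * C * k - 3 + 3 / s ^ 2 + 36 * C / (k * s ^ 2) -
      12 * Real.tanh R ^ 2 / s ^ 3 * (k + 5 * C + 12 / (k * s ^ 2))) +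
      (β - 12) * (Real.tanh R ^ 2 / s ^ 3 * (k + 5 * C + 12 / (k * s ^ 2))) +
      N / s ^ 3 * (5 / s ^ 2 + 27 * C / (k * s ^ 2) + 36 / (k ^ 2 * s ^ 4)) by linarith)
    (show 0 ≤ s ^ 3 / k by positivity)
  refine le_of_eq_of_le ?_ (neg_nonpos.2 htot)
  rw [eC]
  field_simp
  grind

/-- The weight is regular enough: `u' + 2 coth r u ≥ 0`. -/
lemma usq (hr : 2 * R ≤ r) :
    0 ≤ deriv (uOut R β v₁) r + 2 * coth r * uOut R β v₁ r := by
  set e := Real.tanh R ^ 2 with he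
  set K := 3 * (1 + e) / 2 with hK
  have hd := hE.d_pos
  have hT := GenK.Four.tanh_pos hR
  have hψ : nLin R β v₁ r ≤ K * (Real.sinh r ^ 3 - e * β * Real.tanh r / 3) := by
    have hm := mono_from
      (f := fun x => K * (Real.sinh x ^ 3 - e * β * (Real.sinh x / Real.cosh x) / 3) -
        nLin R β v₁ x)
      (f' := fun x => (K - 1) * (3 * Real.sinh x ^ 2 * Real.cosh x) +
        e * β * (1 - K / (3 * Real.cosh x ^ 2)))
      (fun x _ => (((((Real.hasDerivAt_sinh x).pow 3).sub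
        ((((Real.hasDerivAt_sinh x).div (Real.hasDerivAt_cosh x) (Real.cosh_pos x).ne').const_mul
          (e * β)).div_const 3)).const_mul K).sub hasDerivAt_nLin).congr_deriv (by
          have := (Real.cosh_pos x).ne'
          push_cast
          have hc := Real.cosh_sq_sub_sinh_sq x
          rw [he]
          field_simp
          grind))
      (fun x hx => by
        have h1 : 1 ≤ Real.cosh x ^ 2 := one_le_pow₀ (Real.one_le_cosh x)
        have h2 : K / (3 * Real.cosh x ^ 2) ≤ 1 := by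
          rw [div_le_one (by positivity), hK]
          linarith [hE.e_lt]
        have h3 : 0 ≤ (K - 1) * (3 * Real.sinh x ^ 2 * Real.cosh x) :=
          mul_nonneg (by rw [hK]; linarith [hE.e_pos]) (by
            have := (Real.cosh_pos x).le
            positivity)
        have h4 : 0 ≤ e * β * (1 - K / (3 * Real.cosh x ^ 2)) :=
          mul_nonneg (mul_nonneg (sq_nonneg _) (by linarith [hE.beta_lo])) (by linarith)
        linarith) hr
    simp only [← Real.tanh_eq_sinh_div_cosh] at hm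
    have h0 : nLin R β v₁ (2 * R) ≤ K * (Real.sinh (2 * R) ^ 3 - e * β * Real.tanh (2 * R) / 3) := by
      have et : Real.tanh (2 * R) = 1 / coth (2 * R) := by
        rw [coth, one_div_div, Real.tanh_eq_sinh_div_cosh]
      rw [nLin, gLin, gEdge_eq hR, sub_self, mul_zero, add_zero, et, coth_diameter hR,
        sinh_diameter, hK, he]
      have h5 : 0 ≤ (1 - Real.tanh R ^ 2) * w₁ :=
        le_trans (mul_nonneg (by linarith [hE.e_lt]) hE.v_pos.le) hE.lo
      have h6 := hE.eq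
      have hd' : (1 - Real.tanh R ^ 2) ≠ 0 := he ▸ hd.ne'
      rw [he] at h6
      have eβ : β = (24 * (1 + Real.tanh R ^ 2) - 6 * v₁ * (1 - Real.tanh R ^ 2) ^ 3 -
          3 * w₁ * (1 - Real.tanh R ^ 2) ^ 4) / (2 * (1 - Real.tanh R ^ 2) ^ 3) := by
        rw [eq_div_iff (by positivity)]
        linarith
      refine sub_nonneg.1 (le_of_le_of_eq (mul_nonneg (pow_nonneg hT.le 3)
        (mul_nonneg (show (0 : ℝ) ≤ 3 / 2 by norm_num) h5)) ?_)
      rw [eβ]
      field_simp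
      ring
    linarith
  have P := pt hR hr
  have hs := P.s_pos
  have hk := P.k_pos
  set C := coth r with hC
  set k := kDen R r with hkd
  set s := Real.sinh r with hsd
  have hC0 : 0 < C := div_pos (Real.cosh_pos r) hs
  have hN := (nLin_pos hR hE hr).le
  have hr1 : C + 3 / (s ^ 2 * k) ≤ 2 * C / (1 + e) := by
    have h := P.dom.ratio_le (pow_pos hT 2)
    have hq := sub_pos.2 P.dom.p_lt
    rw [hkd, P.k_eq, ← hC, he]
    rw [← hC] at h hq
    field_simp at h ⊢
    rw [← hsd, div_le_iff₀ (by positivity)] at h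
    linarith
  have et : Real.tanh r = 1 / C := by rw [hC, coth, one_div_div, Real.tanh_eq_sinh_div_cosh]
  rw [et] at hψ
  have h8 : nLin R β v₁ r * (C + 3 / (s ^ 2 * k)) ≤ 3 * C * s ^ 3 - e * β := by
    refine (mul_le_mul hψ hr1 (by positivity) (hN.trans hψ)).trans_eq ?_
    rw [hK]
    have : 0 < 1 + e := by linarith [hE.e_pos]
    field_simp
  rw [(hasDerivAt_uOut hR hr).deriv, uOut_eq, ← hC, ← hkd, ← hsd, ← he]
  refine le_of_le_of_eq (div_nonneg (sub_nonneg.2 h8) (by positivity : 0 ≤ s ^ 3 * k)) ?_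
  rw [nLin, ← hsd]
  field_simp
  ring

/-- The slope function starts nonpositive and decreases. -/
lemma slope_le {r : ℝ} (hr : 2 * R ≤ r) :
    slopeOut R β v₁ r ≤ slopeOut R β v₁ (2 * R) ∧ slopeOut R β v₁ (2 * R) ≤ 0 := by
  have hT := GenK.Four.tanh_pos hR
  have slope : ∀ r, 2 * R ≤ r → slopeOut R β (v₁) r ≤ slopeOut R β (v₁) (2 * R) := by
    intro r hr
    choose! D hD hD' using fun x (hx : 2 * R ≤ x) => slopeOut_deriv hR hE hx
    have := mono_from (f := fun x => -slopeOut R β (v₁) x) (f' := fun x => -D x)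
      (fun x hx => (hD' x hx).neg) (fun x hx => neg_nonneg.2 (hD x hx)) hr
    linarith
  have start : slopeOut R β (v₁) (2 * R) ≤ 0 := by
    have hd := hE.d_pos
    have h1 := mul_nonneg hE.slope (show 0 ≤ 4 * Real.tanh R ^ 3 * (1 - Real.tanh R ^ 2) ^ 3 by
      positivity)
    have e : Real.cosh (2 * R) = coth (2 * R) * Real.sinh (2 * R) := by
      rw [coth, div_mul_cancel₀ _ (Real.sinh_pos_iff.2 (by linarith)).ne']
    rw [slopeOut, nLin, gLin, gEdge_eq hR, sub_self, mul_zero, add_zero, kDen, e,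
      coth_diameter hR, sinh_diameter]
    have hk : 3 / Real.tanh R - 3 * ((1 + Real.tanh R ^ 2) / (2 * Real.tanh R)) =
        3 * (1 - Real.tanh R ^ 2) / (2 * Real.tanh R) := by field_simp; ring
    rw [hk]
    have eβ : β = (24 * (1 + Real.tanh R ^ 2) - 6 * v₁ * (1 - Real.tanh R ^ 2) ^ 3 -
        3 * w₁ * (1 - Real.tanh R ^ 2) ^ 4) / (2 * (1 - Real.tanh R ^ 2) ^ 3) := by
      rw [eq_div_iff (by positivity)]
      linarith [hE.eq]
    refine le_of_eq_of_le ?_ (neg_nonpos.2 (mul_nonneg hE.slope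
      (show 0 ≤ 8 * Real.tanh R ^ 3 by positivity)))
    rw [eβ]
    field_simp
    ring
  exact ⟨slope r hr, start⟩

lemma pos_out {r : ℝ} (hr : 2 * R ≤ r) : 0 < uOut R β v₁ r := by
  rw [uOut_eq]
  have hs := (pt hR hr).s_pos
  refine div_pos (lt_of_lt_of_eq (div_pos (nLin_pos hR hE hr) (pow_pos hs 3)) ?_) (pt hR hr).k_pos
  rw [nLin, sub_div, div_self (pow_ne_zero 3 hs.ne')]

/-- The value at cosine one pays for the gain. -/
lemma gain_rim {r : ℝ} (hr : 2 * R ≤ r) :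
    0 ≤ gLin R β v₁ r / Real.sinh r ^ 3 + uOut R β v₁ r / Real.sinh r := by
  have hT := GenK.Four.tanh_pos hR
  have P := pt hR hr
  have hs := P.s_pos
  have hk := P.k_pos
  have hN := nLin_pos hR hE hr
  have hq := sub_pos.2 P.dom.p_lt
  obtain ⟨hlo, hhi⟩ := sigma_bounds hR hE hr
  have hU : uOut R β (v₁) r =
      (1 - gLin R β (v₁) r / Real.sinh r ^ 3) / kDen R r := rfl
  set σ := gLin R β (v₁) r / Real.sinh r ^ 3 with hσ
  have hX : 0 < 1 - σ := by
    rw [hσ, show 1 - gLin R β (v₁) r / Real.sinh r ^ 3 = nLin R β (v₁) r / Real.sinh r ^ 3 by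
      rw [nLin, sub_div, div_self (pow_ne_zero 3 hs.ne')]]
    positivity
  have hu : 0 < uOut R β (v₁) r := hU ▸ div_pos hX hk
  have hgam : 0 ≤ σ + uOut R β (v₁) r / Real.sinh r := by
    rcases le_or_gt 0 σ with h | h
    · positivity
    · have h1 : -σ * (3 * (1 - Real.tanh R * coth r)) ≤
          (1 - σ) * (Real.tanh R / Real.sinh r) := by
        have h2 := P.dom.cube_le (pow_pos hT 2)
        have hd := hE.d_pos
        have h3 : -σ ≤ 1 / 3 * (2 * (Real.tanh R / Real.sinh r) / (1 - Real.tanh R ^ 2)) ^ 3 := by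
          have h4 := mul_le_mul_of_nonneg_right
            (show -(1 / 3 : ℝ) ≤ 1 - 3 * v₁ * (1 - Real.tanh R ^ 2) ^ 3 / 8 by linarith [hE.cap])
            (show 0 ≤ (2 * (Real.tanh R / Real.sinh r) / (1 - Real.tanh R ^ 2)) ^ 3 by
              have := P.dom.n_pos.le; positivity)
          linarith
        calc -σ * (3 * (1 - Real.tanh R * coth r)) ≤
            1 / 3 * (2 * (Real.tanh R / Real.sinh r) / (1 - Real.tanh R ^ 2)) ^ 3 *
              (3 * (1 - Real.tanh R * coth r)) :=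
              mul_le_mul_of_nonneg_right h3 (by linarith)
          _ = 8 * (1 - Real.tanh R * coth r) * (Real.tanh R / Real.sinh r) ^ 2 /
              (1 - Real.tanh R ^ 2) ^ 3 * (Real.tanh R / Real.sinh r) := by field_simp; ring
          _ ≤ 1 * (Real.tanh R / Real.sinh r) :=
              mul_le_mul_of_nonneg_right ((div_le_one (pow_pos hd 3)).2 h2) P.dom.n_pos.le
          _ ≤ _ := mul_le_mul_of_nonneg_right (by linarith) P.dom.n_pos.le
      rw [hU, P.k_eq]
      refine le_of_le_of_eq (div_nonneg (neg_le_iff_add_nonneg.1 (by linarith [h1]) :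
        0 ≤ (1 - σ) * (Real.tanh R / Real.sinh r) + σ * (3 * (1 - Real.tanh R * coth r)))
        (by linarith : (0 : ℝ) ≤ 3 * (1 - Real.tanh R * coth r))) ?_
      field_simp
      ring
  exact hgam

/-- The value at cosine one with the quadratic coefficient once more. -/
lemma value_rim {r : ℝ} (hr : 2 * R ≤ r) :
    0 ≤ gLin R β v₁ r / Real.sinh r ^ 3 + qOut R β v₁ r := by
  have hT := GenK.Four.tanh_pos hR
  have P := pt hR hr
  have hs := P.s_pos
  have hk := P.k_pos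
  have hN := nLin_pos hR hE hr
  have hq := sub_pos.2 P.dom.p_lt
  obtain ⟨hlo, hhi⟩ := sigma_bounds hR hE hr
  have hU : uOut R β (v₁) r =
      (1 - gLin R β (v₁) r / Real.sinh r ^ 3) / kDen R r := rfl
  set σ := gLin R β (v₁) r / Real.sinh r ^ 3 with hσ
  have hX : 0 < 1 - σ := by
    rw [hσ, show 1 - gLin R β (v₁) r / Real.sinh r ^ 3 = nLin R β (v₁) r / Real.sinh r ^ 3 by
      rw [nLin, sub_div, div_self (pow_ne_zero 3 hs.ne')]]
    positivity
  have hu : 0 < uOut R β (v₁) r := hU ▸ div_pos hX hk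
  have hval := value_nonneg P.dom hE hX (by rw [sub_sub_cancel]; exact hlo)
    (by rw [sub_sub_cancel]; exact hhi)
  have hσq : 0 ≤ σ + qOut R β (v₁) r := by
    have e : σ + qOut R β (v₁) r =
        (3 - 6 * (Real.tanh R * coth r) + β * (Real.tanh R / Real.sinh r) ^ 3 +
          (1 - σ) * (7 * (Real.tanh R * coth r) - 3 +
            (Real.tanh R / Real.sinh r) ^ 2 / (1 - Real.tanh R * coth r))) /
        (3 * (1 - Real.tanh R * coth r)) := by
      rw [qOut, (hasDerivAt_uOut hR hr).deriv, hU, P.k_eq, hσ]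
      exact sigma_q_form hT.ne' hs.ne' hq.ne'
    rw [e]
    exact div_nonneg hval (by linarith)
  exact hσq

omit hE in
lemma sigma_eq {r : ℝ} (hr : 2 * R ≤ r) :
    p0Out R β v₁ r - hOut R β v₁ r + qOut R β v₁ r = gLin R β v₁ r / Real.sinh r ^ 3 := by
  have hT := GenK.Four.tanh_pos hR
  have hk := (pt hR hr).k_pos
  have hs := (pt hR hr).s_pos
  have hU : uOut R β v₁ r =
      (1 - gLin R β v₁ r / Real.sinh r ^ 3) / kDen R r := rfl
  set σ := gLin R β v₁ r / Real.sinh r ^ 3 with hσ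
  have hsq : p0Out R β (v₁) r - hOut R β (v₁) r + qOut R β (v₁) r = σ := by
    have e : 3 / Real.tanh R = kDen R r + 3 * coth r := by rw [kDen]; ring
    rw [p0Out, hOut, qOut, e, hU]
    field_simp
    ring
  exact hsq

end Main

end Vale.Agent.P219.CH.Relax.Four.Out

namespace Vale.Agent.P219.CH.Relax.Four

open Out in
/-- The facts beyond the diameter. -/
theorem outPin : OutPin := by
  intro R hR β v w hs hb
  have hT := GenK.Four.tanh_pos hR
  have he : Real.tanh R ^ 2 ∈ Ioo (0 : ℝ) 1 :=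
    ⟨pow_pos hT 2, pow_lt_one₀ hT.le (Real.tanh_lt_one R) two_ne_zero⟩
  have hE := edge_of he hs hb
  have facts : ∀ r, 2 * R ≤ r → 0 ≤ hOut R β (v 1) r ∧
      hOut R β (v 1) r ≤ 2 * p0Out R β (v 1) r ∧ 1 ≤ p0Out R β (v 1) r := by
    intro r hr
    refine ⟨?_, ?_, ?_⟩
    · have := (pos_out hR hE hr).le
      rw [hOut]
      positivity
    · have h1 := (slope_le hR hE hr).1.trans (slope_le hR hE hr).2
      rw [← slopeOut_eq hR hr] at h1
      nlinarith [pow_pos (pt hR hr).s_pos 3]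
    · rw [p0Out]
      linarith [usq hR hE hr]
  refine ⟨fun r hr => pos_out hR hE hr, fun r hr => usq hR hE hr, ?_, ?_, ?_, ?_⟩
  · intro r hr c hc
    obtain ⟨h0, h2, -⟩ := facts r hr
    exact mono_core h0 h2 (by linarith [value_rim hR hE hr, sigma_eq (β := β) (v₁ := v 1) hR hr]) hc
  · intro r hr
    rw [slopeOut_eq hR hr, slopeOut_eq hR le_rfl]
    exact (slope_le hR hE hr).1
  · intro r hr
    obtain ⟨h0, h2, -⟩ := facts r hr
    have hsq := sigma_eq (β := β) (v₁ := v 1) hR hr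
    exact gain_of h0 h2 (by linarith [value_rim hR hE hr]) (by linarith [gain_rim hR hE hr])
  · intro r hr
    obtain ⟨h0, h2, hp1⟩ := facts r hr
    have hsq := sigma_eq (β := β) (v₁ := v 1) hR hr
    have hv := value_rim hR hE hr
    have hsr := (pt hR hr).s_pos
    have hu := pos_out hR hE hr
    have hσ1 : gLin R β (v 1) r / Real.sinh r ^ 3 ≤ 1 := by
      rw [div_le_one (pow_pos hsr 3)]
      have := nLin_pos hR hE hr
      rw [nLin] at this
      linarith
    have hgh : 4 * (uOut R β (v 1) r / Real.sinh r) ≤ hOut R β (v 1) r := by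
      rw [hOut]
      have h3 : 4 / Real.sinh r ≤ 3 / Real.tanh R := by
        rw [div_le_div_iff₀ hsr hT]
        have h4 : 2 * Real.tanh R ≤ Real.sinh (2 * R) := by
          rw [sinh_diameter, le_div_iff₀ hE.d_pos]
          nlinarith [pow_pos hT 3]
        linarith [(pt hR hr).s_ge]
      refine le_of_eq_of_le ?_ (mul_le_mul_of_nonneg_right h3 hu.le)
      ring
    refine mixedCond_of_scalar h0 (by linarith) ?_ ?_ ?_
    · rcases le_or_gt 0 (qOut R β (v 1) r) with h | h <;> linarith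
    · linarith
    · rcases le_or_gt 0 (qOut R β (v 1) r) with h | h
      · rw [min_eq_right h]; linarith
      · rw [min_eq_left h.le]; linarith

end Vale.Agent.P219.CH.Relax.Four
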