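import Vale.Agent.P219.Relax.Four.OdePins

/-!
# P219, dimension four: the pins of the facts

With `x = e t ^ 2` the regular solution is `v = t ^ 3 ∑ b n x ^ n`. Every fact inside the ball
follows from one-step inequalities on the coefficients `b`, every fact beyond the diameter from
their values at `t = 1`.
-/

noncomputable section

open Set Filter Topology

namespace Vale.Agent.P219.CH.Relax.Four

/-- The growth of the coefficients at infinity. -/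
def cInf (e : ℝ) : ℝ := 2 * e / (1 - e)

/-- The coefficients of the regular solution and the facts about them. -/
structure CoeffFacts (e : ℝ) (b : ℕ → ℝ) : Prop where
  start : 25 * e * b 1 = (24 + 9 * e) * b 0 - 96 * e
  step : ∀ n : ℕ, e * (2 * (n : ℝ) + 7) ^ 2 * b (n + 2) =
    (e * (2 * (n : ℝ) + 5) ^ 2 + 4 * ((n : ℝ) + 1) ^ 2 + 18 * ((n : ℝ) + 1) + 24) * b (n + 1)
      - (2 * (n : ℝ) + 6) * (2 * (n : ℝ) + 3) * b n - 24 * e * ((n : ℝ) + 3) ^ 2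
  lower : ∀ n : ℕ, cInf e * ((n : ℝ) + 1) ≤ b n
  upper_zero : b 0 ≤ cInf e * (1 + (10 - 4 * e) / (8 * (1 - e)))
  ratio_hi : ∀ n : ℕ, ((n : ℝ) + 1) * b (n + 1) ≤ ((n : ℝ) + 2) * b n
  ratio_lo : ∀ n : ℕ, ((n : ℝ) + 5 / 4) * b n ≤ ((n : ℝ) + 1) * b (n + 1)
  slope_step : ∀ n : ℕ,
    (2 * (n : ℝ) + 3 + 3 / e) * b n ≤ (2 * (n : ℝ) + 5) * b (n + 1) + 8 * ((n : ℝ) + 2)

/-- What the series gives at each contact. -/
structure InBounds (e β : ℝ) (v w : ℝ → ℝ) : Prop where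
  beta_lo : 12 ≤ β
  beta_hi : β * (1 - e) ^ 3 ≤ 12 * (1 - e) ^ 3 + 9 / 4 * e * (1 - e) * (9 - 6 * e)
  origin_pos : ∃ k : ℝ, 0 < k ∧ ∀ t ∈ Ioc (0 : ℝ) 1, k * t ^ 3 ≤ v t
  weight_le : ∀ t ∈ Ioc (0 : ℝ) 1,
    v t * yf e t ^ 2 ≤ t ^ 3 * (cInf e * (1 + (10 - 4 * e) / (8 * (1 - e))))
  rim_le : ∀ t ∈ Ioc (0 : ℝ) 1, v t * yf e t / t ^ 3 ≤ v 1 * (1 - e)
  ratio_lo : ∀ t ∈ Ioc (0 : ℝ) 1, (3 - e * t ^ 2 / 2) * v t ≤ yf e t * w t
  ratio_hi : ∀ t ∈ Ioc (0 : ℝ) 1, yf e t * w t ≤ (3 + e * t ^ 2) * v t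
  slope_nonneg : ∀ t ∈ Ioc (0 : ℝ) 1, 0 ≤ slopeF e t (v t) (w t)
  slope_mono : MonotoneOn (fun t => slopeF e t (v t) (w t)) (Ioc 0 1)

/-- The coefficients exist. -/
def CoeffPin : Prop := ∀ e ∈ Ioo (0 : ℝ) 1, ∃ b : ℕ → ℝ, CoeffFacts e b

/-- The series of the coefficients is the solution. -/
def SeriesPin : Prop :=
  ∀ e ∈ Ioo (0 : ℝ) 1, ∀ b : ℕ → ℝ, CoeffFacts e b →
    ∀ (β : ℝ) (v w : ℝ → ℝ), Sol e β v w → InBounds e β v w

/-- The facts inside the ball. -/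
def AlgPin : Prop :=
  ∀ e ∈ Ioo (0 : ℝ) 1, ∀ (β : ℝ) (v w : ℝ → ℝ), Sol e β v w → InBounds e β v w →
    InFacts e β v w

/-- The facts beyond the diameter. -/
def OutPin : Prop :=
  ∀ R : ℝ, 0 < R → ∀ (β : ℝ) (v w : ℝ → ℝ), Sol (Real.tanh R ^ 2) β v w →
    InBounds (Real.tanh R ^ 2) β v w → OutFacts R β (v 1)

/-- The four pins give the facts. -/
theorem facts_of_pins (hC : CoeffPin) (hS : SeriesPin) (hA : AlgPin) (hO : OutPin) :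
    FactsPin := by
  intro R hR β v w hs
  have h0 : 0 < Real.tanh R := by
    rw [Real.tanh_eq_sinh_div_cosh]
    exact div_pos (Real.sinh_pos_iff.2 hR) (Real.cosh_pos R)
  have he : Real.tanh R ^ 2 ∈ Ioo (0 : ℝ) 1 :=
    ⟨pow_pos h0 2, pow_lt_one₀ h0.le (Real.tanh_lt_one R) two_ne_zero⟩
  obtain ⟨b, hb⟩ := hC _ he
  have hi := hS _ he b hb β v w hs
  exact ⟨le_trans (by norm_num) hi.beta_lo, hA _ he β v w hs hi, hO R hR β v w hs hi⟩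

end Vale.Agent.P219.CH.Relax.Four
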