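import Mathlib

/-!
# Power series with coefficients of polynomial growth, inside the unit interval
-/

noncomputable section

open Set Filter Topology

namespace Vale.Agent.P219.CH.Relax.Four.Ser

/-- The sum of the series. -/
def ser (g : ℕ → ℝ) (x : ℝ) : ℝ := ∑' n, g n * x ^ n

/-- Growth at most polynomial. -/
def PolyBdd (g : ℕ → ℝ) : Prop :=
  ∃ (C : ℝ) (k : ℕ), 0 ≤ C ∧ ∀ n, |g n| ≤ C * ((n : ℝ) + 1) ^ k

variable {g h : ℕ → ℝ} {x : ℝ}

theorem PolyBdd.const (c : ℝ) : PolyBdd fun _ => c :=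
  ⟨|c|, 0, abs_nonneg c, fun n => by simp⟩

theorem PolyBdd.add (hg : PolyBdd g) (hh : PolyBdd h) : PolyBdd fun n => g n + h n := by
  obtain ⟨C, k, hC, hg⟩ := hg
  obtain ⟨D, l, hD, hh⟩ := hh
  refine ⟨C + D, max k l, by positivity, fun n => ?_⟩
  have h1 : (1 : ℝ) ≤ (n : ℝ) + 1 := by linarith [Nat.cast_nonneg (α := ℝ) n]
  calc |g n + h n| ≤ |g n| + |h n| := abs_add_le _ _
    _ ≤ C * ((n : ℝ) + 1) ^ k + D * ((n : ℝ) + 1) ^ l := add_le_add (hg n) (hh n)
    _ ≤ C * ((n : ℝ) + 1) ^ max k l + D * ((n : ℝ) + 1) ^ max k l := by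
      gcongr <;> first | exact h1 | exact le_max_left _ _ | exact le_max_right _ _
    _ = _ := by ring

theorem PolyBdd.mul (hg : PolyBdd g) (hh : PolyBdd h) : PolyBdd fun n => g n * h n := by
  obtain ⟨C, k, hC, hg⟩ := hg
  obtain ⟨D, l, hD, hh⟩ := hh
  refine ⟨C * D, k + l, by positivity, fun n => ?_⟩
  rw [abs_mul]
  calc |g n| * |h n| ≤ (C * ((n : ℝ) + 1) ^ k) * (D * ((n : ℝ) + 1) ^ l) :=
        mul_le_mul (hg n) (hh n) (abs_nonneg _) (by positivity)
    _ = _ := by rw [pow_add]; ring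

theorem PolyBdd.natCast : PolyBdd fun n => (n : ℝ) :=
  ⟨1, 1, zero_le_one, fun n => by simp⟩

theorem PolyBdd.neg (hg : PolyBdd g) : PolyBdd fun n => -g n := by
  obtain ⟨C, k, hC, hg⟩ := hg
  exact ⟨C, k, hC, fun n => by simpa using hg n⟩

theorem PolyBdd.sub (hg : PolyBdd g) (hh : PolyBdd h) : PolyBdd fun n => g n - h n := by
  simpa [sub_eq_add_neg] using hg.add hh.neg

theorem PolyBdd.succ (hg : PolyBdd g) : PolyBdd fun n => g (n + 1) := by
  obtain ⟨C, k, hC, hg⟩ := hg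
  refine ⟨C * 2 ^ k, k, by positivity, fun n => (hg (n + 1)).trans ?_⟩
  rw [mul_assoc, ← mul_pow]
  gcongr
  push_cast
  linarith [Nat.cast_nonneg (α := ℝ) n]

/-- The coefficients of the series times the factor 1 - x. -/
def diff (g : ℕ → ℝ) : ℕ → ℝ
  | 0 => g 0
  | n + 1 => g (n + 1) - g n

/-- The coefficients of the derivative. -/
def dcoef (g : ℕ → ℝ) (n : ℕ) : ℝ := ((n : ℝ) + 1) * g (n + 1)

theorem PolyBdd.diff (hg : PolyBdd g) : PolyBdd (Ser.diff g) := by
  obtain ⟨C, k, hC, hg⟩ := hg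
  refine ⟨2 * C, k, by positivity, fun n => ?_⟩
  have h1 := hg n
  cases n with
  | zero =>
    have : (0:ℝ) ≤ C * ((0 : ℕ) + 1 : ℝ) ^ k := by positivity
    simp only [Ser.diff]; linarith
  | succ m =>
    have h2 := hg m
    have h3 : C * ((m : ℝ) + 1) ^ k ≤ C * (((m + 1 : ℕ) : ℝ) + 1) ^ k := by
      gcongr; linarith
    simp only [Ser.diff]
    linarith [abs_sub (g (m + 1)) (g m)]

theorem PolyBdd.dcoef (hg : PolyBdd g) : PolyBdd (Ser.dcoef g) :=
  ((PolyBdd.natCast.add (PolyBdd.const 1)).mul hg.succ)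

theorem summable_ser (hg : PolyBdd g) (hx : |x| < 1) : Summable fun n => g n * x ^ n := by
  obtain ⟨C, k, hC, hg⟩ := hg
  have hb : Summable fun n : ℕ => C * 2 ^ k * ((n : ℝ) ^ k * |x| ^ n + |x| ^ n) :=
    ((summable_pow_mul_geometric_of_norm_lt_one k (by simpa using hx)).add
      (summable_geometric_of_lt_one (abs_nonneg x) hx)).mul_left _
  refine Summable.of_norm_bounded hb fun n => ?_
  rw [Real.norm_eq_abs, abs_mul, abs_pow]
  have h1 : ((n : ℝ) + 1) ^ k ≤ 2 ^ k * ((n : ℝ) ^ k + 1) := by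
    rcases Nat.eq_zero_or_pos n with rfl | hn
    · calc ((0 : ℕ) + 1 : ℝ) ^ k = 1 * 1 := by simp
        _ ≤ _ := mul_le_mul (one_le_pow₀ one_le_two) (le_add_of_nonneg_left (by positivity))
          zero_le_one (by positivity)
    · have : (1 : ℝ) ≤ n := Nat.one_le_cast.2 hn
      calc ((n : ℝ) + 1) ^ k ≤ (2 * n) ^ k := by gcongr; linarith
        _ ≤ _ := by
          rw [mul_pow]
          gcongr
          linarith
  calc |g n| * |x| ^ n ≤ C * (2 ^ k * ((n : ℝ) ^ k + 1)) * |x| ^ n := by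
        gcongr
        exact (hg n).trans (by gcongr)
    _ = _ := by ring

theorem hasSum_ser (hg : PolyBdd g) (hx : |x| < 1) :
    HasSum (fun n => g n * x ^ n) (ser g x) := (summable_ser hg hx).hasSum

theorem ser_add (hg : PolyBdd g) (hh : PolyBdd h) (hx : |x| < 1) :
    ser (fun n => g n + h n) x = ser g x + ser h x := by
  simp only [ser, add_mul]
  exact (summable_ser hg hx).tsum_add (summable_ser hh hx)

theorem ser_sub (hg : PolyBdd g) (hh : PolyBdd h) (hx : |x| < 1) :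
    ser (fun n => g n - h n) x = ser g x - ser h x := by
  simp only [ser, sub_mul]
  exact (summable_ser hg hx).tsum_sub (summable_ser hh hx)

theorem ser_mul_left (c : ℝ) : ser (fun n => c * g n) x = c * ser g x := by
  simp only [ser, mul_assoc, tsum_mul_left]

theorem ser_succ (hg : PolyBdd g) (hx : |x| < 1) :
    ser g x = g 0 + x * ser (fun n => g (n + 1)) x := by
  rw [ser, (summable_ser hg hx).tsum_eq_zero_add, ser, ← tsum_mul_left]
  simp only [pow_zero, mul_one, pow_succ]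
  congr 1
  exact tsum_congr fun n => by ring

theorem ser_diff (hg : PolyBdd g) (hx : |x| < 1) : ser (diff g) x = (1 - x) * ser g x := by
  rw [ser_succ hg.diff hx]
  simp only [diff]
  rw [ser_sub hg.succ hg hx]
  have := ser_succ hg hx
  linear_combination (-1 : ℝ) * this

theorem ser_one (hx : |x| < 1) : ser (fun _ => (1 : ℝ)) x = 1 / (1 - x) := by
  simp only [ser, one_mul, one_div]
  exact tsum_geometric_of_abs_lt_one hx

theorem ser_succ_nat (hx : |x| < 1) :
    ser (fun n => (n : ℝ) + 1) x = 1 / (1 - x) ^ 2 := by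
  have hp : PolyBdd fun n => (n : ℝ) + 1 := PolyBdd.natCast.add (PolyBdd.const 1)
  have h := ser_diff hp hx
  have e : diff (fun n => (n : ℝ) + 1) = fun _ => 1 := funext fun n => by
    cases n <;> simp [diff]
  have hy : 0 < 1 - x := by linarith [(abs_lt.1 hx).2]
  rw [e, ser_one hx] at h
  field_simp at h ⊢
  linarith

theorem ser_pronic (hx : |x| < 1) :
    ser (fun n => ((n : ℝ) + 1) * ((n : ℝ) + 2)) x = 2 / (1 - x) ^ 3 := by
  have hp : PolyBdd fun n => (n : ℝ) + 1 := PolyBdd.natCast.add (PolyBdd.const 1)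
  have h := ser_diff (hp.mul (PolyBdd.natCast.add (PolyBdd.const 2))) hx
  have e : diff (fun n => ((n : ℝ) + 1) * ((n : ℝ) + 2)) = fun n : ℕ => 2 * ((n : ℝ) + 1) :=
    funext fun n => by
      cases n with
      | zero => simp [diff]
      | succ m => simp only [diff]; push_cast; ring
  have hy : 0 < 1 - x := by linarith [(abs_lt.1 hx).2]
  rw [e, ser_mul_left, ser_succ_nat hx] at h
  field_simp at h ⊢
  linarith

theorem ser_le (hg : PolyBdd g) (hh : PolyBdd h) (h0 : 0 ≤ x) (hx : x < 1)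
    (hle : ∀ n, g n ≤ h n) : ser g x ≤ ser h x :=
  (summable_ser hg (by rwa [abs_of_nonneg h0])).tsum_le_tsum
    (fun n => mul_le_mul_of_nonneg_right (hle n) (pow_nonneg h0 n))
    (summable_ser hh (by rwa [abs_of_nonneg h0]))

theorem ser_nonneg (h0 : 0 ≤ x) (hg : ∀ n, 0 ≤ g n) : 0 ≤ ser g x :=
  tsum_nonneg fun n => mul_nonneg (hg n) (pow_nonneg h0 n)

theorem head_le_ser (hg : PolyBdd g) (h0 : 0 ≤ x) (hx : x < 1) (hpos : ∀ n, 0 ≤ g n) :
    g 0 ≤ ser g x := by
  simpa [ser] using (summable_ser hg (by rwa [abs_of_nonneg h0])).le_tsum 0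
    fun n _ => mul_nonneg (hpos n) (pow_nonneg h0 n)

theorem ser_mono {z : ℝ} (hg : PolyBdd g) (hpos : ∀ n, 0 ≤ g (n + 1)) (h0 : 0 ≤ x) (hxz : x ≤ z)
    (hz : z < 1) : ser g x ≤ ser g z := by
  have ax : |x| < 1 := by rw [abs_of_nonneg h0]; linarith
  have az : |z| < 1 := by rw [abs_of_nonneg (h0.trans hxz)]; linarith
  refine (summable_ser hg ax).tsum_le_tsum (fun n => ?_) (summable_ser hg az)
  cases n with
  | zero => simp
  | succ m => exact mul_le_mul_of_nonneg_left (pow_le_pow_left₀ h0 hxz _) (hpos m)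

theorem hasDerivAt_ser (hg : PolyBdd g) (hx : |x| < 1) :
    HasDerivAt (ser g) (ser (dcoef g) x) x := by
  obtain ⟨ρ, hρx, hρ⟩ := exists_between hx
  have hρ0 : 0 < ρ := (abs_nonneg x).trans_lt hρx
  have hρa : |ρ| < 1 := by rwa [abs_of_pos hρ0]
  set u := fun n : ℕ => |(n : ℝ) * g n| * ρ ^ (n - 1) with hu
  have hus : Summable u := by
    have h1 : Summable fun n => |dcoef g n * ρ ^ n| := (summable_ser hg.dcoef hρa).abs
    refine (summable_nat_add_iff 1).1 (h1.congr fun n => ?_)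
    simp only [hu, dcoef, Nat.add_sub_cancel, abs_mul, abs_of_pos (pow_pos hρ0 n)]
    push_cast
    ring
  have h := hasDerivAt_tsum_of_isPreconnected (t := Ioo (-ρ) ρ)
    (g := fun n y => g n * y ^ n) (g' := fun n y => g n * ((n : ℝ) * y ^ (n - 1))) hus isOpen_Ioo
    isPreconnected_Ioo (fun n y _ => (hasDerivAt_pow n y).const_mul (g n)) (fun n y hy => by
      rw [Real.norm_eq_abs, abs_mul, abs_mul, hu]
      simp only [abs_mul, abs_pow]
      calc |g n| * (|(n : ℝ)| * |y| ^ (n - 1)) ≤ |g n| * (|(n : ℝ)| * ρ ^ (n - 1)) := by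
            gcongr; exact (abs_lt.2 hy).le
        _ = _ := by ring)
    (y₀ := 0) ⟨by linarith, hρ0⟩ (summable_ser hg (by simp)) (abs_lt.1 hρx)
  refine h.congr_deriv ?_
  have hs : Summable fun n => g n * ((n : ℝ) * x ^ (n - 1)) := by
    refine (summable_nat_add_iff 1).1 ((summable_ser hg.dcoef hx).congr fun n => ?_)
    simp only [dcoef, Nat.add_sub_cancel]
    push_cast
    ring
  rw [hs.tsum_eq_zero_add, ser]
  simp only [Nat.cast_zero, zero_mul, mul_zero, zero_add, Nat.add_sub_cancel, dcoef]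
  exact tsum_congr fun n => by push_cast; ring

theorem continuousOn_ser (hg : PolyBdd g) : ContinuousOn (ser g) (Ioo (-1) 1) := fun _ hx =>
  (hasDerivAt_ser hg (abs_lt.2 hx)).continuousAt.continuousWithinAt

end Vale.Agent.P219.CH.Relax.Four.Ser
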