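import Vale.Agent.P219.Relax.Four.SeqDefs
import Vale.Agent.P219.Relax.Four.OdeBounds
import Vale.Agent.P219.Relax.Four.SerBasic

/-!
# P219, dimension four: the series of the coefficients is the solution, and its bounds

With `x = e t ^ 2`, `v = t ^ 3 Φ (x)` and `w = t ^ 3 (3 Φ + 2 x Φ') (x)`. Multiplication by `1 - x`
takes differences of coefficients, so every bound is read off the coefficients.
-/

noncomputable section

open Set Filter Topology

namespace Vale.Agent.P219.CH.Relax.Four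

open Ser

variable {e : ℝ} {b : ℕ → ℝ}

/-- The coefficients of `w / t ^ 3`. -/
def wCoef (b : ℕ → ℝ) (n : ℕ) : ℝ := (2 * (n : ℝ) + 3) * b n

/-- The coefficients of `w' / t ^ 2`. -/
def wdCoef (b : ℕ → ℝ) (n : ℕ) : ℝ := (2 * (n : ℝ) + 3) ^ 2 * b n

/-- The series weight. -/
def vSer (e : ℝ) (b : ℕ → ℝ) (t : ℝ) : ℝ := t ^ 3 * ser b (e * t ^ 2)

/-- Its companion. -/
def wSer (e : ℝ) (b : ℕ → ℝ) (t : ℝ) : ℝ := t ^ 3 * ser (wCoef b) (e * t ^ 2)

/-- The value of `β` read off the first coefficient. -/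
def betaSer (b : ℕ → ℝ) : ℝ := (9 * b 0 + 24) / 2

theorem cInf_pos (he : e ∈ Ioo (0 : ℝ) 1) : 0 < cInf e :=
  div_pos (by linarith [he.1]) (by linarith [he.2])

theorem CoeffFacts.pos (hb : CoeffFacts e b) (he : e ∈ Ioo (0 : ℝ) 1) (n : ℕ) : 0 < b n :=
  lt_of_lt_of_le (by have := cInf_pos he; positivity) (hb.lower n)

theorem CoeffFacts.le_linear (hb : CoeffFacts e b) (n : ℕ) : b n ≤ ((n : ℝ) + 1) * b 0 := by
  induction n with
  | zero => simp
  | succ m ih =>
    have h := hb.ratio_hi m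
    have h2 : ((m : ℝ) + 1) * b (m + 1) ≤ ((m : ℝ) + 1) * (((m : ℝ) + 2) * b 0) := by
      calc _ ≤ ((m : ℝ) + 2) * b m := h
        _ ≤ ((m : ℝ) + 2) * (((m : ℝ) + 1) * b 0) := by gcongr
        _ = _ := by ring
    refine (le_of_mul_le_mul_left h2 (by positivity)).trans (le_of_eq ?_)
    push_cast; ring

theorem CoeffFacts.polyBdd (hb : CoeffFacts e b) (he : e ∈ Ioo (0 : ℝ) 1) : PolyBdd b :=
  ⟨b 0, 1, (hb.pos he 0).le, fun n => by
    rw [abs_of_pos (hb.pos he n), pow_one]; linarith [hb.le_linear n]⟩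

theorem CoeffFacts.mono (hb : CoeffFacts e b) (he : e ∈ Ioo (0 : ℝ) 1) (n : ℕ) :
    b n ≤ b (n + 1) := by
  refine le_of_mul_le_mul_left ?_ (by positivity : (0:ℝ) < (n : ℝ) + 1)
  exact le_trans (mul_le_mul_of_nonneg_right (by linarith) (hb.pos he n).le) (hb.ratio_lo n)

theorem wCoef_bdd (hb : PolyBdd b) : PolyBdd (wCoef b) :=
  (((PolyBdd.const 2).mul PolyBdd.natCast).add (PolyBdd.const 3)).mul hb

theorem wdCoef_bdd (hb : PolyBdd b) : PolyBdd (wdCoef b) := by
  have h := ((PolyBdd.const 2).mul PolyBdd.natCast).add (PolyBdd.const 3)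
  rw [show wdCoef b = fun n : ℕ => (2 * (n : ℝ) + 3) * (2 * (n : ℝ) + 3) * b n from
    funext fun n => by rw [wdCoef]; ring]
  exact (h.mul h).mul hb

theorem ser_wCoef (hb : PolyBdd b) {x : ℝ} (hx : |x| < 1) :
    ser (wCoef b) x = 3 * ser b x + 2 * (x * ser (dcoef b) x) := by
  have hd := (PolyBdd.natCast).mul hb
  have e1 : wCoef b = fun n => 3 * b n + 2 * ((n : ℝ) * b n) :=
    funext fun n => by rw [wCoef]; ring
  rw [e1, ser_add ((PolyBdd.const 3).mul hb) ((PolyBdd.const 2).mul hd) hx, ser_mul_left,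
    ser_mul_left, ser_succ hd hx]
  simp only [Nat.cast_add, Nat.cast_one, Nat.cast_zero, zero_mul, zero_add]
  rfl

theorem ser_wdCoef (hb : PolyBdd b) {x : ℝ} (hx : |x| < 1) :
    ser (wdCoef b) x = 3 * ser (wCoef b) x + 2 * (x * ser (dcoef (wCoef b)) x) := by
  rw [← ser_wCoef (wCoef_bdd hb) hx]
  congr 1
  funext n
  simp only [wdCoef, wCoef]; ring

/-- The identity behind the equation. -/
theorem ser_equation (hb : CoeffFacts e b) (he : e ∈ Ioo (0 : ℝ) 1) {x : ℝ} (hx : |x| < 1) :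
    (1 - x) * (e - x) * ser (wdCoef b) x - 3 * x * (1 - x) * ser (wCoef b) x =
      6 * x * ser b x + 2 * e * betaSer b - 24 * e * (1 + x) / (1 - x) ^ 3 := by
  have hbb := hb.polyBdd he
  have ha := wdCoef_bdd hbb
  have hf := wCoef_bdd hbb
  have hn1 : PolyBdd fun n => (n : ℝ) + 1 := PolyBdd.natCast.add (PolyBdd.const 1)
  have hsq : PolyBdd fun n => ((n : ℝ) + 1) ^ 2 := by simpa [sq] using hn1.mul hn1
  have hy : 0 < 1 - x := by linarith [(abs_lt.1 hx).2]
  have esq : ser (fun n => ((n : ℝ) + 1) ^ 2) x = (1 + x) / (1 - x) ^ 3 := by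
    have e1 : (fun n : ℕ => ((n : ℝ) + 1) ^ 2) =
        fun n : ℕ => ((n : ℝ) + 1) * ((n : ℝ) + 2) - ((n : ℝ) + 1) := funext fun n => by ring
    rw [e1, ser_sub (hn1.mul (PolyBdd.natCast.add (PolyBdd.const 2))) hn1 hx, ser_pronic hx,
      ser_succ_nat hx]
    field_simp
    ring
  set g := fun n : ℕ => e * wdCoef b n + 24 * e * ((n : ℝ) + 1) ^ 2 with hg
  set h := fun n : ℕ => (-(e + 1) * wdCoef b n + -3 * wCoef b n) + -6 * b n with hh
  set p := fun n : ℕ => wdCoef b n + 3 * wCoef b n with hp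
  have hgb : PolyBdd g :=
    ((PolyBdd.const e).mul ha).add ((PolyBdd.const (24 * e)).mul hsq)
  have hhb : PolyBdd h :=
    (((PolyBdd.const (-(e + 1))).mul ha).add ((PolyBdd.const (-3)).mul hf)).add
      ((PolyBdd.const (-6)).mul hbb)
  have hpb : PolyBdd p := ha.add ((PolyBdd.const 3).mul hf)
  have eg : ser g x = e * ser (wdCoef b) x + 24 * e * ((1 + x) / (1 - x) ^ 3) := by
    rw [hg, ser_add ((PolyBdd.const e).mul ha) ((PolyBdd.const (24 * e)).mul hsq) hx,
      ser_mul_left, ser_mul_left, esq]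
  have eh : ser h x =
      -(e + 1) * ser (wdCoef b) x + -3 * ser (wCoef b) x + -6 * ser b x := by
    rw [hh, ser_add (((PolyBdd.const (-(e + 1))).mul ha).add ((PolyBdd.const (-3)).mul hf))
      ((PolyBdd.const (-6)).mul hbb) hx, ser_add ((PolyBdd.const (-(e + 1))).mul ha)
      ((PolyBdd.const (-3)).mul hf) hx, ser_mul_left, ser_mul_left, ser_mul_left]
  have ep : ser p x = ser (wdCoef b) x + 3 * ser (wCoef b) x := by
    rw [hp, ser_add ha ((PolyBdd.const 3).mul hf) hx, ser_mul_left]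
  have z : ∀ n, g (n + 2) + h (n + 1) + p n = 0 := fun n => by
    simp only [hg, hh, hp, wdCoef, wCoef]
    push_cast
    linear_combination hb.step n
  have h01 : g 1 + h 0 = 0 := by
    simp only [hg, hh, wdCoef, wCoef, Nat.cast_one, Nat.cast_zero]
    linear_combination hb.start
  have h00 : g 0 = 2 * e * betaSer b := by
    simp only [hg, wdCoef, betaSer, Nat.cast_zero]; ring
  have key : ser g x + x * ser h x + x ^ 2 * ser p x = 2 * e * betaSer b := by
    have hz : ser (fun n => g (n + 2) + h (n + 1) + p n) x = 0 := by simp [z, ser]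
    rw [ser_add (hgb.succ.succ.add hhb.succ) hpb hx, ser_add hgb.succ.succ hhb.succ hx] at hz
    rw [ser_succ hgb hx, ser_succ hgb.succ hx, ser_succ hhb hx]
    simp only [zero_add, show ∀ n : ℕ, n + 1 + 1 = n + 2 from fun n => rfl]
    linear_combination x ^ 2 * hz + x * h01 + h00
  rw [eg, eh, ep] at key
  linear_combination key

theorem abs_arg_lt (he : e ∈ Ioo (0 : ℝ) 1) {t : ℝ} (ht : t ∈ Icc (0 : ℝ) 1) :
    |e * t ^ 2| < 1 := by
  rw [abs_of_nonneg (mul_nonneg he.1.le (sq_nonneg t))]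
  have : e * t ^ 2 ≤ e * 1 := mul_le_mul_of_nonneg_left (by nlinarith [ht.1, ht.2]) he.1.le
  linarith [he.2]

theorem hasDerivAt_cube_ser {g : ℕ → ℝ} (hg : PolyBdd g) {t : ℝ} (hx : |e * t ^ 2| < 1) :
    HasDerivAt (fun t => t ^ 3 * ser g (e * t ^ 2))
      (t ^ 2 * (3 * ser g (e * t ^ 2) + 2 * (e * t ^ 2 * ser (dcoef g) (e * t ^ 2)))) t := by
  have h1 : HasDerivAt (fun t : ℝ => e * t ^ 2) (e * (2 * t)) t := by
    simpa using ((hasDerivAt_id t).fun_pow 2).const_mul e
  have h3 : HasDerivAt (fun t : ℝ => t ^ 3) (3 * t ^ 2) t := by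
    simpa using (hasDerivAt_id t).fun_pow 3
  refine (h3.mul ((hasDerivAt_ser hg hx).comp t h1)).congr_deriv ?_
  simp only [Function.comp_apply]
  ring

/-- The series pair is a solution. -/
theorem sol_series (hb : CoeffFacts e b) (he : e ∈ Ioo (0 : ℝ) 1) :
    Sol e (betaSer b) (vSer e b) (wSer e b) := by
  have hbb := hb.polyBdd he
  have hf := wCoef_bdd hbb
  have hcont : ∀ g : ℕ → ℝ, PolyBdd g →
      ContinuousOn (fun t => t ^ 3 * ser g (e * t ^ 2)) (Icc 0 1) := fun g hg t ht =>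
    (hasDerivAt_cube_ser hg (abs_arg_lt he ht)).continuousAt.continuousWithinAt
  have hlim : ∀ g : ℕ → ℝ, PolyBdd g →
      Tendsto (fun t => t ^ 3 * ser g (e * t ^ 2) / t ^ 3) (𝓝[>] 0) (𝓝 (g 0)) := by
    intro g hg
    have h0 : ser g 0 = g 0 := by rw [ser_succ hg (by simp), zero_mul, add_zero]
    have hc : ContinuousAt (fun t => ser g (e * t ^ 2)) 0 :=
      ContinuousAt.comp (g := ser g) (hasDerivAt_ser hg (by simp)).continuousAt (by fun_prop)
    have h := hc.tendsto.mono_left (nhdsWithin_le_nhds (s := Ioi 0))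
    rw [show e * (0:ℝ) ^ 2 = 0 by ring, h0] at h
    refine h.congr' ?_
    filter_upwards [self_mem_nhdsWithin] with t ht
    have : t ≠ 0 := ne_of_gt ht
    field_simp
  refine ⟨hcont b hbb, hcont _ hf, fun t ht => ?_, fun t ht => ?_, ?_, by simp [vSer],
    by simp [wSer], b 0, hlim b hbb, ?_⟩
  · refine (hasDerivAt_cube_ser hbb (abs_arg_lt he (Ioo_subset_Icc_self ht))).congr_deriv ?_
    rw [wSer, ser_wCoef hbb (abs_arg_lt he (Ioo_subset_Icc_self ht))]
    have := ht.1.ne'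
    field_simp
  · have hx := abs_arg_lt he (Ioo_subset_Icc_self ht)
    refine (hasDerivAt_cube_ser hf hx).congr_deriv ?_
    rw [← ser_wdCoef hbb hx]
    have key := ser_equation hb he hx
    have hy : yf e t = 1 - e * t ^ 2 := rfl
    have hy0 : 0 < 1 - e * t ^ 2 := by linarith [(abs_lt.1 hx).2]
    have hd := (one_sub_sq_pos ht.1.le ht.2).ne'
    simp only [wDeriv, src, vSer, wSer, hy]
    rw [eq_div_iff hd, ← sub_eq_zero]
    set A := ser (wdCoef b) (e * t ^ 2)
    set B := ser (wCoef b) (e * t ^ 2)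
    set F := ser b (e * t ^ 2)
    refine (mul_eq_zero.1 (?_ : e * (1 - e * t ^ 2) * _ = 0)).resolve_left
      (mul_ne_zero he.1.ne' hy0.ne')
    field_simp
    field_simp at key
    linear_combination t ^ 2 * key
  · have hx := abs_arg_lt he (t := 1) ⟨zero_le_one, le_rfl⟩
    have key := ser_equation hb he hx
    simp only [one_pow, mul_one] at key hx
    have hy0 : (1 - e) ≠ 0 := by linarith [he.2]
    simp only [src, vSer, wSer, yf, one_pow, mul_one, one_mul]
    refine (mul_eq_zero.1 (?_ : e * (1 - e) * _ = 0)).resolve_left (mul_ne_zero he.1.ne' hy0)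
    rw [sub_self, mul_zero, zero_mul, zero_sub] at key
    field_simp
    field_simp at key
    linear_combination (-1 : ℝ) * key
  · have h := hlim _ hf
    simpa [wCoef, wSer] using h

/-- Every solution is the series. -/
theorem Sol.eq_series {β : ℝ} {v w : ℝ → ℝ} (hs : Sol e β v w) (hb : CoeffFacts e b)
    (he : e ∈ Ioo (0 : ℝ) 1) :
    β = betaSer b ∧ EqOn v (vSer e b) (Icc 0 1) ∧ EqOn w (wSer e b) (Icc 0 1) := by
  have h := sol_series hb he
  obtain ⟨k, h1, h2⟩ := h.origin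
  have hy := yf_pos he zero_le_one le_rfl
  obtain ⟨hd, hall, -⟩ := compare_bounds he hs (η := 0) le_rfl
    (W' := fun t => wDeriv e (betaSer b) (vSer e b t) (wSer e b t) t) h.cont_v h.cont_w h.zero_v
    h1 h2 (fun t ht => ⟨h.deriv_v t ht, h.deriv_w t ht, by
      have hy' := (yf_pos he ht.1.le ht.2.le).ne'
      have hd := (one_sub_sq_pos ht.1.le ht.2).ne'
      rw [zero_mul, wDeriv, mul_div_cancel₀ _ hd, add_sub_cancel_right,
        mul_div_cancel₀ _ hy', sub_self, abs_zero]⟩) (by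
      have h3 := h.edge
      rw [div_add' _ _ _ hy.ne', div_eq_zero_iff] at h3
      have h4 := h3.resolve_right hy.ne'
      rw [abs_le]; constructor <;> linarith)
  refine ⟨?_, fun t ht => ?_, fun t ht => ?_⟩
  · rw [zero_div, abs_nonpos_iff, sub_eq_zero] at hd
    exact hd
  · have := (hall t ht).1
    rw [zero_div, abs_nonpos_iff, sub_eq_zero] at this
    exact this
  · have := (hall t ht).2.2.2
    rw [mul_zero] at this
    have hd0 : 0 < 1 - e := by linarith [he.2]
    have h0 : |w t - wSer e b t| ≤ 0 := le_of_mul_le_mul_left (by rwa [mul_zero]) hd0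
    rw [abs_nonpos_iff, sub_eq_zero] at h0
    exact h0

/-- The coefficients of the slope. -/
def slopeCoef (e : ℝ) (b : ℕ → ℝ) (n : ℕ) : ℝ :=
  ((n : ℝ) + 1) * ((n : ℝ) + 2) + 1 / 4 * wCoef b n - 3 / (4 * e) * ∑ j ∈ Finset.range n, b j

theorem sumCoef_bdd (hb : CoeffFacts e b) (he : e ∈ Ioo (0 : ℝ) 1) :
    PolyBdd fun n => ∑ j ∈ Finset.range n, b j := by
  refine ⟨b 0, 2, (hb.pos he 0).le, fun n => ?_⟩
  rw [abs_of_nonneg (Finset.sum_nonneg fun j _ => (hb.pos he j).le)]
  have h0 := (hb.pos he 0).le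
  calc ∑ j ∈ Finset.range n, b j ≤ ∑ j ∈ Finset.range n, ((n : ℝ) + 1) * b 0 :=
        Finset.sum_le_sum fun j hj => (hb.le_linear j).trans (by
          have : (j : ℝ) ≤ n := Nat.cast_le.2 (Finset.mem_range.1 hj).le
          gcongr)
    _ = (n : ℝ) * (((n : ℝ) + 1) * b 0) := by simp
    _ ≤ _ := by nlinarith [mul_nonneg (by positivity : (0:ℝ) ≤ (n : ℝ) + 1) h0]

theorem slopeF_series (hb : CoeffFacts e b) (he : e ∈ Ioo (0 : ℝ) 1) {t : ℝ}
    (ht : t ∈ Ioc (0 : ℝ) 1) :
    slopeF e t (vSer e b t) (wSer e b t) = ser (slopeCoef e b) (e * t ^ 2) := by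
  have hx := abs_arg_lt he (Ioc_subset_Icc_self ht)
  have hbb := hb.polyBdd he
  have hS := sumCoef_bdd hb he
  have hn2 : PolyBdd fun n => ((n : ℝ) + 1) * ((n : ℝ) + 2) :=
    (PolyBdd.natCast.add (PolyBdd.const 1)).mul (PolyBdd.natCast.add (PolyBdd.const 2))
  set B := fun n => ∑ j ∈ Finset.range n, b j with hB
  have eB : (1 - e * t ^ 2) * ser B (e * t ^ 2) = e * t ^ 2 * ser b (e * t ^ 2) := by
    rw [← ser_diff hS hx, ser_succ hS.diff hx]
    simp [diff, Finset.sum_range_succ, hB]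
  have hsc : ser (slopeCoef e b) (e * t ^ 2) = 2 / (1 - e * t ^ 2) ^ 3 +
      1 / 4 * ser (wCoef b) (e * t ^ 2) - 3 / (4 * e) * ser B (e * t ^ 2) := by
    unfold slopeCoef
    rw [ser_sub (hn2.add ((PolyBdd.const (1 / 4)).mul (wCoef_bdd hbb)))
        ((PolyBdd.const (3 / (4 * e))).mul hS) hx,
      ser_add hn2 ((PolyBdd.const (1 / 4)).mul (wCoef_bdd hbb)) hx, ser_pronic hx, ser_mul_left,
      ser_mul_left]
  rw [hsc]
  have hy : 0 < 1 - e * t ^ 2 := by linarith [(abs_lt.1 hx).2]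
  have hB' : ser B (e * t ^ 2) = e * t ^ 2 * ser b (e * t ^ 2) / (1 - e * t ^ 2) := by
    rw [eq_div_iff hy.ne']; linear_combination eB
  rw [hB']
  simp only [slopeF, vSer, wSer, yf]
  have := ht.1.ne'
  have := he.1.ne'
  field_simp

/-- The bounds of the solution. -/
theorem seriesPin : SeriesPin := by
  intro e he b hb β v w hs
  obtain ⟨hβ, hv, hw⟩ := hs.eq_series hb he
  have hbb := hb.polyBdd he
  have hpos := hb.pos he
  have hd0 : 0 < 1 - e := by linarith [he.2]
  have arg : ∀ t ∈ Ioc (0 : ℝ) 1, 0 ≤ e * t ^ 2 ∧ e * t ^ 2 ≤ e ∧ e * t ^ 2 < 1 := fun t ht =>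
    ⟨mul_nonneg he.1.le (sq_nonneg t),
      mul_le_of_le_one_right he.1.le (pow_le_one₀ ht.1.le ht.2),
      (abs_lt.1 (abs_arg_lt he (Ioc_subset_Icc_self ht))).2⟩
  have hmon : ∀ t ∈ Ioc (0 : ℝ) 1,
      ser (diff b) (e * t ^ 2) ≤ ser (diff b) e ∧
      (1 - e * t ^ 2) * ser (dcoef b) (e * t ^ 2) ≤ 2 * ser b (e * t ^ 2) ∧
      5 / 4 * ser b (e * t ^ 2) ≤ (1 - e * t ^ 2) * ser (dcoef b) (e * t ^ 2) := by
    intro t ht
    obtain ⟨h0, h1, h2⟩ := arg t ht
    have hx : |e * t ^ 2| < 1 := by rwa [abs_of_nonneg h0]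
    refine ⟨ser_mono hbb.diff (fun n => sub_nonneg.2 (hb.mono he n)) h0 h1 he.2, ?_, ?_⟩
    · rw [← ser_diff hbb.dcoef hx, ← ser_mul_left]
      refine ser_le hbb.dcoef.diff ((PolyBdd.const 2).mul hbb) h0 h2 fun n => ?_
      cases n with
      | zero =>
        have := hb.ratio_hi 0
        simp only [diff, dcoef, Nat.cast_zero] at *
        linarith
      | succ m =>
        have := hb.ratio_hi (m + 1)
        simp only [diff, dcoef] at *
        push_cast at *
        linarith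
    · rw [← ser_diff hbb.dcoef hx, ← ser_mul_left]
      refine ser_le ((PolyBdd.const (5 / 4)).mul hbb) hbb.dcoef.diff h0 h2 fun n => ?_
      cases n with
      | zero =>
        have := hb.ratio_lo 0
        simp only [diff, dcoef, Nat.cast_zero] at *
        linarith
      | succ m =>
        have := hb.ratio_lo (m + 1)
        simp only [diff, dcoef] at *
        push_cast at *
        linarith
  have hyw : ∀ t ∈ Ioc (0 : ℝ) 1, yf e t * w t = t ^ 3 * ((1 - e * t ^ 2) *
      (3 * ser b (e * t ^ 2)) + 2 * (e * t ^ 2) * ((1 - e * t ^ 2) *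
        ser (dcoef b) (e * t ^ 2))) := fun t ht => by
    rw [hw (Ioc_subset_Icc_self ht), wSer, ser_wCoef hbb (abs_arg_lt he (Ioc_subset_Icc_self ht)),
      yf]
    ring
  have hsl0 : ∀ n, 0 ≤ slopeCoef e b n ∧ slopeCoef e b n ≤ slopeCoef e b (n + 1) := by
    have step : ∀ n, slopeCoef e b n ≤ slopeCoef e b (n + 1) := fun n => by
      have h := hb.slope_step n
      have hn : (0:ℝ) ≤ n := n.cast_nonneg
      have e1 : 3 / (4 * e) * b n = 1 / 4 * (3 / e * b n) := by ring
      simp only [slopeCoef, wCoef, Finset.sum_range_succ]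
      push_cast
      linarith
    have z0 : 0 ≤ slopeCoef e b 0 := by
      have := hpos 0
      simp only [slopeCoef, wCoef, Finset.range_zero, Finset.sum_empty, Nat.cast_zero]
      linarith
    intro n
    refine ⟨?_, step n⟩
    induction n with
    | zero => exact z0
    | succ m ih => exact ih.trans (step m)
  have hn1 : PolyBdd fun n => (n : ℝ) + 1 := PolyBdd.natCast.add (PolyBdd.const 1)
  have hscb : PolyBdd (slopeCoef e b) :=
    ((hn1.mul (PolyBdd.natCast.add (PolyBdd.const 2))).add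
      ((PolyBdd.const (1 / 4)).mul (wCoef_bdd hbb))).sub
      ((PolyBdd.const (3 / (4 * e))).mul (sumCoef_bdd hb he))
  have hsl : ∀ t ∈ Ioc (0 : ℝ) 1,
      slopeF e t (v t) (w t) = ser (slopeCoef e b) (e * t ^ 2) := fun t ht => by
    rw [hv (Ioc_subset_Icc_self ht), hw (Ioc_subset_Icc_self ht), slopeF_series hb he ht]
  refine ⟨?_, ?_, ⟨b 0, hpos 0, fun t ht => ?_⟩, fun t ht => ?_, fun t ht => ?_, fun t ht => ?_,
    fun t ht => ?_, fun t ht => ?_, ?_⟩
  · have := hpos 0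
    rw [hβ, betaSer]; linarith
  · have h := mul_le_mul_of_nonneg_right hb.upper_zero (pow_nonneg hd0.le 3)
    have e1 : cInf e * (1 + (10 - 4 * e) / (8 * (1 - e))) * (1 - e) ^ 3 =
        2 * e * (1 - e) * ((1 - e) + (10 - 4 * e) / 8) := by
      rw [cInf]; field_simp
    rw [e1] at h
    rw [hβ, betaSer]
    linarith
  · obtain ⟨h0, -, h2⟩ := arg t ht
    rw [hv (Ioc_subset_Icc_self ht), vSer, mul_comm]
    exact mul_le_mul_of_nonneg_left (head_le_ser hbb h0 h2 fun n => (hpos n).le)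
      (pow_nonneg ht.1.le 3)
  · obtain ⟨h0, -, h2⟩ := arg t ht
    have hx : |e * t ^ 2| < 1 := by rwa [abs_of_nonneg h0]
    have h1 : ser b (e * t ^ 2) ≤ b 0 * (1 / (1 - e * t ^ 2) ^ 2) := by
      rw [← ser_succ_nat hx, ← ser_mul_left]
      exact ser_le hbb ((PolyBdd.const (b 0)).mul hn1) h0 h2 fun n => by
        linarith [hb.le_linear n]
    have hy : 0 < 1 - e * t ^ 2 := by linarith
    rw [mul_one_div, le_div_iff₀ (by positivity)] at h1
    have h3 := mul_le_mul_of_nonneg_left (h1.trans hb.upper_zero) (pow_nonneg ht.1.le 3)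
    rw [hv (Ioc_subset_Icc_self ht), vSer, yf]
    linarith
  · obtain ⟨h0, -, h2⟩ := arg t ht
    have hx : |e * t ^ 2| < 1 := by rwa [abs_of_nonneg h0]
    have h1 := (hmon t ht).1
    rw [ser_diff hbb hx, ser_diff hbb (by rw [abs_of_pos he.1]; exact he.2)] at h1
    rw [hv (Ioc_subset_Icc_self ht), hv ⟨zero_le_one, le_rfl⟩, vSer, vSer, yf,
      div_le_iff₀ (pow_pos ht.1 3)]
    have := mul_le_mul_of_nonneg_left h1 (pow_nonneg ht.1.le 3)
    simp only [one_pow, mul_one, one_mul]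
    linarith
  · have h := mul_le_mul_of_nonneg_left (hmon t ht).2.2
      (mul_nonneg (pow_nonneg ht.1.le 3) (mul_nonneg zero_le_two (arg t ht).1))
    rw [hyw t ht, hv (Ioc_subset_Icc_self ht), vSer]
    linarith
  · have h := mul_le_mul_of_nonneg_left (hmon t ht).2.1
      (mul_nonneg (pow_nonneg ht.1.le 3) (mul_nonneg zero_le_two (arg t ht).1))
    rw [hyw t ht, hv (Ioc_subset_Icc_self ht), vSer]
    linarith
  · rw [hsl t ht]
    exact ser_nonneg (arg t ht).1 fun n => (hsl0 n).1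
  · intro s hs' t ht hst
    simp only
    rw [hsl s hs', hsl t ht]
    exact ser_mono hscb (fun n => (hsl0 _).1) (arg s hs').1
      (mul_le_mul_of_nonneg_left (pow_le_pow_left₀ hs'.1.le hst 2) he.1.le) (arg t ht).2.2

end Vale.Agent.P219.CH.Relax.Four
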