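import Vale.Agent.P219.Relax.Four.Value
import Vale.Agent.P219.Relax.Rigid.Defs
import Vale.Agent.P219.Relax.Strict.LineOf

/-!
# P219, dimension four: the radial certificates are strict

The slack is the kernel less the least the line condition asks of it: the two values and the gain
where both cosines are inward, the gain where one is outward. Inside the diameter it vanishes only
at the contact, beyond it only where both cosines are one.
-/

noncomputable section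

open Set Filter Topology MeasureTheory

namespace Vale.Agent.P219.CH.Relax.Four.Strictly

open GenK.Four (tanh_pos)
open Ser

/-! ## Scalar strictness -/

/-- The pair bound is strict away from two cosines equal to `t`. -/
lemma pair_core_lt {p h q S A A' B c d t : ℝ} (hS : 0 < S) (hc : c ∈ Ioc (0 : ℝ) 1)
    (hd : d ∈ Ioc (0 : ℝ) 1) (ht : t ∈ Ioc (0 : ℝ) 1)
    (hmono : ∀ x ∈ Icc (0 : ℝ) 1, 0 ≤ p - h * x + 2 * q * x ^ 2)
    (hne : (c + d) / 2 ≠ t ∨
      (c ≠ d ∧ 0 < p - h * ((c + d) / 2) + 2 * q * ((c + d) / 2) ^ 2))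
    (hconv : ∀ x ∈ Ioc (0 : ℝ) 1, 0 < p * (2 * x + t) - h * (x * t))
    (hval : A + B ≤ S * (p - h * t + q * t ^ 2) / t ^ 2)
    (hslope : 0 ≤ ((c + d) / 2 - t) * (S * (h * t - 2 * p) / t ^ 3 - A')) :
    (c * d) * (2 * (A + A' * ((c + d) / 2 - t)) + 2 * B) <
      S * (2 * p - h * (c + d) + q * (c ^ 2 + d ^ 2)) := by
  obtain ⟨m, hm⟩ : ∃ m, m = (c + d) / 2 := ⟨_, rfl⟩
  rw [← hm] at hne hslope ⊢
  have hmI : m ∈ Ioc (0 : ℝ) 1 := ⟨by linarith [hc.1, hd.1], by linarith [hc.2, hd.2]⟩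
  obtain ⟨M, hM⟩ : ∃ M, M = S * (p - h * m + q * m ^ 2) / m ^ 2 := ⟨_, rfl⟩
  have e1 : S * (2 * p - h * (c + d) + q * (c ^ 2 + d ^ 2)) = (c * d) * (2 * M) +
      2 * S * ((c - d) / 2) ^ 2 * (p - h * m + 2 * q * m ^ 2) / m ^ 2 := by
    have h0 := hmI.1.ne'
    rw [hM, show c + d = 2 * m by linarith, show d = 2 * m - c by linarith]
    field_simp
    ring
  have e2 : M - (A + A' * (m - t) + B) =
      (S * (p - h * t + q * t ^ 2) / t ^ 2 - (A + B)) +
        (m - t) * (S * (h * t - 2 * p) / t ^ 3 - A') +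
        S * ((m - t) ^ 2 * (p * (2 * m + t) - h * (m * t)) / (m ^ 2 * t ^ 3)) := by
    have := hmI.1.ne'
    have := ht.1.ne'
    rw [hM]
    field_simp
    ring
  have h2 : 0 ≤ S * ((m - t) ^ 2 * (p * (2 * m + t) - h * (m * t)) / (m ^ 2 * t ^ 3)) :=
    mul_nonneg hS.le (div_nonneg (mul_nonneg (sq_nonneg _) (hconv m hmI).le)
      (mul_nonneg (sq_nonneg _) (pow_nonneg ht.1.le 3)))
  have h1 : 0 ≤ 2 * S * ((c - d) / 2) ^ 2 * (p - h * m + 2 * q * m ^ 2) / m ^ 2 :=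
    div_nonneg (mul_nonneg (mul_nonneg (by linarith) (sq_nonneg _))
      (hmono m (Ioc_subset_Icc_self hmI))) (sq_nonneg m)
  have hcd := mul_pos hc.1 hd.1
  rcases hne with hne | ⟨hne, hpos⟩
  · have h3 : 0 < S * ((m - t) ^ 2 * (p * (2 * m + t) - h * (m * t)) / (m ^ 2 * t ^ 3)) :=
      mul_pos hS (div_pos (mul_pos (pow_two_pos_of_ne_zero (sub_ne_zero.2 hne)) (hconv m hmI))
        (mul_pos (pow_pos hmI.1 2) (pow_pos ht.1 3)))
    have := mul_pos hcd (show 0 < M - (A + A' * (m - t) + B) by rw [e2]; linarith)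
    linarith
  · have h4 : 0 < 2 * S * ((c - d) / 2) ^ 2 * (p - h * m + 2 * q * m ^ 2) / m ^ 2 :=
      div_pos (mul_pos (mul_pos (by linarith) (pow_two_pos_of_ne_zero
        (div_ne_zero (sub_ne_zero.2 hne) two_ne_zero))) hpos) (pow_pos hmI.1 2)
    have := mul_nonneg hcd.le (show 0 ≤ M - (A + A' * (m - t) + B) by rw [e2]; linarith)
    linarith

/-- A pair with one outward cosine has more than the gain. -/
lemma mixed_lt {p h q k c d : ℝ} (hh : 0 ≤ h) (hp : 0 < p) (h1 : p / 2 ≤ 2 * p - h + q)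
    (h2 : q < 2 * p) (h3 : k + p / 4 ≤ p + min q 0) (hc : c ∈ Icc (0 : ℝ) 1)
    (hd : d ∈ Icc (0 : ℝ) 1) :
    2 * k * (c * d) < 2 * p - h * c + h * d + q * (c ^ 2 + d ^ 2) := by
  obtain ⟨δ, hδ⟩ : ∃ δ, δ = min (p / 4) ((2 * p - q) / 2) := ⟨_, rfl⟩
  have hd1 : δ ≤ p / 4 := hδ ▸ min_le_left _ _
  have hd2 : δ ≤ (2 * p - q) / 2 := hδ ▸ min_le_right _ _
  have hd0 : 0 < δ := hδ ▸ lt_min (by linarith) (by linarith)
  have := mixed_core (p := p - δ) (q := q) hh (by linarith) (by linarith) (by linarith) (by linarith) hc hd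
    (k := k)
  linarith

/-! ## Inside the diameter -/

theorem edge_bound_lt {e β : ℝ} {v w : ℝ → ℝ} (he : e ∈ Ioo (0 : ℝ) 1) (hs : Sol e β v w)
    (hb : InBounds e β v w) : v 1 * (1 - e) ^ 3 < 32 / 9 := by
  have hd : 0 < 1 - e := sub_pos.2 he.2
  have hE := Out.edge_of he hs hb
  have h1 := mul_le_mul_of_nonneg_left hE.lo (show 0 ≤ 3 * (1 - e) ^ 3 by positivity)
  have h2 : 0 < β * (1 - e) ^ 3 := mul_pos (by linarith [hb.beta_lo]) (pow_pos hd 3)
  have h3 : (15 - 3 / 2 * e) * (v 1 * (1 - e) ^ 3) < 24 * (1 + e) := by linarith [hE.eq]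
  refine lt_of_mul_lt_mul_left (lt_of_lt_of_le h3 ?_) (show 0 ≤ 15 - 3 / 2 * e by linarith [he.2])
  linarith [he.2]

theorem weight_poly_lt {e : ℝ} (h0 : 0 ≤ e) (h1 : e ≤ 3 / 5) :
    (3 - 5 * e) * (cInf e * (1 + (10 - 4 * e) / (8 * (1 - e)))) < 8 := by
  have hd : 0 < 1 - e := by linarith
  have e1 : (3 - 5 * e) * (cInf e * (1 + (10 - 4 * e) / (8 * (1 - e)))) =
      (3 - 5 * e) * e * (18 - 12 * e) / (4 * (1 - e) ^ 2) := by
    unfold cInf
    field_simp
    ring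
  rw [e1, div_lt_iff₀ (by positivity)]
  nlinarith [mul_nonneg (mul_nonneg h0 h0) (sub_nonneg.2 h1), sq_nonneg (e - 1 / 2),
    mul_nonneg h0 (sub_nonneg.2 h1)]

/-- The scalar bounds at one contact, three of them strict. -/
structure AtStrict (t x y P Q : ℝ) : Prop extends Alg.AtContact t x y P Q where
  P_pos : 0 < P
  weight_lt : (3 * t ^ 2 - 5 * x) * P < 8
  rim_lt : (2 * y - 3 * (1 - t ^ 2)) * P < 8

theorem at_strict {e β : ℝ} {v w : ℝ → ℝ} (he : e ∈ Ioo (0 : ℝ) 1) (hs : Sol e β v w)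
    (hb : InBounds e β v w) {t : ℝ} (ht : t ∈ Ioc (0 : ℝ) 1) :
    AtStrict t (e * t ^ 2) (yf e t) (v t * yf e t ^ 2 / t ^ 3) (w t * yf e t ^ 3 / t ^ 3) := by
  have hA := Alg.at_contact he hs hb ht
  have hy : 0 < yf e t := hA.y_pos
  have ht3 : 0 < t ^ 3 := pow_pos ht.1 3
  obtain ⟨k, hk, hkv⟩ := hb.origin_pos
  obtain ⟨P, hP⟩ : ∃ P, P = v t * yf e t ^ 2 / t ^ 3 := ⟨_, rfl⟩
  have hP0 : 0 < P := by
    have : 0 < v t := (mul_pos hk ht3).trans_le (hkv t ht)
    rw [hP]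
    positivity
  rw [← hP] at hA ⊢
  refine ⟨hA, hP0, ?_, ?_⟩
  · rcases le_total e (3 / 5) with h | h
    · have h1 : P ≤ cInf e * (1 + (10 - 4 * e) / (8 * (1 - e))) := by
        rw [hP, div_le_iff₀ ht3]
        linarith [hb.weight_le t ht]
      have h2 := weight_poly_lt he.1.le h
      have h3 := mul_le_mul_of_nonneg_left h1 (show 0 ≤ 3 - 5 * e by linarith)
      have h4 := mul_le_mul_of_nonneg_right (pow_le_one₀ (n := 2) ht.1.le ht.2)
        (mul_nonneg (show 0 ≤ 3 - 5 * e by linarith) hP0.le)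
      linarith
    · have := mul_nonpos_of_nonpos_of_nonneg (show 3 - 5 * e ≤ 0 by linarith)
        (mul_nonneg (sq_nonneg t) hP0.le)
      linarith
  · rcases le_total (2 * yf e t - 3 * (1 - t ^ 2)) 0 with h | h
    · linarith [mul_nonpos_of_nonpos_of_nonneg h hP0.le]
    · have h1 : P ≤ v 1 * (1 - e) * yf e t := by
        rw [hP, show v t * yf e t ^ 2 / t ^ 3 = v t * yf e t / t ^ 3 * yf e t by ring]
        exact mul_le_mul_of_nonneg_right (hb.rim_le t ht) hy.le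
      have hd : 0 < 1 - e := sub_pos.2 he.2
      have hv1 : 0 ≤ v 1 := by linarith [hkv 1 (right_mem_Ioc.2 one_pos)]
      have h2 := mul_le_mul_of_nonneg_left h1 h
      have h3 : 2 * yf e t - 3 * (1 - t ^ 2) ≤ 3 * (1 - e) - yf e t := by
        have := mul_nonneg hd.le (sub_nonneg.2 (pow_le_one₀ (n := 2) ht.1.le ht.2))
        rw [yf]
        linarith
      have h4 := mul_le_mul_of_nonneg_right h3
        (show 0 ≤ v 1 * (1 - e) * yf e t by positivity)
      have h5 := mul_nonneg (mul_nonneg hv1 hd.le) (sq_nonneg (yf e t - 3 / 2 * (1 - e)))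
      linarith [edge_bound_lt he hs hb]

theorem AtStrict.mono_lt {t x y P Q : ℝ} (h : AtStrict t x y P Q) {c : ℝ} (hc : 0 < c)
    (hc1 : c ≤ 1) : 0 < 8 + Q - 6 * t * P * c + 2 * (3 * (1 + x) * P - Q) * c ^ 2 := by
  have h1 := mul_nonneg (mul_nonneg (by norm_num : (0 : ℝ) ≤ 3) h.P_nonneg) (sq_nonneg (t - c))
  have hc2 : 0 ≤ 1 - c ^ 2 := sub_nonneg.2 (pow_le_one₀ hc.le hc1)
  have h2 := mul_nonneg hc2 (sub_nonneg.2 h.slope)
  have h3 := mul_pos (pow_pos hc 2)
    (show 0 < 8 + 5 * x * P - 3 * t ^ 2 * P + ((3 + x) * P - Q) by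
      linarith [h.hi, h.weight_lt])
  linarith

theorem AtStrict.third_lt {t x y P Q : ℝ} (h : AtStrict t x y P Q) : 8 + 2 * t * P ≤ 8 + Q := by
  have := mul_le_mul_of_nonneg_right (show 2 * t ≤ 3 - x / 2 by linarith [h.t_le, h.sum, h.y_pos])
    h.P_nonneg
  linarith [h.lo]

theorem AtStrict.gain_lt {t x y P Q : ℝ} (h : AtStrict t x y P Q) {c d : ℝ} (hc : 0 < c)
    (hc1 : c ≤ 1) (hd : 0 < d) (hd1 : d ≤ 1) :
    0 < 16 + 2 * Q - 6 * t * P * (c + d) + (3 * (1 + x) * P - Q) * (c ^ 2 + d ^ 2)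
      + 2 * (y * P) * (c * d) := by
  obtain rfl := h.sum
  rcases le_total ((1 - x) * P) (3 * (1 + x) * P - Q) with hq | hq
  · obtain ⟨m, hm⟩ : ∃ m, m = (c + d) / 2 := ⟨_, rfl⟩
    have hm0 : 0 < m := by linarith
    have hm2 : 0 ≤ 1 - m ^ 2 := sub_nonneg.2 (pow_le_one₀ hm0.le (by linarith))
    have h1 := mul_nonneg (mul_nonneg (by norm_num : (0 : ℝ) ≤ 6) h.P_nonneg) (sq_nonneg (t - m))
    have h2 := mul_nonneg hm2 (sub_nonneg.2 h.slope)
    have h3 := mul_pos (pow_pos hm0 2)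
      (show 0 < 8 + 3 * x * P + (1 - x) * P - 3 * t ^ 2 * P by linarith [h.rim_lt])
    have h4 := mul_nonneg (sub_nonneg.2 hq) (sq_nonneg (c - d))
    rw [hm] at h1 h2 h3
    linarith
  obtain ⟨S, hS⟩ : ∃ S, S = c + d := ⟨_, rfl⟩
  have hcd : 0 ≤ c * d := (mul_pos hc hd).le
  rcases le_total S 1 with hS1 | hS1
  · have h1 := h.mono_lt (show 0 < S by linarith) hS1
    have h2 := mul_le_mul_of_nonneg_left hS1 (show 0 ≤ 6 * t * P by
      have := h.t_pos; have := h.P_nonneg; positivity)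
    have h3 := h.third_lt
    have h4 := mul_le_mul_of_nonneg_right hq hcd
    rw [hS] at h1 h2
    linarith
  · have h1 := mul_le_mul_of_nonneg_left
      (show S - 1 ≤ c * d by linarith [mul_nonneg (sub_nonneg.2 hc1) (sub_nonneg.2 hd1)])
      (sub_nonneg.2 hq)
    have hS2 : 0 ≤ S * (2 - S) := mul_nonneg (by linarith) (by linarith)
    have h2 := mul_nonneg hS2 (show 0 ≤ Q - (2 + 4 * x) * P by linarith)
    have hf : 0 < 16 + P * (4 + 8 * x - 6 * t * S + (1 - x) * S ^ 2) := by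
      rcases le_total (2 * (1 - x) / 3) t with ht | ht
      · have h5 := mul_nonneg (mul_nonneg h.P_nonneg (show 0 ≤ 2 - S by linarith))
          (show 0 ≤ 6 * t - (1 - x) * (2 + S) by
            linarith [mul_le_mul_of_nonneg_left (show 2 + S ≤ 4 by linarith) h.y_pos.le])
        have h6 := mul_nonneg h.P_nonneg (sq_nonneg (1 - t))
        linarith [h.rim_lt]
      · have h5 := mul_le_mul ht ht h.t_pos.le (by linarith [h.y_pos])
        have h6 : 0 ≤ 4 + 8 * x - 6 * t * S + (1 - x) * S ^ 2 := by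
          refine nonneg_of_mul_nonneg_right (a := 1 - x) ?_ h.y_pos
          linarith [sq_nonneg ((1 - x) * S - 3 * t), mul_nonneg h.x_pos h.y_pos.le]
        have := mul_nonneg h.P_nonneg h6
        linarith
    rw [hS] at h1 h2 hf
    linarith

theorem AtStrict.mixed_lt {t x y P Q : ℝ} (h : AtStrict t x y P Q) {c d : ℝ} (hc : 0 ≤ c)
    (hc1 : c ≤ 1) (hd : 0 ≤ d) (hd1 : d ≤ 1) :
    2 * (y * P) * (c * d) < 16 + 2 * Q - 6 * t * P * c + 6 * t * P * d
      + (3 * (1 + x) * P - Q) * (c ^ 2 + d ^ 2) := by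
  have hd' := mul_nonneg h.spread (sq_nonneg d)
  have hP := h.P_nonneg
  have ht0 := h.t_pos.le
  have hy := h.y_pos.le
  rcases le_total (2 * y) (6 * t) with ht | ht
  · have h1 := h.mono hc hc1
    have h2 := mul_le_mul_of_nonneg_left hc1 (show 0 ≤ 6 * t * P by positivity)
    have h3 := h.third_lt
    have h4 := mul_le_mul_of_nonneg_right ht (mul_nonneg hP hd)
    have h5 := mul_le_mul_of_nonneg_left hc1 (show 0 ≤ 2 * y * (P * d) by positivity)
    linarith
  · have hc' := mul_nonneg h.spread (sq_nonneg c)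
    have h2 := mul_le_mul_of_nonneg_left hc1 (show 0 ≤ 6 * t * P by positivity)
    have h3 := mul_le_mul_of_nonneg_right ht hP
    have h4 := mul_nonneg (show 0 ≤ 6 * t * P by positivity) hd
    have h5 := mul_le_mul_of_nonneg_left (mul_le_one₀ hc1 hd hd1)
      (show 0 ≤ 2 * (y * P) by positivity)
    have h6 := mul_le_mul_of_nonneg_right (show 4 * y ≤ 6 - x by linarith [h.sum, h.x_pos]) hP
    linarith [h.lo]

theorem AtStrict.out_lt {t x y P Q : ℝ} (h : AtStrict t x y P Q) {c d : ℝ} (hc : 0 ≤ c)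
    (hd : 0 ≤ d) :
    0 < 16 + 2 * Q + 6 * t * P * (c + d) + (3 * (1 + x) * P - Q) * (c ^ 2 + d ^ 2) := by
  have h1 := mul_nonneg h.spread (show 0 ≤ c ^ 2 + d ^ 2 by positivity)
  have h2 : 0 ≤ 6 * t * P * (c + d) := by
    have := h.P_nonneg; have := h.t_pos; positivity
  have h3 := h.third_lt
  have h4 : 0 ≤ t * P := mul_nonneg h.t_pos.le h.P_nonneg
  linarith

/-! ## At every distance -/

variable {R β : ℝ} {v w : ℝ → ℝ} {b : ℕ → ℝ}

/-- The strict facts at distance `r`: two outward cosines, one, and the gain of two inward ones. -/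
def StrictFacts (R : ℝ) (u : ℝ → ℝ) (r : ℝ) : Prop :=
  (∀ c ∈ Icc (0 : ℝ) 1, ∀ d ∈ Icc (0 : ℝ) 1,
      0 < 2 * radP u r + radH R u r * (c + d) + radQ u r * (c ^ 2 + d ^ 2)) ∧
  (∀ c ∈ Icc (0 : ℝ) 1, ∀ d ∈ Icc (0 : ℝ) 1,
      2 * radK u r * (c * d) <
        2 * radP u r - radH R u r * c + radH R u r * d + radQ u r * (c ^ 2 + d ^ 2)) ∧
  (∀ c ∈ Ioc (0 : ℝ) 1, ∀ d ∈ Ioc (0 : ℝ) 1, ¬(c = 1 ∧ 2 * R ≤ r) →
      0 < 2 * radP u r - radH R u r * (c + d) + radQ u r * (c ^ 2 + d ^ 2) +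
        2 * radK u r * (c * d))

theorem strictFacts (hR : 0 < R) (hs : Sol (Real.tanh R ^ 2) β v w)
    (hi : InBounds (Real.tanh R ^ 2) β v w) (ho : OutFacts R β (v 1))
    {u : ℝ → ℝ} (hu : Differentiable ℝ u) (hvu : ∀ r, 0 < r → radU u r = uFour R β v r)
    {r : ℝ} (hr : 0 < r) : StrictFacts R u r := by
  rcases lt_or_ge r (2 * R) with h | h
  · have ht' := contact_mem hR ⟨hr, h⟩
    obtain ⟨t, htd⟩ : ∃ t, t = Real.tanh (r / 2) / Real.tanh R := ⟨_, rfl⟩
    obtain ⟨e1, e2, e3, e4⟩ := coeff_in hR hs.deriv_v hvu ⟨hr, h⟩ rfl htd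
    rw [← htd] at ht'
    have hA := at_strict (tanh_sq_mem hR) hs hi (Ioo_subset_Ioc_self ht')
    obtain ⟨P, hP⟩ : ∃ P, P = v t * yf (Real.tanh R ^ 2) t ^ 2 / t ^ 3 := ⟨_, rfl⟩
    obtain ⟨Q, hQ⟩ : ∃ Q, Q = w t * yf (Real.tanh R ^ 2) t ^ 3 / t ^ 3 := ⟨_, rfl⟩
    rw [← hP, ← hQ] at hA
    have ep : p0F (Real.tanh R ^ 2) t (w t) = (8 + Q) / 8 := by rw [hQ, p0F]; ring
    have eh : hF (Real.tanh R ^ 2) t (v t) = 6 * t * P / 8 := by
      have := ht'.1.ne'
      rw [hP, hF]; field_simp; ring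
    have eq : qF (Real.tanh R ^ 2) t (v t) (w t) =
        (3 * (1 + Real.tanh R ^ 2 * t ^ 2) * P - Q) / 8 := by rw [hP, hQ, qF]; ring
    have eg : gamF (Real.tanh R ^ 2) t (v t) = yf (Real.tanh R ^ 2) t * P / 8 := by
      rw [hP, gamF]; ring
    rw [StrictFacts, e1, e2, e3, e4, ep, eh, eq, eg]
    refine ⟨fun c hc d hd => ?_, fun c hc d hd => ?_, fun c hc d hd _ => ?_⟩
    · linarith [hA.out_lt hc.1 hd.1]
    · linarith [hA.mixed_lt hc.1 hc.2 hd.1 hd.2]
    · linarith [hA.gain_lt hc.1 hc.2 hd.1 hd.2]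
  obtain ⟨e1, e2, e3, e4⟩ := coeff_out hR hu hvu h
  rw [StrictFacts, e1, e2, e3, e4]
  have hT := tanh_pos hR
  have hE := Out.edge_of (tanh_sq_mem hR) hs hi
  obtain ⟨p, hp⟩ : ∃ p, p = p0Out R β (v 1) r := ⟨_, rfl⟩
  obtain ⟨q, hq⟩ : ∃ q, q = qOut R β (v 1) r := ⟨_, rfl⟩
  obtain ⟨H, hH⟩ : ∃ H, H = hOut R β (v 1) r := ⟨_, rfl⟩
  obtain ⟨g, hg⟩ : ∃ g, g = uOut R β (v 1) r / Real.sinh r := ⟨_, rfl⟩
  rw [← hp, ← hq, ← hH, ← hg]
  have hsr := (Out.pt hR h).s_pos
  have hu0 := ho.pos r h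
  have hH0 : 0 < H := by rw [hH, hOut]; positivity
  have hp1 : 1 ≤ p := by rw [hp, p0Out]; linarith [ho.usq_mono r h]
  have hm1 := ho.mono r h 1 ⟨zero_le_one, le_rfl⟩
  rw [← hp, ← hH, ← hq] at hm1
  have hH2 : H ≤ 2 * p := by
    have h1 := (Out.slope_le hR hE h).1.trans (Out.slope_le hR hE h).2
    rw [← Out.slopeOut_eq hR h, ← hp, ← hH] at h1
    nlinarith [pow_pos hsr 3]
  have hσ := Out.sigma_eq (β := β) (v₁ := v 1) hR h
  rw [← hp, ← hH, ← hq] at hσ
  have hσ1 : Out.gLin R β (v 1) r / Real.sinh r ^ 3 < 1 := by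
    rw [div_lt_one (pow_pos hsr 3)]
    have := Out.nLin_pos hR hE h
    rw [Out.nLin] at this
    linarith
  have hgh : 4 * g ≤ H := by
    rw [hg, hH, hOut]
    have h3 : 4 / Real.sinh r ≤ 3 / Real.tanh R := by
      rw [div_le_div_iff₀ hsr hT]
      have h4 : 2 * Real.tanh R ≤ Real.sinh (2 * R) := by
        rw [Out.sinh_diameter, le_div_iff₀ hE.d_pos]
        nlinarith [pow_pos hT 3]
      linarith [(Out.pt hR h).s_ge]
    refine le_of_eq_of_le ?_ (mul_le_mul_of_nonneg_right h3 hu0.le)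
    ring
  refine ⟨fun c hc d hd => ?_, fun c hc d hd => ?_, fun c hc d hd hne => ?_⟩
  · have h1 : c ^ 2 + d ^ 2 ≤ 2 := by nlinarith [hc.1, hc.2, hd.1, hd.2]
    have h2 := mul_nonneg hH0.le (add_nonneg hc.1 hd.1)
    rcases le_total 0 q with hq0 | hq0
    · linarith [mul_nonneg hq0 (show 0 ≤ c ^ 2 + d ^ 2 by positivity)]
    · linarith [mul_le_mul_of_nonpos_left h1 hq0]
  · refine Strictly.mixed_lt hH0.le (by linarith) ?_ (by linarith) ?_ hc hd
    · linarith
    · rcases le_total 0 q with hq0 | hq0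
      · rw [min_eq_right hq0]; linarith
      · rw [min_eq_left hq0]; linarith
  · obtain ⟨x, hx⟩ : ∃ x, x = (c + d) / 2 := ⟨_, rfl⟩
    rcases eq_or_ne x 1 with h1 | h1
    · exact absurd ⟨by linarith [hc.2, hd.2], h⟩ hne
    have hx1 : x < 1 := lt_of_le_of_ne (by linarith [hc.2, hd.2]) h1
    have hx0 : 0 < x := by linarith [hc.1, hd.1]
    have h5 : 0 ≤ 2 * p - 2 * H + 2 * q + 2 * g := by
      have := ho.gain r h 1 ⟨zero_le_one, le_rfl⟩ 1 ⟨zero_le_one, le_rfl⟩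
      rw [← hp, ← hH, ← hq, ← hg] at this
      linarith
    have h4 : 0 ≤ p - H + (q + min q g) := by
      rcases le_total q g with h' | h'
      · rw [min_eq_left h']; linarith
      · rw [min_eq_right h']; linarith
    have hq' : 0 < p - H * x + (q + min q g) * x ^ 2 := by
      nlinarith [mul_pos hH0 (pow_pos (sub_pos.2 hx1) 2),
        mul_nonneg (show 0 ≤ p - H / 2 by linarith) (show 0 ≤ 1 - x ^ 2 by nlinarith),
        mul_nonneg h4 (sq_nonneg x)]
    have e2' := mul_le_mul_of_nonneg_right (min_le_right q g) (mul_pos hc.1 hd.1).le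
    have e3' := mul_le_mul_of_nonneg_right (min_le_left q g) (sq_nonneg (c - d))
    rw [hx] at hq'
    linarith

lemma contact_sphere (hR : 0 < R) (r : ℝ) :
    Real.cosh R * (Real.cosh r - 1) =
      Real.sinh R * Real.sinh r * (Real.tanh (r / 2) / Real.tanh R) := by
  have := Real.cosh_pos (r / 2)
  have := Real.sinh_pos_iff.2 hR
  rw [show r = 2 * (r / 2) by ring, Real.cosh_two_mul, Real.sinh_two_mul,
    show 2 * (r / 2) / 2 = r / 2 by ring, Real.tanh_eq_sinh_div_cosh, Real.tanh_eq_sinh_div_cosh]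
  field_simp
  linear_combination Real.cosh_sq (r / 2)

/-- The kernel is strictly above the two values and the volume term off the contact. -/
lemma pair_facts_lt (hR : 0 < R) (hs : Sol (Real.tanh R ^ 2) β v w)
    (hc0 : ContinuousOn (margA R β v w) (Icc 0 1)) (hi : InBounds (Real.tanh R ^ 2) β v w)
    (hin : InFacts (Real.tanh R ^ 2) β v w) (ho : OutFacts R β (v 1))
    {u : ℝ → ℝ} (hu : Differentiable ℝ u) (hvu : ∀ r, 0 < r → radU u r = uFour R β v r)
    {r c d : ℝ} (hr : 0 < r) (hc : c ∈ Ioc (0 : ℝ) 1) (hd : d ∈ Ioc (0 : ℝ) 1)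
    (hne1 : r < 2 * R → ¬(c = Real.tanh (r / 2) / Real.tanh R ∧
      d = Real.tanh (r / 2) / Real.tanh R))
    (hne2 : 2 * R ≤ r → ¬(c = 1 ∧ d = 1)) :
    c * d * (margA R β v w c + margA R β v w d + 2 * (Real.tanh R ^ 2 * β) * r) <
      Real.sinh r ^ 3 * sym 4 R (radW u) r c d := by
  have hT := tanh_pos hR
  have hS : 0 < Real.sinh r ^ 3 := pow_pos (Real.sinh_pos_iff.2 hr) 3
  have hcd : 0 ≤ c * d := (mul_pos hc.1 hd.1).le
  rw [sym_coeff hu hr]
  rcases lt_or_ge r (2 * R) with h | h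
  · have ht' := contact_mem hR ⟨hr, h⟩
    obtain ⟨t, htd⟩ : ∃ t, t = Real.tanh (r / 2) / Real.tanh R := ⟨_, rfl⟩
    obtain ⟨e1, e2, e3, -⟩ := coeff_in hR hs.deriv_v hvu ⟨hr, h⟩ rfl htd
    rw [← htd] at ht'
    have ht : t ∈ Ioc (0 : ℝ) 1 := Ioo_subset_Ioc_self ht'
    have h1 := margA_le_tangent hR hs hc0 hi hc ht
    have h2 := margA_le_tangent hR hs hc0 hi hd ht
    have hy := yf_pos (tanh_sq_mem hR) ht.1.le ht.2
    have hsr : Real.sinh r = 2 * Real.tanh R * t / yf (Real.tanh R ^ 2) t := by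
      rw [GenK.Four.sinh_eq, yf, htd]
      field_simp
    rw [e1, e2, e3]
    have hp : 0 ≤ p0F (Real.tanh R ^ 2) t (w t) := by
      rw [p0F]
      have := mul_nonneg (hin.w_nonneg t ht) (pow_nonneg hy.le 3)
      have := ht.1
      positivity
    have hA := at_strict (tanh_sq_mem hR) hs hi ht
    have ep : p0F (Real.tanh R ^ 2) t (w t) =
        (8 + w t * yf (Real.tanh R ^ 2) t ^ 3 / t ^ 3) / 8 := by rw [p0F]; ring
    have eh : hF (Real.tanh R ^ 2) t (v t) =
        6 * t * (v t * yf (Real.tanh R ^ 2) t ^ 2 / t ^ 3) / 8 := by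
      have := ht.1.ne'
      rw [hF]; field_simp; ring
    have hconv : hF (Real.tanh R ^ 2) t (v t) < 3 * p0F (Real.tanh R ^ 2) t (w t) := by
      rw [ep, eh]
      linarith [hA.third_lt]
    have hne : (c + d) / 2 ≠ t ∨ (c ≠ d ∧ 0 < p0F (Real.tanh R ^ 2) t (w t) -
        hF (Real.tanh R ^ 2) t (v t) * ((c + d) / 2) +
        2 * qF (Real.tanh R ^ 2) t (v t) (w t) * ((c + d) / 2) ^ 2) := by
      rcases eq_or_ne ((c + d) / 2) t with hm | hm
      · refine Or.inr ⟨fun hcd' => hne1 h ?_, ?_⟩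
        · rw [← htd]; constructor <;> linarith
        · have eq : qF (Real.tanh R ^ 2) t (v t) (w t) =
              (3 * (1 + Real.tanh R ^ 2 * t ^ 2) * (v t * yf (Real.tanh R ^ 2) t ^ 2 / t ^ 3) -
                w t * yf (Real.tanh R ^ 2) t ^ 3 / t ^ 3) / 8 := by rw [qF]; ring
          rw [ep, eh, eq]
          have h3 := hA.mono_lt (show 0 < (c + d) / 2 by linarith [hc.1, hd.1])
            (show (c + d) / 2 ≤ 1 by linarith [hc.2, hd.2])
          obtain ⟨P, hP⟩ : ∃ P, P = v t * yf (Real.tanh R ^ 2) t ^ 2 / t ^ 3 := ⟨_, rfl⟩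
          obtain ⟨Q, hQ⟩ : ∃ Q, Q = w t * yf (Real.tanh R ^ 2) t ^ 3 / t ^ 3 := ⟨_, rfl⟩
          rw [← hP, ← hQ] at h3 ⊢
          linarith
      · exact Or.inl hm
    have key := pair_core_lt (A := margA R β v w t) (B := Real.tanh R ^ 2 * β * r)
      (A' := -((2 * Real.tanh R) ^ 3 * slopeF (Real.tanh R ^ 2) t (v t) (w t))) hS hc hd ht
      (hin.mono t ht) hne (fun x hx => ?_) (le_of_eq ?_) (le_of_eq ?_)
    · refine lt_of_le_of_lt ?_ key
      have := mul_le_mul_of_nonneg_left (add_le_add h1 h2) hcd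
      linarith
    · have h3 := mul_lt_mul_of_pos_right hconv (mul_pos hx.1 ht.1)
      have h4 : 3 * (x * t) ≤ 2 * x + t := by
        nlinarith [mul_nonneg hx.1.le (sub_nonneg.2 ht.2), mul_nonneg ht.1.le (sub_nonneg.2 hx.2)]
      linarith [mul_le_mul_of_nonneg_left h4 hp]
    · have hl := log_contact hR r
      rw [← htd] at hl
      rw [margA, hl, hsr]
      have := ht.1.ne'
      field_simp
      ring
    · symm
      refine mul_eq_zero_of_right _ ?_
      rw [hsr, slopeF, p0F, hF]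
      have := ht.1.ne'
      field_simp
      ring
  · obtain ⟨e1, e2, e3, -⟩ := coeff_out hR hu hvu h
    rw [e1, e2, e3]
    have hd0 : 0 < 1 - Real.tanh R ^ 2 := sub_pos.2 (tanh_sq_mem hR).2
    have hE : Out.Edge (Real.tanh R ^ 2) β (v 1) (w 1) := Out.edge_of (tanh_sq_mem hR) hs hi
    have hk0 : Real.sinh (2 * R) ^ 3 * (hOut R β (v 1) (2 * R) - 2 * p0Out R β (v 1) (2 * R)) =
        -((2 * Real.tanh R) ^ 3 * slopeF (Real.tanh R ^ 2) 1 (v 1) (w 1)) := by
      rw [Out.slopeOut_eq hR le_rfl, Out.slopeOut, Out.nLin, Out.gLin, Out.gEdge_eq hR, sub_self,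
        mul_zero, add_zero, Out.kDen, show Real.cosh (2 * R) = coth (2 * R) * Real.sinh (2 * R) by
          rw [coth, div_mul_cancel₀ _ (Real.sinh_pos_iff.2 (by linarith)).ne'],
        Out.coth_diameter hR, Out.sinh_diameter, slopeF, yf]
      have hk : 3 / Real.tanh R - 3 * ((1 + Real.tanh R ^ 2) / (2 * Real.tanh R)) =
          3 * (1 - Real.tanh R ^ 2) / (2 * Real.tanh R) := by field_simp; ring
      rw [hk]
      have eβ : β = (24 * (1 + Real.tanh R ^ 2) - 6 * v 1 * (1 - Real.tanh R ^ 2) ^ 3 -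
          3 * w 1 * (1 - Real.tanh R ^ 2) ^ 4) / (2 * (1 - Real.tanh R ^ 2) ^ 3) := by
        rw [eq_div_iff (by positivity)]
        linarith [hE.eq]
      rw [eβ]
      field_simp
      ring
    have hsl := hi.slope_nonneg 1 ⟨zero_lt_one, le_rfl⟩
    have hh2 : hOut R β (v 1) r ≤ 2 * p0Out R β (v 1) r := by
      have h5 := ho.slope r h
      rw [hk0] at h5
      have : 0 < Real.sinh r ^ 3 := pow_pos (Real.sinh_pos_iff.2 hr) 3
      nlinarith [mul_nonneg (pow_nonneg (show 0 ≤ 2 * Real.tanh R by linarith) 3) hsl]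
    have hp : 0 ≤ p0Out R β (v 1) r := by
      rw [p0Out]
      linarith [ho.usq_mono r h]
    have h1 := margA_le_tangent hR hs hc0 hi hc ⟨zero_lt_one, le_rfl⟩
    have h2 := margA_le_tangent hR hs hc0 hi hd ⟨zero_lt_one, le_rfl⟩
    have hne : (c + d) / 2 ≠ 1 := fun hm =>
      hne2 h ⟨by linarith [hc.2, hd.2], by linarith [hc.2, hd.2]⟩
    have key := pair_core_lt (t := 1) (A := margA R β v w 1) (B := Real.tanh R ^ 2 * β * r)
      (A' := -((2 * Real.tanh R) ^ 3 * slopeF (Real.tanh R ^ 2) 1 (v 1) (w 1))) hS hc hd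
      ⟨zero_lt_one, le_rfl⟩ (ho.mono r h) (Or.inl hne) (fun x hx => ?_) (le_of_eq ?_) ?_
    · refine lt_of_le_of_lt ?_ key
      have := mul_le_mul_of_nonneg_left (add_le_add h1 h2) hcd
      linarith
    · have hp1 : 1 ≤ p0Out R β (v 1) r := by
        rw [p0Out]
        linarith [ho.usq_mono r h]
      nlinarith [mul_le_mul_of_nonneg_right hh2 hx.1.le, hx.1]
    · have hl := log_contact hR (2 * R)
      rw [show 2 * R / 2 = R by ring, div_self hT.ne', mul_one] at hl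
      rw [one_pow, mul_one, mul_one, div_one, Out.sigma_eq hR h, mul_div_cancel₀ _
        (pow_ne_zero 3 (Real.sinh_pos_iff.2 hr).ne'), Out.gLin, Out.gEdge_eq hR, margA]
      simp only [mul_one, one_pow, p0F, hF, qF, yf]
      rw [hl, Out.sinh_diameter]
      field_simp
      ring
    · refine mul_nonneg_of_nonpos_of_nonpos (by linarith [hc.2, hd.2]) ?_
      rw [one_pow, mul_one, div_one, sub_nonpos, ← hk0]
      exact ho.slope r h

/-! ## The slack -/

/-- `sinh r ^ 3` times the kernel less the least the line condition asks of it. -/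
def gap3 (R : ℝ) (u : ℝ → ℝ) (A : ℝ → ℝ) (bet : ℝ) (z : ℝ × ℝ × ℝ) : ℝ :=
  Real.sinh z.1 ^ 3 * sym 4 R (radW u) z.1 z.2.1 z.2.2 -
    max (max z.2.1 0 * max z.2.2 0 * (A (max z.2.1 0) + A (max z.2.2 0) + 2 * bet * z.1))
      (-(2 * Real.sinh z.1 ^ 2 * radU u z.1 * (max z.2.1 0 * max z.2.2 0))) -
    2 * Real.sinh z.1 ^ 2 * radU u z.1 *
      (max z.2.1 0 * max (-z.2.2) 0 + max (-z.2.1) 0 * max z.2.2 0)

/-- The slack: at most the gap, and continuous at distance zero. -/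
def kapFour (R : ℝ) (u : ℝ → ℝ) (A : ℝ → ℝ) (bet : ℝ) (z : ℝ × ℝ × ℝ) : ℝ :=
  max (gap3 R u A bet z) 0 / Real.cosh z.1 ^ 3

lemma gap3_comm (u A : ℝ → ℝ) (bet r c d : ℝ) :
    gap3 R u A bet (r, c, d) = gap3 R u A bet (r, d, c) := by
  simp only [gap3, sym_comm R (radW u) r c d, mul_comm (max c 0) (max d 0),
    add_comm (A (max c 0)) (A (max d 0))]
  ring

lemma kapFour_comm (u A : ℝ → ℝ) (bet r c d : ℝ) :
    kapFour R u A bet (r, c, d) = kapFour R u A bet (r, d, c) := by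
  simp only [kapFour, gap3_comm u A bet r c d]

lemma continuous_kapFour {u A : ℝ → ℝ} (hu : ContDiff ℝ 1 u) (hA : Continuous A) (bet : ℝ) :
    Continuous (kapFour R u A bet) := by
  have hsym : Continuous fun z : ℝ × ℝ × ℝ => sym 4 R (radW u) z.1 z.2.1 z.2.2 :=
    continuous_sym (hu.comp contDiff_fst)
  have huc : Continuous fun z : ℝ × ℝ × ℝ => radU u z.1 := by
    have := hu.continuous
    unfold radU
    fun_prop
  unfold kapFour gap3
  exact (((((Real.continuous_sinh.comp continuous_fst).pow 3).mul hsym).sub (by fun_prop)).sub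
    (by fun_prop)).max continuous_const |>.div
      ((Real.continuous_cosh.comp continuous_fst).pow 3)
      fun z => (pow_pos (Real.cosh_pos z.1) 3).ne'

/-- Where the gap is nonnegative the slack is below it. -/
lemma kap_mul_le {u A : ℝ → ℝ} {bet : ℝ} {z : ℝ × ℝ × ℝ} (hr : 0 < z.1)
    (h : 0 ≤ gap3 R u A bet z) :
    Real.sinh z.1 ^ 3 * kapFour R u A bet z ≤ gap3 R u A bet z := by
  rw [kapFour, max_eq_left h, mul_div_left_comm]
  exact mul_le_of_le_one_right h ((div_le_one (pow_pos (Real.cosh_pos _) 3)).2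
    (pow_le_pow_left₀ (Real.sinh_pos_iff.2 hr).le (Real.sinh_lt_cosh _).le 3))

variable {u : ℝ → ℝ}

/-- The gap is nonnegative and vanishes only on the contact or where both cosines are one beyond
the diameter. -/
lemma gap3_facts (hR : 0 < R) (hs : Sol (Real.tanh R ^ 2) β v w)
    (hc0 : ContinuousOn (margA R β v w) (Icc 0 1)) (hi : InBounds (Real.tanh R ^ 2) β v w)
    (hin : InFacts (Real.tanh R ^ 2) β v w) (ho : OutFacts R β (v 1))
    (hu : Differentiable ℝ u) (hvu : ∀ r, 0 < r → radU u r = uFour R β v r)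
    {A : ℝ → ℝ} (hA : ∀ c ∈ Icc (0 : ℝ) 1, A c = margA R β v w c) {r c d : ℝ} (hr : 0 < r)
    (hc : c ∈ Icc (-1 : ℝ) 1) (hd : d ∈ Icc (-1 : ℝ) 1) :
    0 ≤ gap3 R u A (Real.tanh R ^ 2 * β) (r, c, d) ∧
      (gap3 R u A (Real.tanh R ^ 2 * β) (r, c, d) = 0 →
        Real.cosh R * (Real.cosh r - 1) = Real.sinh R * Real.sinh r * c ∨
          (c = 1 ∧ 2 * R ≤ r)) := by
  obtain ⟨hN, hM, hG⟩ := strictFacts hR hs hi ho hu hvu hr
  have hS := Real.sinh_pos_iff.2 hr
  have hS3 : 0 < Real.sinh r ^ 3 := pow_pos hS 3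
  have eK : 2 * Real.sinh r ^ 2 * radU u r = Real.sinh r ^ 3 * (2 * radK u r) := by
    rw [radK]; field_simp
  simp only [gap3, eK, sym_coeff hu hr]
  rcases lt_or_ge 0 c with hcs | hcs <;> rcases lt_or_ge 0 d with hds | hds
  · have hcI : c ∈ Ioc (0 : ℝ) 1 := ⟨hcs, hc.2⟩
    have hdI : d ∈ Ioc (0 : ℝ) 1 := ⟨hds, hd.2⟩
    have hF := pair_facts hR hs hc0 hi hin ho hu hvu hr hcI hdI
    rw [sym_coeff hu hr] at hF
    simp only [max_eq_left hcs.le, max_eq_left hds.le, max_eq_right (neg_nonpos.2 hcs.le),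
      max_eq_right (neg_nonpos.2 hds.le), mul_zero, zero_mul, add_zero, sub_zero,
      hA c (Ioc_subset_Icc_self hcI), hA d (Ioc_subset_Icc_self hdI)]
    have hg := (facts_at hR hu hs.deriv_v hvu hin ho hr).2.2.2 c (Ioc_subset_Icc_self hcI) d
      (Ioc_subset_Icc_self hdI)
    have hg' := mul_nonneg hS3.le hg
    refine ⟨sub_nonneg.2 (max_le hF (by linarith)), fun h0 => ?_⟩
    by_contra hne
    rw [not_or] at hne
    have h1 := pair_facts_lt hR hs hc0 hi hin ho hu hvu hr hcI hdI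
      (fun _ he => hne.1 (by rw [he.1]; exact contact_sphere hR r)) fun h he => hne.2 ⟨he.1, h⟩
    rw [sym_coeff hu hr] at h1
    have h2 := mul_pos hS3 (hG c hcI d hdI hne.2)
    exact (sub_pos.2 (max_lt h1 (by linarith))).ne' h0
  · obtain ⟨k, rfl⟩ : ∃ k, d = -k := ⟨-d, (neg_neg d).symm⟩
    have h := mul_pos hS3 (sub_pos.2 (hM c ⟨hcs.le, hc.2⟩ k ⟨by linarith, by linarith [hd.1]⟩))
    simp only [max_eq_left hcs.le, max_eq_right hds, neg_neg, max_eq_left (show 0 ≤ k by linarith),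
      max_eq_right (neg_nonpos.2 hcs.le), mul_zero, zero_mul, neg_zero, max_self, add_zero,
      sub_zero, neg_sq]
    exact ⟨by linarith, fun h0 => absurd h0 (ne_of_gt (by linarith))⟩
  · obtain ⟨k, rfl⟩ : ∃ k, c = -k := ⟨-c, (neg_neg c).symm⟩
    have h := mul_pos hS3 (sub_pos.2 (hM d ⟨hds.le, hd.2⟩ k ⟨by linarith, by linarith [hc.1]⟩))
    simp only [max_eq_left hds.le, max_eq_right hcs, neg_neg, max_eq_left (show 0 ≤ k by linarith),
      max_eq_right (neg_nonpos.2 hds.le), mul_zero, zero_mul, neg_zero, max_self, zero_add,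
      sub_zero, neg_sq]
    exact ⟨by linarith, fun h0 => absurd h0 (ne_of_gt (by linarith))⟩
  · obtain ⟨k, rfl⟩ : ∃ k, c = -k := ⟨-c, (neg_neg c).symm⟩
    obtain ⟨l, rfl⟩ : ∃ l, d = -l := ⟨-d, (neg_neg d).symm⟩
    have h := mul_pos hS3 (hN k ⟨by linarith, by linarith [hc.1]⟩ l ⟨by linarith, by linarith [hd.1]⟩)
    simp only [max_eq_right hcs, max_eq_right hds, mul_zero, zero_mul, neg_zero, max_self,
      add_zero, sub_zero, neg_sq]
    exact ⟨by linarith, fun h0 => absurd h0 (ne_of_gt (by linarith))⟩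

/-- What a kernel above `sym` less the slack satisfies. -/
lemma kernel_low (hR : 0 < R) (hs : Sol (Real.tanh R ^ 2) β v w)
    (hc0 : ContinuousOn (margA R β v w) (Icc 0 1)) (hi : InBounds (Real.tanh R ^ 2) β v w)
    (hin : InFacts (Real.tanh R ^ 2) β v w) (ho : OutFacts R β (v 1))
    (hu : Differentiable ℝ u) (hvu : ∀ r, 0 < r → radU u r = uFour R β v r)
    {A : ℝ → ℝ} (hA : ∀ c ∈ Icc (0 : ℝ) 1, A c = margA R β v w c) {K : ℝ × ℝ × ℝ → ℝ}
    (hK : ∀ z, sym 4 R (radW u) z.1 z.2.1 z.2.2 -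
      kapFour R u A (Real.tanh R ^ 2 * β) z ≤ K z)
    {r c d : ℝ} (hr : 0 < r) (hc : c ∈ Icc (-1 : ℝ) 1) (hd : d ∈ Icc (-1 : ℝ) 1) :
    max (max c 0 * max d 0 * (A (max c 0) + A (max d 0) + 2 * (Real.tanh R ^ 2 * β) * r))
        (-(2 * Real.sinh r ^ 2 * radU u r * (max c 0 * max d 0))) +
      2 * Real.sinh r ^ 2 * radU u r * (max c 0 * max (-d) 0 + max (-c) 0 * max d 0) ≤
      Real.sinh r ^ 3 * K (r, c, d) := by
  have h1 := kap_mul_le (R := R) (u := u) (A := A) (bet := Real.tanh R ^ 2 * β)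
    (z := (r, c, d)) hr (gap3_facts hR hs hc0 hi hin ho hu hvu hA hr hc hd).1
  have h2 := mul_le_mul_of_nonneg_left (hK (r, c, d))
    (pow_nonneg (Real.sinh_pos_iff.2 hr).le 3)
  simp only [gap3] at h1 h2
  linarith

/-- The line condition with the slack taken off. -/
theorem lineK_four (hR : 0 < R) (hs : Sol (Real.tanh R ^ 2) β v w)
    (hc0 : ContinuousOn (margA R β v w) (Icc 0 1)) (hi : InBounds (Real.tanh R ^ 2) β v w)
    (hin : InFacts (Real.tanh R ^ 2) β v w) (ho : OutFacts R β (v 1))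
    (hu : Differentiable ℝ u) (hvu : ∀ r, 0 < r → radU u r = uFour R β v r)
    {A a : ℝ → ℝ} (hA : ∀ c ∈ Icc (0 : ℝ) 1, A c = margA R β v w c)
    (ha : ∀ c ∈ Icc (0 : ℝ) 1, a c = c * A c) (hnp : ∀ c ∈ Ioc (0 : ℝ) 1, a c ≤ 0)
    (hβ : 0 ≤ Real.tanh R ^ 2 * β) {K : ℝ × ℝ × ℝ → ℝ}
    (hsy : ∀ r c d, K (r, c, d) = K (r, d, c))
    (hK : ∀ z, sym 4 R (radW u) z.1 z.2.1 z.2.2 -
      kapFour R u A (Real.tanh R ^ 2 * β) z ≤ K z)
    {ε T : ℝ} (hε : 0 ≤ ε) : Strict.LineK 4 a (Real.tanh R ^ 2 * β) ε T K := by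
  have hmem : ∀ {x : ℝ}, x ∈ Ioc (0 : ℝ) 1 → x ∈ Icc (-1 : ℝ) 1 ∧ -x ∈ Icc (-1 : ℝ) 1 :=
    fun hx => ⟨⟨by linarith [hx.1], hx.2⟩, ⟨by linarith [hx.2], by linarith [hx.1]⟩⟩
  have hlow := @kernel_low R β v w u hR hs hc0 hi hin ho hu hvu A hA K hK
  have hpos : ∀ r, 0 < r → 0 ≤ radU u r := fun r hr =>
    (facts_at hR hu hs.deriv_v hvu hin ho hr).1
  have hph : ∀ r c d X, 0 < r → c * d ≠ 0 → X * |c * d| ≤ Real.sinh r ^ 3 * K (r, c, d) →
      X ≤ Strict.phiK 4 ε K r c d := fun r c d X hr hcd hX => by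
    rw [Strict.phiK, le_div_iff₀ (abs_pos.2 hcd), show (4 : ℕ) - 1 = 3 from rfl, mul_add]
    linarith [mul_nonneg (pow_nonneg (Real.sinh_pos_iff.2 hr).le 3) hε]
  refine Strict.lineK_of_pointwise hsy hβ hε hnp ?_ ?_ ?_
  · intro r c d hr hc hd
    have h := hlow hr.1 (hmem hc).1 (hmem hd).1
    rw [max_eq_left hc.1.le, max_eq_left hd.1.le, max_eq_right (neg_nonpos.2 hc.1.le),
      max_eq_right (neg_nonpos.2 hd.1.le), mul_zero, zero_mul, add_zero, mul_zero, add_zero] at h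
    refine hph r c d _ hr.1 (mul_pos hc.1 hd.1).ne' ?_
    rw [abs_of_pos (mul_pos hc.1 hd.1), ha c (Ioc_subset_Icc_self hc),
      ha d (Ioc_subset_Icc_self hd), mul_div_cancel_left₀ _ hc.1.ne',
      mul_div_cancel_left₀ _ hd.1.ne']
    linarith [(le_max_left _ _).trans h, mul_nonneg hε (mul_pos hc.1 hd.1).le]
  · intro r p c d e hr hrp _ hc hd he
    have hp0 := hr.trans_le hrp
    have h := hlow hr (hmem hc).1 (hmem hd).1
    have h' := hlow hp0 (hmem hc).1 (hmem he).2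
    rw [max_eq_left hc.1.le, max_eq_left hd.1.le, max_eq_right (neg_nonpos.2 hc.1.le),
      max_eq_right (neg_nonpos.2 hd.1.le), mul_zero, zero_mul, add_zero, mul_zero, add_zero] at h
    rw [max_eq_left hc.1.le, neg_neg, max_eq_left he.1.le, max_eq_right (neg_nonpos.2 hc.1.le),
      max_eq_right (neg_nonpos.2 he.1.le)] at h'
    simp only [mul_zero, zero_mul, add_zero, neg_zero, max_self, zero_add] at h'
    have hm : Real.sinh r ^ 2 * radU u r ≤ Real.sinh p ^ 2 * radU u p :=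
      sq_sinh_radU_mono hu (T := p) (fun x hx => by
        have := (facts_at hR hu hs.deriv_v hvu hin ho hx.1).2.1
        rw [radP] at this
        linarith) ⟨hr.le, hrp⟩ ⟨hp0.le, le_rfl⟩ hrp
    have h1 : -(2 * (Real.sinh r ^ 2 * radU u r)) ≤ Strict.phiK 4 ε K r c d := by
      refine hph r c d _ hr (mul_pos hc.1 hd.1).ne' ?_
      rw [abs_of_pos (mul_pos hc.1 hd.1)]
      linarith [(le_max_right _ _).trans h]
    have h2 : 2 * (Real.sinh p ^ 2 * radU u p) ≤ Strict.phiK 4 ε K p c (-e) := by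
      refine hph p c (-e) _ hp0 (mul_ne_zero hc.1.ne' (neg_ne_zero.2 he.1.ne')) ?_
      rw [mul_neg, abs_neg, abs_of_pos (mul_pos hc.1 he.1)]
      linarith
    linarith
  · intro r c d hr hc hd
    have hu0 : 0 ≤ 2 * Real.sinh r ^ 2 * radU u r := mul_nonneg (by positivity) (hpos r hr.1)
    have h := hlow hr.1 (hmem hc).1 (hmem hd).2
    have h' := hlow hr.1 (hmem hc).2 (hmem hd).2
    simp only [max_eq_left hc.1.le, max_eq_left hd.1.le, neg_neg, max_eq_right (neg_nonpos.2 hc.1.le),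
      max_eq_right (neg_nonpos.2 hd.1.le), mul_zero, zero_mul, add_zero, zero_add, neg_zero,
      max_self] at h h'
    have hcd := mul_pos hc.1 hd.1
    exact ⟨hph r c (-d) 0 hr.1 (by rw [mul_neg]; exact neg_ne_zero.2 hcd.ne') (by
        linarith [mul_nonneg hu0 hcd.le]),
      hph r (-c) (-d) 0 hr.1 (by rw [neg_mul_neg]; exact hcd.ne') (by linarith)⟩

/-- Where a cosine vanishes the kernel stays nonnegative. -/
theorem critK_four (hR : 0 < R) (hs : Sol (Real.tanh R ^ 2) β v w)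
    (hc0 : ContinuousOn (margA R β v w) (Icc 0 1)) (hi : InBounds (Real.tanh R ^ 2) β v w)
    (hin : InFacts (Real.tanh R ^ 2) β v w) (ho : OutFacts R β (v 1))
    (hu : Differentiable ℝ u) (hvu : ∀ r, 0 < r → radU u r = uFour R β v r)
    {A : ℝ → ℝ} (hA : ∀ c ∈ Icc (0 : ℝ) 1, A c = margA R β v w c) {K : ℝ × ℝ × ℝ → ℝ}
    (hK : ∀ z, sym 4 R (radW u) z.1 z.2.1 z.2.2 -
      kapFour R u A (Real.tanh R ^ 2 * β) z ≤ K z)
    {ε T : ℝ} (hε : 0 ≤ ε) : Strict.CritK ε T K := by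
  intro r c d hr hc hd hcd
  rcases hr.1.lt_or_eq with h | h
  · have := kernel_low hR hs hc0 hi hin ho hu hvu hA hK h hc hd
    rcases mul_eq_zero.1 hcd with h0 | h0 <;>
    · rw [h0] at this ⊢
      simp only [neg_zero, max_self, mul_zero, zero_mul, add_zero] at this
      linarith [nonneg_of_mul_nonneg_right this (pow_pos (Real.sinh_pos_iff.2 h) 3)]
  · subst h
    have hG := gainOK_four (T := T) hR hε hu hs.deriv_v hvu hin ho 0 c d hr hc hd
    have hg : gainW (radW u) 0 c d = 0 := by simp [gainW, hcd]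
    have hk : kapFour R u A (Real.tanh R ^ 2 * β) (0, c, d) = 0 := by
      simp only [kapFour, gap3, Real.sinh_zero, radU]
      simp
    have := hK (0, c, d)
    simp only [hk] at this
    linarith

/-- Strict certificates against every ball, given the value clause. -/
theorem strictCert_of_value (hV : ValuePin) : Rigid.StrictCert 4 := by
  intro R hR
  have he := tanh_sq_mem hR
  obtain ⟨b, hb⟩ := coeffPin _ he
  obtain ⟨θ, hθ⟩ : ∃ θ, GoodTheta θ := exists_theta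
  set e := Real.tanh R ^ 2 with hee
  set β := betaSer b
  have hs := sol_series hb he
  have hi := seriesPin _ he b hb _ _ _ hs
  have hin := Alg.algPin _ he _ _ _ hs hi
  have ho := outPin R hR _ _ _ hs hi
  have hβ : 0 ≤ e * β := mul_nonneg he.1.le (le_trans (by norm_num) hi.beta_lo)
  have hc0 := continuousOn_margA (β := β) hR hb
  obtain ⟨A, hAd⟩ : ∃ A, A = fun c => margA R β (vSer e b) (wSer e b) (clamp01 c) := ⟨_, rfl⟩
  have hA : ∀ c ∈ Icc (0 : ℝ) 1, A c = margA R β (vSer e b) (wSer e b) c := fun c hc => by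
    simp only [hAd, clamp01_of_mem hc]
  have hAc : Continuous A := hAd ▸ hc0.comp_continuous
    (continuous_const.max (continuous_const.min continuous_id)) clamp01_mem
  obtain ⟨a, had⟩ : ∃ a, a = fun c => clamp01 c * A c := ⟨_, rfl⟩
  have ha : ∀ c ∈ Icc (0 : ℝ) 1, a c = c * A c := fun c hc => by
    simp only [had, clamp01_of_mem hc]
  have hac : Continuous a := had ▸ (continuous_const.max
    (continuous_const.min continuous_id)).mul hAc
  have hnp : ∀ c ∈ Icc (0 : ℝ) 1, a c ≤ 0 := fun c hc => by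
    rw [ha c hc, hA c hc]
    exact mul_nonpos_of_nonneg_of_nonpos hc.1 (margA_nonpos hR hs hc0 hi hc)
  have hv := contDiff_radV hR hθ hb
  have hd : Differentiable ℝ (radV R θ b) := hv.differentiable one_ne_zero
  have hvu := fun r (hr : (0 : ℝ) < r) => radU_radV (b := b) hR hθ hr
  refine ⟨a, e * β, kapFour R (radV R θ b) A (e * β), hβ, hac.measurable, hnp, ?_, ?_, ?_, ?_⟩
  · obtain ⟨B, hB⟩ := isCompact_Icc.exists_bound_of_continuousOn hac.continuousOn
    exact ⟨B, fun c hc => (abs_le.1 (hB c hc)).1⟩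
  · rw [cmean_congr_Icc (g := fun c => -aFour R β (vSer e b) (wSer e b) c) fun c hc => by
      simp only [ha c hc, hA c hc, aFour_eq]]
    exact hV R hR β _ _ hs hi
  · refine ⟨continuous_kapFour hv hAc _, fun r c d => div_nonneg (le_max_right _ _)
      (pow_nonneg (Real.cosh_pos _).le 3), fun r c d hr hc hd' h0 => ?_⟩
    obtain ⟨h1, h2⟩ := gap3_facts hR hs hc0 hi hin ho hd hvu hA hr hc hd'
    rw [kapFour, max_eq_left h1, div_eq_zero_iff] at h0
    exact h2 (h0.resolve_right (pow_pos (Real.cosh_pos r) 3).ne')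
  intro ε T hε _
  have hK : ∀ z : ℝ × ℝ × ℝ, sym 4 R (radW (radV R θ b)) z.1 z.2.1 z.2.2 -
      kapFour R (radV R θ b) A (e * β) z ≤
        Rigid.cutK 4 R ε (radW (radV R θ b)) (kapFour R (radV R θ b) A (e * β)) z := fun z => by
    have h1 : 0 ≤ kapFour R (radV R θ b) A (e * β) z :=
      div_nonneg (le_max_right _ _) (pow_nonneg (Real.cosh_pos _).le 3)
    have h2 : max (kapFour R (radV R θ b) A (e * β) z - ε) 0 ≤
        kapFour R (radV R θ b) A (e * β) z := max_le (by linarith) h1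
    rw [Rigid.cutK]
    linarith
  refine ⟨radW (radV R θ b), hv.comp contDiff_fst,
    fun p q hp _ => radV_pos hR hθ hb ho hp, gainOK_four hR hε.le hd hs.deriv_v hvu hin ho,
    critK_four hR hs hc0 hi hin ho hd hvu hA hK hε.le,
    lineK_four hR hs hc0 hi hin ho hd hvu hA ha (fun c hc => hnp c (Ioc_subset_Icc_self hc)) hβ
      (fun r c d => ?_) hK hε.le⟩
  simp only [Rigid.cutK, sym_comm R _ r c d, kapFour_comm _ _ _ r c d]

end Vale.Agent.P219.CH.Relax.Four.Strictly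

namespace Vale.Agent.P219.CH.Relax.Four

/-- Strict certificates against every ball. -/
theorem strictCert : Rigid.StrictCert 4 := Strictly.strictCert_of_value valuePin

end Vale.Agent.P219.CH.Relax.Four
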