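import Vale.Agent.P219.GenK.Four.Value
import Vale.Agent.P219.Relax.Four.Cert

/-!
# P219, dimension four, every curvature bound: the value clause

The marginal coefficient over the cosine is `T ^ 3 (8 c / y ^ 3 + (1 - c ^ 2) w / c ^ 2 - 3 v)` less
the distance term. Against `c * sqrt (1 - c ^ 2)` the weight contributes the exact derivative of
`v (1 - c ^ 2) ^ (3 / 2)`, so the mean does not depend on the solution.
-/

noncomputable section

open MeasureTheory Set Filter Topology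

namespace Vale.Agent.P219.CH.Relax.Four.Val

open GenK.Four (tanh_pos tanh_lt_one' poleInt hasDerivAt_poleInt cmean_four integral_sinh_cube
  cosh_sq_inv)

variable {R β : ℝ} {v w : ℝ → ℝ}

/-- The distance at the contact `t`, in the factor `T = tanh R`. -/
def lg (T t : ℝ) : ℝ := Real.log ((1 + T * t) / (1 - T * t))

/-- The marginal coefficient over the cosine. -/
def margA (R β : ℝ) (v w : ℝ → ℝ) (c : ℝ) : ℝ :=
  Real.tanh R ^ 3 * (8 * c / yf (Real.tanh R ^ 2) c ^ 3 + (1 - c ^ 2) * w c / c ^ 2 - 3 * v c) -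
    Real.tanh R ^ 2 * β * lg (Real.tanh R) c

lemma tanh_sq_mem' (hR : 0 < R) : Real.tanh R ^ 2 ∈ Ioo (0 : ℝ) 1 :=
  ⟨pow_pos (tanh_pos hR) 2, pow_lt_one₀ (tanh_pos hR).le (tanh_lt_one' R) two_ne_zero⟩

lemma yf_pos' {e t : ℝ} (he : e ∈ Ioo (0 : ℝ) 1) (ht : t ∈ Icc (0 : ℝ) 1) : 0 < yf e t := by
  have h1 : t ^ 2 ≤ 1 := pow_le_one₀ ht.1 ht.2
  have h2 := mul_le_mul_of_nonneg_left h1 he.1.le
  unfold yf
  linarith [he.2]

lemma aFour_eq (hR : 0 < R) {c : ℝ} (hc : c ∈ Icc (0 : ℝ) 1) :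
    aFour R β v w c = c * margA R β v w c := by
  rcases eq_or_ne c 0 with rfl | hc0
  · simp [aFour]
  have hy := (yf_pos' (tanh_sq_mem' hR) hc).ne'
  simp only [aFour, margA, lg, p0F, hF, qF]
  obtain ⟨ℓ, hℓ⟩ : ∃ ℓ, ℓ = Real.log ((1 + Real.tanh R * c) / (1 - Real.tanh R * c)) := ⟨_, rfl⟩
  rw [← hℓ]
  field_simp
  simp only [yf]
  ring

lemma lg_zero (T : ℝ) : lg T 0 = 0 := by simp [lg]

lemma hasDerivAt_lg {T t : ℝ} (h1 : 0 < 1 - T * t) (h2 : 0 < 1 + T * t) :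
    HasDerivAt (lg T) (2 * T / ((1 - T * t) * (1 + T * t))) t := by
  refine (((((hasDerivAt_id t).const_mul T).const_add 1).div
    (((hasDerivAt_id t).const_mul T).const_sub 1) h1.ne').log (div_pos h2 h1).ne').congr_deriv ?_
  simp only [id_eq, Pi.div_apply]
  field_simp
  ring

lemma arg_pos (hR : 0 < R) {t : ℝ} (ht : t ∈ Icc (0 : ℝ) 1) :
    0 < 1 - Real.tanh R * t ∧ 0 < 1 + Real.tanh R * t :=
  ⟨sub_pos.2 ((mul_le_of_le_one_right (tanh_pos hR).le ht.2).trans_lt (tanh_lt_one' R)),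
    by linarith [mul_nonneg (tanh_pos hR).le ht.1]⟩

lemma continuousOn_lg (hR : 0 < R) : ContinuousOn (lg (Real.tanh R)) (Icc 0 1) :=
  fun _ ht => (hasDerivAt_lg (arg_pos hR ht).1 (arg_pos hR ht).2).continuousAt.continuousWithinAt

lemma tendsto_w_div {e : ℝ} (hs : Sol e β v w) (j : ℕ) (hj : j < 3) :
    Tendsto (fun t => w t / t ^ j) (𝓝[>] 0) (𝓝 0) := by
  obtain ⟨k, -, h⟩ := hs.origin
  have h2 : Tendsto (fun t : ℝ => t ^ (3 - j)) (𝓝[>] 0) (𝓝 0) := by
    have := ((continuous_pow (3 - j)).tendsto (0 : ℝ)).mono_left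
      (nhdsWithin_le_nhds (s := Ioi 0))
    rwa [zero_pow (by omega)] at this
  have := h.mul h2
  rw [mul_zero] at this
  refine this.congr' ?_
  filter_upwards [self_mem_nhdsWithin] with t ht
  have ht0 : t ≠ 0 := ne_of_gt ht
  rw [div_mul_eq_mul_div, div_eq_div_iff (pow_ne_zero 3 ht0) (pow_ne_zero j ht0), mul_assoc,
    ← pow_add, Nat.sub_add_cancel (by omega)]

lemma continuousOn_margA (hR : 0 < R) (hs : Sol (Real.tanh R ^ 2) β v w) :
    ContinuousOn (margA R β v w) (Icc 0 1) := by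
  have hy : ContinuousOn (fun c => 8 * c / yf (Real.tanh R ^ 2) c ^ 3) (Icc 0 1) := by
    refine ContinuousOn.div (by fun_prop) (by unfold yf; fun_prop) fun c hc => ?_
    exact pow_ne_zero 3 (yf_pos' (tanh_sq_mem' hR) hc).ne'
  have hw : ContinuousOn (fun c => (1 - c ^ 2) * w c / c ^ 2) (Icc 0 1) := by
    intro c hc
    rcases eq_or_lt_of_le hc.1 with rfl | hc0
    · rw [← Set.insert_eq_of_mem (left_mem_Icc.2 zero_le_one : (0 : ℝ) ∈ Icc (0 : ℝ) 1)]
      refine continuousWithinAt_insert_self.2 ?_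
      rw [← Icc_union_Ioc_eq_Icc (le_refl (0 : ℝ)) zero_le_one, Icc_self]
      refine ContinuousWithinAt.union continuousWithinAt_singleton ?_
      have h := (tendsto_w_div hs 2 (by norm_num))
      have h1 : Tendsto (fun t : ℝ => 1 - t ^ 2) (𝓝[>] 0) (𝓝 1) := by
        have := ((by fun_prop : Continuous fun t : ℝ => 1 - t ^ 2).tendsto 0).mono_left
          (nhdsWithin_le_nhds (s := Ioi 0))
        simpa using this
      have := h1.mul h
      rw [one_mul] at this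
      unfold ContinuousWithinAt
      rw [nhdsWithin_Ioc_eq_nhdsGT zero_lt_one]
      simpa [mul_div_assoc, hs.zero_w] using this
    · exact ((((continuousWithinAt_id.pow 2).const_sub 1).mul (hs.cont_w c hc)).div
        (continuousWithinAt_id.pow 2) (pow_ne_zero 2 hc0.ne'))
  exact ((hy.add hw).sub (hs.cont_v.const_smul (3 : ℝ))).const_smul (Real.tanh R ^ 3) |>.sub
    ((continuousOn_lg hR).const_smul (Real.tanh R ^ 2 * β)) |>.congr fun c _ => by
      simp [margA]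

/-- Along a solution the coefficient falls at the rate of the slope. -/
lemma hasDerivAt_margA (hR : 0 < R) (hs : Sol (Real.tanh R ^ 2) β v w) {t : ℝ}
    (ht : t ∈ Ioo (0 : ℝ) 1) : HasDerivAt (margA R β v w)
      (-(2 * Real.tanh R) ^ 3 * slopeF (Real.tanh R ^ 2) t (v t) (w t)) t := by
  have hy := yf_pos' (tanh_sq_mem' hR) (Ioo_subset_Icc_self ht)
  obtain ⟨h1, h2⟩ := arg_pos hR (Ioo_subset_Icc_self ht)
  have hyd : HasDerivAt (fun x => yf (Real.tanh R ^ 2) x) (-(2 * Real.tanh R ^ 2 * t)) t := by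
    unfold yf
    exact (((hasDerivAt_pow 2 t).const_mul _).const_sub 1).congr_deriv (by push_cast; ring)
  have hA := ((hasDerivAt_id t).const_mul (8 : ℝ)).div (hyd.pow 3) (pow_ne_zero 3 hy.ne')
  have hB := (((hasDerivAt_pow 2 t).const_sub 1).mul (hs.deriv_w t ht)).div (hasDerivAt_pow 2 t)
    (pow_ne_zero 2 ht.1.ne')
  have hC := (hs.deriv_v t ht).const_mul (3 : ℝ)
  have hd : HasDerivAt (margA R β v w) _ t := (((hA.add hB).sub hC).const_mul
    (Real.tanh R ^ 3)).sub ((hasDerivAt_lg h1 h2).const_mul (Real.tanh R ^ 2 * β))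
  refine hd.congr_deriv ?_
  have hW : 1 - t ^ 2 ≠ 0 := by nlinarith [ht.1, ht.2]
  have ht0 := ht.1.ne'
  have e1 : (1 - Real.tanh R * t) * (1 + Real.tanh R * t) = yf (Real.tanh R ^ 2) t := by
    unfold yf; ring
  simp only [Pi.mul_apply, Pi.pow_apply, id_eq, wDeriv, src, slopeF]
  rw [e1]
  push_cast
  field_simp
  simp only [yf]
  ring

lemma margA_zero (hs : Sol (Real.tanh R ^ 2) β v w) : margA R β v w 0 = 0 := by
  simp [margA, lg_zero, hs.zero_v]

lemma margA_antitone (hR : 0 < R) (hs : Sol (Real.tanh R ^ 2) β v w)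
    (hi : InFacts (Real.tanh R ^ 2) β v w) : AntitoneOn (margA R β v w) (Icc 0 1) := by
  refine antitoneOn_of_deriv_nonpos (convex_Icc 0 1) (continuousOn_margA hR hs) ?_ ?_
  · rw [interior_Icc]
    exact fun t ht => (hasDerivAt_margA hR hs ht).differentiableAt.differentiableWithinAt
  · rw [interior_Icc]
    intro t ht
    rw [(hasDerivAt_margA hR hs ht).deriv]
    exact mul_nonpos_of_nonpos_of_nonneg
      (neg_nonpos.2 (pow_nonneg (by linarith [tanh_pos hR]) 3)) (hi.slope t (Ioo_subset_Ioc_self ht))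

lemma margA_nonpos (hR : 0 < R) (hs : Sol (Real.tanh R ^ 2) β v w)
    (hi : InFacts (Real.tanh R ^ 2) β v w) {c : ℝ} (hc : c ∈ Icc (0 : ℝ) 1) :
    margA R β v w c ≤ 0 :=
  margA_zero (R := R) hs ▸ margA_antitone hR hs hi (left_mem_Icc.2 zero_le_one) hc hc.1

lemma aFour_nonpos (hR : 0 < R) (hs : Sol (Real.tanh R ^ 2) β v w)
    (hi : InFacts (Real.tanh R ^ 2) β v w) {c : ℝ} (hc : c ∈ Icc (0 : ℝ) 1) :
    aFour R β v w c ≤ 0 :=
  aFour_eq hR hc ▸ mul_nonpos_of_nonneg_of_nonpos hc.1 (margA_nonpos hR hs hi hc)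

lemma continuousOn_aFour (hR : 0 < R) (hs : Sol (Real.tanh R ^ 2) β v w) :
    ContinuousOn (aFour R β v w) (Icc 0 1) :=
  (continuousOn_id.mul (continuousOn_margA hR hs)).congr fun _ hc => aFour_eq hR hc

/-- The mean only sees the cosines in `(0, 1]`. -/
lemma cmean_congr {n : ℕ} [NeZero n] {f g : ℝ → ℝ} (h : ∀ c ∈ Ioc (0 : ℝ) 1, f c = g c) :
    Gen.cmean n f = Gen.cmean n g := by
  unfold Gen.cmean
  congr 1
  refine integral_congr_ae (Eventually.of_forall fun x => ?_)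
  change _ * _ = _ * _
  congr 1
  by_cases hx : x ∈ {v : Fin n → ℝ | 0 < v 0}
  · rw [indicator_of_mem hx, indicator_of_mem hx]
    have hle : x 0 ^ 2 ≤ x ⬝ᵥ x := by
      rw [sq]
      exact Finset.single_le_sum (f := fun i => x i * x i) (fun i _ => mul_self_nonneg _)
        (Finset.mem_univ (0 : Fin n))
    have hpos : 0 < x ⬝ᵥ x := (pow_pos hx 2).trans_le hle
    exact h _ ⟨div_pos hx (Real.sqrt_pos.2 hpos),
      div_le_one_of_le₀ (Real.le_sqrt_of_sq_le hle) (Real.sqrt_nonneg _)⟩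
  · rw [indicator_of_notMem hx, indicator_of_notMem hx]

/-! ## The antiderivative -/

/-- An antiderivative of `c ^ 2 sqrt (1 - c ^ 2) / y ^ 3`. -/
def ratPrim (e c : ℝ) : ℝ :=
  poleInt (Real.sqrt (1 - e)) (Real.arcsin c) / (8 * (1 - e)) +
    c * Real.sqrt (1 - c ^ 2) *
      (-(2 - e) / (8 * (1 - e) * e) / yf e c + 1 / (4 * e) / yf e c ^ 2)

/-- An antiderivative of `c sqrt (1 - c ^ 2) lg T c`. -/
def distPrim (T c : ℝ) : ℝ :=
  -(1 - c ^ 2) * Real.sqrt (1 - c ^ 2) * lg T c / 3 + 2 * T / (3 * (T ^ 2) ^ 2) *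
    ((1 - T ^ 2 / 2 - 2 * (1 - T ^ 2)) * Real.arcsin c +
      T ^ 2 / 2 * (c * Real.sqrt (1 - c ^ 2)) +
      (1 - T ^ 2) ^ 2 * poleInt (Real.sqrt (1 - T ^ 2)) (Real.arcsin c))

lemma hasDerivAt_sqrtW {t : ℝ} (ht : 0 < 1 - t ^ 2) :
    HasDerivAt (fun c : ℝ => Real.sqrt (1 - c ^ 2)) (-t / Real.sqrt (1 - t ^ 2)) t := by
  refine (((hasDerivAt_pow 2 t).const_sub 1).sqrt ht.ne').congr_deriv ?_
  push_cast
  field_simp

lemma hasDerivAt_pole_arcsin {e t : ℝ} (he : e < 1) (h1 : -1 < t) (h2 : t < 1) :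
    HasDerivAt (fun c => poleInt (Real.sqrt (1 - e)) (Real.arcsin c))
      (1 / yf e t * (1 / Real.sqrt (1 - t ^ 2))) t := by
  have hk : 0 < Real.sqrt (1 - e) := Real.sqrt_pos.2 (sub_pos.2 he)
  refine ((hasDerivAt_poleInt hk _).comp t
    (Real.hasDerivAt_arcsin h1.ne' h2.ne)).congr_deriv ?_
  rw [Real.sq_sqrt (sub_pos.2 he).le, Real.sin_arcsin h1.le h2.le]
  simp only [yf, sub_sub_cancel]

lemma hasDerivAt_ratPrim {e t : ℝ} (he : e ∈ Ioo (0 : ℝ) 1) (ht : t ∈ Ioo (0 : ℝ) 1) :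
    HasDerivAt (ratPrim e) (t ^ 2 * Real.sqrt (1 - t ^ 2) / yf e t ^ 3) t := by
  have hW : 0 < 1 - t ^ 2 := by nlinarith [ht.1, ht.2]
  have hy := yf_pos' he (Ioo_subset_Icc_self ht)
  have he0 := he.1.ne'
  have hd : 1 - e ≠ 0 := by linarith [he.2]
  have hyd : HasDerivAt (fun x => yf e x) (-(2 * e * t)) t := by
    unfold yf
    exact (((hasDerivAt_pow 2 t).const_mul e).const_sub 1).congr_deriv (by push_cast; ring)
  have h := ((hasDerivAt_pole_arcsin he.2 (by linarith [ht.1]) ht.2).div_const (8 * (1 - e))).add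
    (((hasDerivAt_id t).mul (hasDerivAt_sqrtW hW)).mul
      (((hasDerivAt_const t (-(2 - e) / (8 * (1 - e) * e))).div hyd hy.ne').add
        ((hasDerivAt_const t (1 / (4 * e))).div (hyd.pow 2) (pow_ne_zero 2 hy.ne'))))
  refine (h : HasDerivAt (ratPrim e) _ t).congr_deriv ?_
  have hs := (Real.sqrt_pos.2 hW).ne'
  have hs2 := Real.sq_sqrt hW.le
  simp only [Pi.mul_apply, Pi.pow_apply, Pi.add_apply, Pi.div_apply, id_eq]
  obtain ⟨s, hsd⟩ : ∃ s, s = Real.sqrt (1 - t ^ 2) := ⟨_, rfl⟩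
  rw [← hsd] at hs hs2 ⊢
  push_cast
  field_simp
  rw [hs2]
  simp only [yf]
  ring

lemma hasDerivAt_distPrim (hR : 0 < R) {t : ℝ} (ht : t ∈ Ioo (0 : ℝ) 1) :
    HasDerivAt (distPrim (Real.tanh R))
      (t * Real.sqrt (1 - t ^ 2) * lg (Real.tanh R) t) t := by
  have hW : 0 < 1 - t ^ 2 := by nlinarith [ht.1, ht.2]
  have he := tanh_sq_mem' hR
  have hy := yf_pos' he (Ioo_subset_Icc_self ht)
  obtain ⟨h1, h2⟩ := arg_pos hR (Ioo_subset_Icc_self ht)
  have hT0 := (tanh_pos hR).ne'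
  have h := (((((hasDerivAt_pow 2 t).const_sub 1).neg.mul (hasDerivAt_sqrtW hW)).mul
    (hasDerivAt_lg h1 h2)).div_const 3).add
    (((((Real.hasDerivAt_arcsin (show t ≠ -1 by linarith [ht.1]) ht.2.ne).const_mul
      (1 - Real.tanh R ^ 2 / 2 - 2 * (1 - Real.tanh R ^ 2))).add
      (((hasDerivAt_id t).mul (hasDerivAt_sqrtW hW)).const_mul (Real.tanh R ^ 2 / 2))).add
      ((hasDerivAt_pole_arcsin he.2 (by linarith [ht.1]) ht.2).const_mul
        ((1 - Real.tanh R ^ 2) ^ 2))).const_mul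
      (2 * Real.tanh R / (3 * (Real.tanh R ^ 2) ^ 2)))
  refine (h : HasDerivAt (distPrim (Real.tanh R)) _ t).congr_deriv ?_
  have hs := (Real.sqrt_pos.2 hW).ne'
  have hs2 := Real.sq_sqrt hW.le
  have e1 : (1 - Real.tanh R * t) * (1 + Real.tanh R * t) = yf (Real.tanh R ^ 2) t := by
    unfold yf; ring
  simp only [Pi.mul_apply, Pi.neg_apply, id_eq]
  rw [e1]
  obtain ⟨s, hsd⟩ : ∃ s, s = Real.sqrt (1 - t ^ 2) := ⟨_, rfl⟩
  rw [← hsd] at hs hs2 ⊢
  obtain ⟨ℓ, hℓ⟩ : ∃ ℓ, ℓ = lg (Real.tanh R) t := ⟨_, rfl⟩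
  rw [← hℓ]
  push_cast
  field_simp
  rw [hs2]
  simp only [yf]
  ring

lemma continuousOn_pole_arcsin {e : ℝ} (he : e < 1) :
    ContinuousOn (fun c => poleInt (Real.sqrt (1 - e)) (Real.arcsin c)) (Icc 0 1) :=
  ((continuous_iff_continuousAt.2 fun φ =>
    (hasDerivAt_poleInt (Real.sqrt_pos.2 (sub_pos.2 he)) φ).continuousAt).comp
    Real.continuous_arcsin).continuousOn

/-- The value clause, an equality. -/
theorem value_four (hR : 0 < R) (hs : Sol (Real.tanh R ^ 2) β v w)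
    (hi : InFacts (Real.tanh R ^ 2) β v w) :
    Real.sinh R ^ (2 * (4 - 1)) + Gen.cmean 4 (fun c => -aFour R β v w c) * Real.sinh R ^ (4 - 1) ≤
      Real.tanh R ^ 2 * β * ∫ t in (0 : ℝ)..R, Real.sinh t ^ (4 - 1) := by
  refine le_of_eq ?_
  have he := tanh_sq_mem' hR
  have hT := tanh_pos hR
  obtain ⟨g, hg⟩ : ∃ g : ℝ → ℝ, g = fun c => -aFour R β v w (projIcc 0 1 zero_le_one c) :=
    ⟨_, rfl⟩
  have hgc : Continuous g := by
    rw [hg]
    exact ((continuousOn_aFour hR hs).comp_continuous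
      (continuous_subtype_val.comp continuous_projIcc) fun c => (projIcc 0 1 zero_le_one c).2).neg
  have hgeq : ∀ c ∈ Icc (0 : ℝ) 1, g c = -aFour R β v w c := fun c hc => by
    simp [hg, projIcc_of_mem zero_le_one hc]
  obtain ⟨B, hB⟩ := (isCompact_Icc (a := (0 : ℝ)) (b := 1)).bddAbove_image hgc.continuousOn
  have hm := cmean_four (B := B) hgc.measurable hgc.continuousOn fun c hc =>
    ⟨by rw [hgeq c hc]; exact neg_nonneg.2 (aFour_nonpos hR hs hi hc), hB ⟨c, hc, rfl⟩⟩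
  rw [cmean_congr (g := fun c => -aFour R β v w c) fun c hc => hgeq c (Ioc_subset_Icc_self hc)]
    at hm
  set T := Real.tanh R with hTd
  obtain ⟨Φ, hΦ⟩ : ∃ Φ : ℝ → ℝ, Φ = fun c =>
      T ^ 2 * β * distPrim T c - 8 * T ^ 3 * ratPrim (T ^ 2) c -
        T ^ 3 * (v c * ((1 - c ^ 2) * Real.sqrt (1 - c ^ 2))) := ⟨_, rfl⟩
  have hcont : ContinuousOn Φ (Icc 0 1) := by
    have hp := continuousOn_pole_arcsin he.2
    have hl := continuousOn_lg hR
    have hyc : ContinuousOn (yf (T ^ 2)) (Icc 0 1) := by unfold yf; fun_prop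
    have hy0 : ∀ c ∈ Icc (0 : ℝ) 1, yf (T ^ 2) c ≠ 0 := fun c hc => (yf_pos' he hc).ne'
    have hS : ContinuousOn (fun c : ℝ => Real.sqrt (1 - c ^ 2)) (Icc 0 1) := by fun_prop
    have hA : ContinuousOn (fun c : ℝ => -(1 - c ^ 2) * Real.sqrt (1 - c ^ 2)) (Icc 0 1) := by
      fun_prop
    have hB : ContinuousOn (fun c : ℝ => T ^ 2 / 2 * (c * Real.sqrt (1 - c ^ 2))) (Icc 0 1) := by
      fun_prop
    have hW : ContinuousOn (fun c : ℝ => (1 - c ^ 2) * Real.sqrt (1 - c ^ 2)) (Icc 0 1) := by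
      fun_prop
    rw [hΦ]
    unfold distPrim ratPrim
    refine (((((hA.mul hl).div_const 3).add
      (continuousOn_const.mul (((continuousOn_const.mul Real.continuous_arcsin.continuousOn).add
        hB).add (continuousOn_const.mul hp)))).const_smul (T ^ 2 * β)).sub
      (((hp.div_const _).add ((continuousOn_id.mul hS).mul
        ((continuousOn_const.div hyc hy0).add (continuousOn_const.div (hyc.pow 2)
          fun c hc => pow_ne_zero 2 (hy0 c hc))))).const_smul (8 * T ^ 3))).sub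
      ((hs.cont_v.mul hW).const_smul (T ^ 3))
  have hd : ∀ t ∈ Ioo (0 : ℝ) 1, HasDerivAt Φ (g t * Real.sqrt (1 - t ^ 2)) t := by
    intro t ht
    have hW : 0 < 1 - t ^ 2 := by nlinarith [ht.1, ht.2]
    have h3 := ((hs.deriv_v t ht).mul (((hasDerivAt_pow 2 t).const_sub 1).mul
      (hasDerivAt_sqrtW hW))).const_mul (T ^ 3)
    have h := (((hasDerivAt_distPrim hR ht).const_mul (T ^ 2 * β)).sub
      ((hasDerivAt_ratPrim he ht).const_mul (8 * T ^ 3))).sub h3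
    rw [hΦ]
    refine h.congr_deriv ?_
    have hs2 := Real.sq_sqrt hW.le
    have hs0 := (Real.sqrt_pos.2 hW).ne'
    have hy := (yf_pos' he (Ioo_subset_Icc_self ht)).ne'
    have ht0 := ht.1.ne'
    rw [hgeq t (Ioo_subset_Icc_self ht), aFour_eq hR (Ioo_subset_Icc_self ht), margA, ← hTd]
    simp only [Pi.mul_apply]
    obtain ⟨s, hsd⟩ : ∃ s, s = Real.sqrt (1 - t ^ 2) := ⟨_, rfl⟩
    rw [← hsd] at hs0 hs2 ⊢
    obtain ⟨ℓ, hℓ⟩ : ∃ ℓ, ℓ = lg T t := ⟨_, rfl⟩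
    rw [← hℓ]
    push_cast
    field_simp
    rw [hs2]
    ring
  have hI : ∫ c in (0 : ℝ)..1, g c * Real.sqrt (1 - c ^ 2) = Φ 1 - Φ 0 :=
    intervalIntegral.integral_eq_sub_of_hasDerivAt_of_le zero_le_one hcont hd
      ((hgc.mul (by fun_prop)).intervalIntegrable _ _)
  rw [hI] at hm
  have hend : Φ 1 - Φ 0 = Real.pi / 2 * (T ^ 2 * β * (2 * T / (3 * (T ^ 2) ^ 2)) *
      (1 - T ^ 2 / 2 - 2 * (1 - T ^ 2) + (1 - T ^ 2) ^ 2 / Real.sqrt (1 - T ^ 2)) -
        8 * T ^ 3 / (8 * (1 - T ^ 2) * Real.sqrt (1 - T ^ 2))) := by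
    simp only [hΦ, distPrim, ratPrim, poleInt, Real.arcsin_one, Real.arcsin_zero, lg_zero,
      hs.zero_v, Real.sin_pi_div_two, Real.cos_pi_div_two, Real.sin_zero, Real.cos_zero]
    norm_num
    obtain ⟨k, hk⟩ : ∃ k, k = Real.sqrt (1 - T ^ 2) := ⟨_, rfl⟩
    have hk0 : k ≠ 0 := hk ▸ (Real.sqrt_pos.2 (sub_pos.2 he.2)).ne'
    have hd0 : 1 - T ^ 2 ≠ 0 := (sub_pos.2 he.2).ne'
    rw [← hk]
    field_simp
  rw [hend, mul_comm (Real.pi / 2)] at hm
  rw [mul_right_cancel₀ (by positivity) hm, show 2 * (4 - 1) = 6 from rfl,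
    show 4 - 1 = 3 from rfl, integral_sinh_cube]
  obtain ⟨C, hC⟩ : ∃ C, C = Real.cosh R := ⟨_, rfl⟩
  have hC0 : 0 < C := hC ▸ Real.cosh_pos R
  have hd1 : 1 - T ^ 2 = (1 / C) ^ 2 := by rw [hC, cosh_sq_inv]
  have hS : Real.sinh R = T * C := by
    rw [hTd, hC, Real.tanh_eq_sinh_div_cosh, div_mul_cancel₀ _ (Real.cosh_pos R).ne']
  rw [hS, ← hC, hd1, Real.sqrt_sq (by positivity)]
  have hT2 : T ^ 2 * C ^ 2 = C ^ 2 - 1 := by
    have h1 : C ^ 2 * (1 - T ^ 2) = 1 := by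
      rw [hd1, one_div_pow, mul_one_div, div_self (pow_ne_zero 2 hC0.ne')]
    linarith
  have hT0 : T ≠ 0 := hT.ne'
  have key : (T * C) ^ 6 + (T ^ 2 * β * (2 * T / (3 * (T ^ 2) ^ 2)) *
      (1 - T ^ 2 / 2 - 2 * (1 / C) ^ 2 + ((1 / C) ^ 2) ^ 2 / (1 / C)) -
        8 * T ^ 3 / (8 * (1 / C) ^ 2 * (1 / C))) * (T * C) ^ 3 =
      T ^ 2 * β * (2 / 3) * (C ^ 3 * (1 - T ^ 2 / 2) - 2 * C + 1) := by
    field_simp
    ring
  rw [key]
  linear_combination (-(T ^ 2 * β * C / 3)) * hT2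

end Vale.Agent.P219.CH.Relax.Four.Val

namespace Vale.Agent.P219.CH.Relax.Four

/-- The value clause for every solution with the bounds. -/
theorem valuePin : ValuePin := fun _ hR β v w hs hi =>
  Val.value_four hR hs (Alg.algPin _ (tanh_sq_mem hR) β v w hs hi)

/-- Certificates against every ball, in every volume. -/
theorem cert_four : Cert 4 := cert_of_value valuePin

end Vale.Agent.P219.CH.Relax.Four
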