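import Vale.Agent.P219.Relax.Four.Coeff
import Vale.Agent.P219.Relax.Four.Series
import Vale.Agent.P219.Relax.Four.Out
import Vale.Agent.P219.GenK.Four.Weight

/-!
# P219, dimension four: the radial weight

Inside the diameter the series is analytic in the half squared distance, so the exact weight extends
to a `C¹` function of it, which meets the continuation with the same derivative.
-/

noncomputable section

open Set Filter Topology

namespace Vale.Agent.P219.CH.Relax.Four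

open Ser
open GenK.Four (kap halfSq halfSq_eq halfSq_gt contDiff_halfSq tanh_kap tanh_pos)
open Out (gLin kDen pt Edge hasDerivAt_uOut)

variable {e R θ : ℝ} {b : ℕ → ℝ}

/-- The reduced variable near and beyond zero. -/
def xIn (θ a : ℝ) : ℝ := halfSq θ a * kap θ a ^ 2 / 2

theorem exists_theta : ∃ θ : ℝ, 0 < θ ∧ ∀ h : ℝ, -θ ^ 2 / 2 < h →
    0 < Bend.csh (h / 2) ∧ 0 < Bend.kfac (1 / 2) h ∧ |h * Bend.kfac (1 / 2) h ^ 2 / 2| < 1 := by
  have hc : Continuous fun h : ℝ => Bend.csh (h / 2) :=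
    (Bend.contDiff_csh (k := 1)).continuous.comp (continuous_id.div_const 2)
  have h0 : Bend.csh ((0 : ℝ) / 2) = 1 := by rw [zero_div, Bend.csh_zero]
  have hk0 : Bend.kfac (1 / 2) 0 = 1 := by
    simp [Bend.kfac, Bend.csh_zero, Bend.cshd_zero]
  have hk : ContinuousAt (Bend.kfac (1 / 2)) 0 := by
    unfold Bend.kfac
    refine ContinuousAt.div ?_ ?_ ?_
    · exact (continuous_const.mul ((Bend.contDiff_cshd (k := 1)).continuous.comp
        (continuous_const.mul continuous_id))).continuousAt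
    · exact ((Bend.contDiff_csh (k := 1)).continuous.comp
        (continuous_const.mul continuous_id)).continuousAt
    · simp [Bend.csh_zero]
  have hX : ContinuousAt (fun h => |h * Bend.kfac (1 / 2) h ^ 2 / 2|) 0 :=
    ((continuousAt_id.mul (hk.pow 2)).div_const 2).abs
  have hev : ∀ᶠ h in 𝓝 (0 : ℝ), 0 < Bend.csh (h / 2) ∧ 0 < Bend.kfac (1 / 2) h ∧
      |h * Bend.kfac (1 / 2) h ^ 2 / 2| < 1 :=
    (hc.continuousAt.eventually (lt_mem_nhds (by simp only [h0]; norm_num))).and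
      ((hk.eventually (lt_mem_nhds (by rw [hk0]; norm_num))).and
        (hX.eventually (gt_mem_nhds (by simp))))
  obtain ⟨δ, hδ, hall⟩ := Metric.eventually_nhds_iff.1 hev
  refine ⟨Real.sqrt δ, Real.sqrt_pos.2 hδ, fun h h1 => ?_⟩
  rw [Real.sq_sqrt hδ.le] at h1
  rcases le_or_gt h 0 with h2 | h2
  · exact hall (by rw [Real.dist_eq, sub_zero, abs_of_nonpos h2]; linarith)
  · set r := Real.sqrt (2 * h) with hr
    have hr0 : 0 < r := Real.sqrt_pos.2 (by linarith)
    have hh : r ^ 2 / 2 = h := by rw [hr, Real.sq_sqrt (by linarith)]; ring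
    have hk : Bend.kfac (1 / 2) h = 2 * Real.tanh (r / 2) / r := by
      rw [← tanh_kap (θ := 1) one_ne_zero hr0, kap, halfSq_eq one_ne_zero (by positivity), hh]
    refine ⟨Bend.csh_pos (by linarith), ?_, ?_⟩
    · rw [hk]
      exact div_pos (mul_pos two_pos (tanh_pos (by linarith))) hr0
    · have e1 : h * Bend.kfac (1 / 2) h ^ 2 / 2 = Real.tanh (r / 2) ^ 2 := by
        rw [hk, ← hh]
        field_simp
      rw [e1, abs_of_nonneg (sq_nonneg _)]
      exact (sq_lt_one_iff_abs_lt_one _).2 (Real.abs_tanh_lt_one _)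

/-- The weight inside the diameter, continued. -/
def vIn (θ : ℝ) (b : ℕ → ℝ) (a : ℝ) : ℝ :=
  kap θ a / 8 * (1 - xIn θ a) ^ 2 * ser b (xIn θ a)

/-- The admissible cut-offs. -/
def GoodTheta (θ : ℝ) : Prop :=
  0 < θ ∧ ∀ h : ℝ, -θ ^ 2 / 2 < h →
    0 < Bend.csh (h / 2) ∧ 0 < Bend.kfac (1 / 2) h ∧ |h * Bend.kfac (1 / 2) h ^ 2 / 2| < 1

theorem contDiff_vIn (hθ : GoodTheta θ) (hb : PolyBdd b) : ContDiff ℝ 1 (vIn θ b) := by
  have hh : ContDiff ℝ 1 (halfSq θ) := contDiff_halfSq θ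
  have hk : ContDiff ℝ 1 (kap θ) := by
    have hX : ContDiff ℝ 1 fun a => 2 * (1 / 2 : ℝ) ^ 2 * halfSq θ a := contDiff_const.mul hh
    show ContDiff ℝ 1 fun a => Bend.kfac (1 / 2) (halfSq θ a)
    simp only [Bend.kfac]
    refine (contDiff_const.mul (Bend.contDiff_cshd.comp hX)).div (Bend.contDiff_csh.comp hX)
      fun a => ?_
    show Bend.csh (2 * (1 / 2 : ℝ) ^ 2 * halfSq θ a) ≠ 0
    rw [show 2 * (1 / 2 : ℝ) ^ 2 * halfSq θ a = halfSq θ a / 2 by ring]
    exact (hθ.2 _ (halfSq_gt hθ.1.ne' a)).1.ne'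
  have hx : ContDiff ℝ 1 (xIn θ) := (hh.mul (hk.pow 2)).div_const 2
  have hmem : ∀ a, |xIn θ a| < 1 := fun a => (hθ.2 _ (halfSq_gt hθ.1.ne' a)).2.2
  have hs : ContDiff ℝ 1 fun a => ser b (xIn θ a) := by
    have hd : ∀ a, HasDerivAt (fun a => ser b (xIn θ a))
        (ser (dcoef b) (xIn θ a) * deriv (xIn θ) a) a := fun a =>
      (hasDerivAt_ser hb (hmem a)).comp a (hx.differentiable one_ne_zero a).hasDerivAt
    rw [contDiff_one_iff_deriv]
    refine ⟨fun a => (hd a).differentiableAt, ?_⟩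
    rw [show deriv (fun a => ser b (xIn θ a)) =
      fun a => ser (dcoef b) (xIn θ a) * deriv (xIn θ) a from funext fun a => (hd a).deriv]
    exact ((continuousOn_ser hb.dcoef).comp_continuous hx.continuous
      fun a => abs_lt.1 (hmem a)).mul (hx.continuous_deriv le_rfl)
  unfold vIn
  exact ((hk.div_const 8).mul ((contDiff_const.sub hx).pow 2)).mul hs

theorem vIn_ray (hθ : θ ≠ 0) {r : ℝ} (hr : 0 < r) :
    r * vIn θ b (r ^ 2 / 2) = Real.tanh (r / 2) * (1 - Real.tanh (r / 2) ^ 2) ^ 2 *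
      ser b (Real.tanh (r / 2) ^ 2) / 4 := by
  have hx : xIn θ (r ^ 2 / 2) = Real.tanh (r / 2) ^ 2 := by
    rw [xIn, tanh_kap hθ hr, halfSq_eq hθ (by positivity)]
    field_simp
  rw [vIn, hx, tanh_kap hθ hr]
  field_simp
  ring

theorem vIn_pos (hθ : GoodTheta θ) (hb : PolyBdd b) (hpos : ∀ n, 0 < b n) {a : ℝ} (ha : 0 ≤ a) :
    0 < vIn θ b a := by
  have h := hθ.2 _ (halfSq_gt hθ.1.ne' a)
  have hk : 0 < kap θ a := h.2.1
  have hx0 : 0 ≤ xIn θ a := by
    rw [xIn, halfSq_eq hθ.1.ne' ha]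
    positivity
  have hx1 : xIn θ a < 1 := (abs_lt.1 h.2.2).2
  have hs : 0 < ser b (xIn θ a) :=
    lt_of_lt_of_le (hpos 0) (head_le_ser hb hx0 hx1 fun n => (hpos n).le)
  rw [vIn]
  exact mul_pos (mul_pos (div_pos hk (by norm_num)) (pow_pos (sub_pos.2 hx1) 2)) hs

/-- The derivative of the continuation. -/
def uOut' (R β v₁ r : ℝ) : ℝ :=
  ((3 * coth r * gLin R β v₁ r - Real.tanh R ^ 2 * β) / Real.sinh r ^ 3 * kDen R r -
    (1 - gLin R β v₁ r / Real.sinh r ^ 3) * (3 / Real.sinh r ^ 2)) / kDen R r ^ 2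

theorem continuousOn_uOut' (hR : 0 < R) (β v₁ : ℝ) :
    ContinuousOn (uOut' R β v₁) (Ici (2 * R)) := by
  have hs : ∀ r ∈ Ici (2 * R), Real.sinh r ≠ 0 := fun r hr => (pt hR hr).s_pos.ne'
  have hk : ∀ r ∈ Ici (2 * R), kDen R r ≠ 0 := fun r hr => (pt hR hr).k_pos.ne'
  have hC : ContinuousOn coth (Ici (2 * R)) := by
    unfold coth
    exact ContinuousOn.div (by fun_prop) (by fun_prop) hs
  have hk' : ContinuousOn (kDen R) (Ici (2 * R)) := by
    unfold kDen
    exact continuousOn_const.sub (continuousOn_const.mul hC)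
  have hg : ContinuousOn (gLin R β v₁) (Ici (2 * R)) := by unfold gLin; fun_prop
  have hS : ContinuousOn (fun r => Real.sinh r) (Ici (2 * R)) := by fun_prop
  unfold uOut'
  refine ContinuousOn.div ?_ (hk'.pow 2) fun r hr => pow_ne_zero 2 (hk r hr)
  exact ((((continuousOn_const.mul hC).mul hg).sub continuousOn_const).div (hS.pow 3)
    (fun r hr => pow_ne_zero 3 (hs r hr)) |>.mul hk').sub
    ((continuousOn_const.sub (hg.div (hS.pow 3) fun r hr => pow_ne_zero 3 (hs r hr))).mul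
      (continuousOn_const.div (hS.pow 2) fun r hr => pow_ne_zero 2 (hs r hr)))

/-- The weight over the distance as a function of the half squared distance. -/
def radV (R θ : ℝ) (b : ℕ → ℝ) (a : ℝ) : ℝ :=
  if a ≤ 2 * R ^ 2 then vIn θ b a
  else uOut R (betaSer b) (vSer (Real.tanh R ^ 2) b 1) (Real.sqrt (2 * a)) / Real.sqrt (2 * a)

theorem tanh_sq_mem (hR : 0 < R) : Real.tanh R ^ 2 ∈ Ioo (0 : ℝ) 1 :=
  ⟨pow_pos (tanh_pos hR) 2, pow_lt_one₀ (tanh_pos hR).le (Real.tanh_lt_one R) two_ne_zero⟩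

theorem edge_ser (hR : 0 < R) (hb : CoeffFacts (Real.tanh R ^ 2) b) :
    Edge (Real.tanh R ^ 2) (betaSer b) (vSer (Real.tanh R ^ 2) b 1)
      (wSer (Real.tanh R ^ 2) b 1) :=
  Out.edge_of (tanh_sq_mem hR) (sol_series hb (tanh_sq_mem hR))
    (seriesPin _ (tanh_sq_mem hR) b hb _ _ _ (sol_series hb (tanh_sq_mem hR)))

/-- Value and derivative of both pieces agree at the diameter. -/
theorem match_edge (hR : 0 < R) (hθ : GoodTheta θ) (hb : CoeffFacts (Real.tanh R ^ 2) b) :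
    radU (vIn θ b) (2 * R) = uOut R (betaSer b) (vSer (Real.tanh R ^ 2) b 1) (2 * R) ∧
      deriv (radU (vIn θ b)) (2 * R) =
        uOut' R (betaSer b) (vSer (Real.tanh R ^ 2) b 1) (2 * R) := by
  have he := tanh_sq_mem hR
  have hT := tanh_pos hR
  have hd := sub_pos.2 he.2
  have hbb := hb.polyBdd he
  have hE := edge_ser hR hb
  have hτ : Real.tanh (2 * R / 2) = Real.tanh R := by rw [show 2 * R / 2 = R by ring]
  have hx : |Real.tanh R ^ 2| < 1 := by rw [abs_of_pos he.1]; exact he.2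
  have hv1 : vSer (Real.tanh R ^ 2) b 1 = ser b (Real.tanh R ^ 2) := by simp [vSer]
  have hw1 : wSer (Real.tanh R ^ 2) b 1 =
      3 * ser b (Real.tanh R ^ 2) + 2 * (Real.tanh R ^ 2 * ser (dcoef b) (Real.tanh R ^ 2)) := by
    simp only [wSer, one_pow, one_mul, mul_one, ser_wCoef hbb hx]
  have h0 : Real.sinh (2 * R) ≠ 0 := (Real.sinh_pos_iff.2 (by linarith)).ne'
  have hk : kDen R (2 * R) = 3 * (1 - Real.tanh R ^ 2) / (2 * Real.tanh R) := by
    rw [kDen, Out.coth_diameter hR]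
    field_simp
    ring
  have hg : gLin R (betaSer b) (vSer (Real.tanh R ^ 2) b 1) (2 * R) = Real.sinh (2 * R) ^ 3 *
      (1 - 3 * vSer (Real.tanh R ^ 2) b 1 * (1 - Real.tanh R ^ 2) ^ 3 / 8) := by
    rw [gLin, Out.gEdge_eq hR, sub_self, mul_zero, add_zero]
  constructor
  · rw [radU, vIn_ray hθ.1.ne' (by linarith), hτ, Out.uOut_eq, hk, hg, hv1]
    field_simp
    ring
  · have hev : radU (vIn θ b) =ᶠ[𝓝 (2 * R)] fun x =>
        Real.tanh (x / 2) * (1 - Real.tanh (x / 2) ^ 2) ^ 2 * ser b (Real.tanh (x / 2) ^ 2) / 4 :=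
      Filter.eventually_of_mem (Ioi_mem_nhds (show 0 < 2 * R by linarith)) fun x hx =>
        vIn_ray hθ.1.ne' hx
    have h1 := GenK.Four.hasDerivAt_tanh_half (2 * R)
    have hD := (((h1.mul ((h1.pow 2).const_sub 1 |>.pow 2)).mul
      ((hasDerivAt_ser hbb (by simp only [Pi.pow_apply, hτ]; exact hx)).comp (2 * R) (h1.pow 2))).div_const 4)
      |>.congr_of_eventuallyEq hev
    rw [hD.deriv]
    simp only [Pi.mul_apply, Pi.pow_apply, Function.comp_apply, hτ]
    push_cast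
    have eβ : betaSer b = (24 * (1 + Real.tanh R ^ 2) -
        6 * vSer (Real.tanh R ^ 2) b 1 * (1 - Real.tanh R ^ 2) ^ 3 -
        3 * wSer (Real.tanh R ^ 2) b 1 * (1 - Real.tanh R ^ 2) ^ 4) /
          (2 * (1 - Real.tanh R ^ 2) ^ 3) := by
      rw [eq_div_iff (by positivity)]
      linarith [hE.eq]
    rw [uOut', hk, hg, Out.coth_diameter hR, Out.sinh_diameter, eβ, hw1, hv1]
    field_simp
    ring

theorem sqrt_two_diam (hR : 0 < R) : Real.sqrt (2 * (2 * R ^ 2)) = 2 * R := by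
  rw [show 2 * (2 * R ^ 2) = (2 * R) ^ 2 by ring, Real.sqrt_sq (by linarith)]

/-- The weight is `C¹`. -/
theorem contDiff_radV (hR : 0 < R) (hθ : GoodTheta θ) (hb : CoeffFacts (Real.tanh R ^ 2) b) :
    ContDiff ℝ 1 (radV R θ b) := by
  set v₁ := vSer (Real.tanh R ^ 2) b 1 with hv₁
  set β := betaSer b with hβ
  have hbb := hb.polyBdd (tanh_sq_mem hR)
  have hin := contDiff_vIn hθ hbb
  set g₁ := deriv (vIn θ b)
  set f₂ := fun a => uOut R β v₁ (Real.sqrt (2 * a)) / Real.sqrt (2 * a)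
  set g₂ := fun a => (uOut' R β v₁ (Real.sqrt (2 * a)) * Real.sqrt (2 * a) -
    uOut R β v₁ (Real.sqrt (2 * a))) / Real.sqrt (2 * a) ^ 3
  have h₁ : ∀ a, HasDerivAt (vIn θ b) (g₁ a) a := fun a =>
    (hin.differentiable one_ne_zero a).hasDerivAt
  have hmem : ∀ a, 2 * R ^ 2 ≤ a → 2 * R ≤ Real.sqrt (2 * a) := fun a ha => by
    rw [← sqrt_two_diam hR]
    exact Real.sqrt_le_sqrt (by linarith)
  have h₂ : ∀ a, 2 * R ^ 2 ≤ a → HasDerivAt f₂ (g₂ a) a := fun a ha => by
    have hr := hmem a ha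
    have hr0 : (0 : ℝ) < Real.sqrt (2 * a) := by linarith
    have hra : HasDerivAt (fun a => Real.sqrt (2 * a)) (1 / Real.sqrt (2 * a)) a := by
      refine (((hasDerivAt_id a).const_mul 2).sqrt
        (by simp only [id_eq]; nlinarith)).congr_deriv ?_
      simp only [id_eq]
      field_simp
    refine ((((hasDerivAt_uOut (β := β) (v₁ := v₁) hR hr).comp a hra).div hra hr0.ne')).congr_deriv ?_
    simp only [g₂, uOut', Function.comp_apply]
    field_simp
  obtain ⟨hm1, hm2⟩ := match_edge hR hθ hb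
  have hL : (2 * R) ^ 2 / 2 = 2 * R ^ 2 := by ring
  have hdr := (hasDerivAt_radU (hin.differentiable one_ne_zero) (2 * R)).deriv
  rw [hdr, hL, ← hv₁, ← hβ] at hm2
  rw [radU, hL, ← hv₁, ← hβ] at hm1
  have e0 : vIn θ b (2 * R ^ 2) = f₂ (2 * R ^ 2) := by
    simp only [f₂, sqrt_two_diam hR, ← hm1]
    field_simp
  have e1 : g₁ (2 * R ^ 2) = g₂ (2 * R ^ 2) := by
    simp only [g₂, g₁, sqrt_two_diam hR, ← hm1, ← hm2]
    field_simp
    ring
  have hder : ∀ a, HasDerivAt (radV R θ b) (if a ≤ 2 * R ^ 2 then g₁ a else g₂ a) a := fun a => by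
    rcases lt_trichotomy a (2 * R ^ 2) with h | h | h
    · rw [if_pos h.le]
      exact (h₁ a).congr_of_eventuallyEq
        (eventually_of_mem (Iio_mem_nhds h) fun x hx => if_pos (le_of_lt hx))
    · rw [if_pos h.le, h]
      have l : HasDerivWithinAt (radV R θ b) (g₁ (2 * R ^ 2)) (Iic (2 * R ^ 2)) (2 * R ^ 2) :=
        (h₁ _).hasDerivWithinAt.congr (fun x hx => if_pos hx) (if_pos le_rfl)
      have r : HasDerivWithinAt (radV R θ b) (g₁ (2 * R ^ 2)) (Ici (2 * R ^ 2)) (2 * R ^ 2) := by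
        refine ((e1 ▸ h₂ _ le_rfl).hasDerivWithinAt).congr (fun x hx => ?_) ?_
        · rcases (Set.mem_Ici.1 hx).lt_or_eq with h' | h'
          · exact if_neg (not_le.2 h')
          · rw [← h', radV, if_pos le_rfl]
            exact e0
        · rw [radV, if_pos le_rfl]
          exact e0
      exact (l.union r).hasDerivAt (by rw [Iic_union_Ici]; exact univ_mem)
    · rw [if_neg (not_le.2 h)]
      exact (h₂ a h.le).congr_of_eventuallyEq
        (eventually_of_mem (Ioi_mem_nhds h) fun x hx => if_neg (not_le.2 hx))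
  rw [contDiff_one_iff_deriv]
  refine ⟨fun a => (hder a).differentiableAt, ?_⟩
  rw [show deriv (radV R θ b) = fun a => if a ≤ 2 * R ^ 2 then g₁ a else g₂ a from
    funext fun a => (hder a).deriv]
  refine continuous_if_le continuous_id continuous_const
    (hin.continuous_deriv le_rfl).continuousOn ?_ fun x hx => by rw [hx]; exact e1
  have hsq : ContinuousOn (fun a => Real.sqrt (2 * a)) {x : ℝ | 2 * R ^ 2 ≤ x} := by fun_prop
  have hu : ContinuousOn (uOut R β v₁) (Ici (2 * R)) := fun r hr =>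
    (hasDerivAt_uOut hR hr).continuousAt.continuousWithinAt
  exact ((((continuousOn_uOut' hR β v₁).comp hsq fun a ha => hmem a ha).mul hsq).sub
    (hu.comp hsq fun a ha => hmem a ha)).div (hsq.pow 3)
    fun a ha => pow_ne_zero 3 (by linarith [hmem a ha] : (0 : ℝ) < Real.sqrt (2 * a)).ne'

/-- It is the radial weight of the certificate. -/
theorem radU_radV (hR : 0 < R) (hθ : GoodTheta θ) {r : ℝ} (hr : 0 < r) :
    radU (radV R θ b) r = uFour R (betaSer b) (vSer (Real.tanh R ^ 2) b) r := by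
  have hT := tanh_pos hR
  rcases le_or_gt r (2 * R) with h | h
  · rw [uFour_in ⟨hr, h⟩, radU, radV, if_pos (by nlinarith), vIn_ray hθ.1.ne' hr, vSer]
    rw [show Real.tanh R ^ 2 * (Real.tanh (r / 2) / Real.tanh R) ^ 2 = Real.tanh (r / 2) ^ 2 by
      field_simp]
    field_simp
  · rw [uFour_out hR h, radU, radV, if_neg (not_le.2 (by nlinarith)),
      show 2 * (r ^ 2 / 2) = r ^ 2 by ring, Real.sqrt_sq hr.le]
    field_simp

theorem radV_pos (hR : 0 < R) (hθ : GoodTheta θ) (hb : CoeffFacts (Real.tanh R ^ 2) b)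
    (ho : OutFacts R (betaSer b) (vSer (Real.tanh R ^ 2) b 1)) {a : ℝ} (ha : 0 ≤ a) :
    0 < radV R θ b a := by
  have he := tanh_sq_mem hR
  rw [radV]
  split_ifs with h
  · exact vIn_pos hθ (hb.polyBdd he) (fun n => hb.pos he n) ha
  · have h2 : 2 * R ≤ Real.sqrt (2 * a) := by
      rw [← sqrt_two_diam hR]
      exact Real.sqrt_le_sqrt (by linarith)
    exact div_pos (ho.pos _ h2) (by linarith)

end Vale.Agent.P219.CH.Relax.Four
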